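import Crest.Prelude.Def_QuadricBundle

/-!
Row 258 (S0396): twisted sections, pull back by `(x, y) ↦ (x ^ N, y ^ N)` and twist by `O(1,1)`.

* `IsSec g n a b Q` : `Q` is a global section of `Symⁿ E (a, b)`.
* `GG g n a b` : `Symⁿ E (a, b)` is globally generated.
* `pullTwist N g` : transitions of `ψ_N^* E ⊗ O(1,1)`.
* `isHoloCocycle_pullTwist`, `isAmple_pullTwist`.
-/

set_option autoImplicit false

noncomputable section

open Crest Crest.AlgGeometry Crest.AlgGeometry.QuadricBundle

namespace Crest.Agent.R258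

/-- `(x, y) ↦ (x ^ N, y ^ N)`. -/
def powMap (N : ℕ) (p : Fin 2 → ℂ) : Fin 2 → ℂ := fun i => p i ^ N

/-- transitions of `ψ_N^* E ⊗ O(1,1)`. -/
def pullTwist {r : ℕ} (N : ℕ) (g : Transition r) : Transition r :=
  fun α β p => lineTrans 1 1 α β p • g α β (powMap N p)

/-- `Q` is a global section of `Symⁿ E ⊗ O(a, b)`. -/
def IsSec {r : ℕ} (g : Transition r) (n : ℕ) (a b : ℤ)
    (Q : Chart → (Fin 2 → ℂ) → MvPolynomial (Fin r) ℂ) : Prop :=
  (∀ α p, (Q α p).IsHomogeneous n) ∧
  (∀ α (m : Fin r →₀ ℕ), Differentiable ℂ (fun p => MvPolynomial.coeff m (Q α p))) ∧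
  ∀ α β, ∀ p ∈ overlap α β,
    Q α p = lineTrans a b α β p • frameSubst (g α β p) (Q β (tau α β p))

/-- `Symⁿ E ⊗ O(a, b)` is generated by global sections. -/
def GG {r : ℕ} (g : Transition r) (n : ℕ) (a b : ℤ) : Prop :=
  ∀ (α : Chart) (p : Fin 2 → ℂ) (R : MvPolynomial (Fin r) ℂ), R.IsHomogeneous n →
    ∃ Q : Chart → (Fin 2 → ℂ) → MvPolynomial (Fin r) ℂ, IsSec g n a b Q ∧ Q α p = R


/-! ### `powMap`, `tau`, `overlap`, `lineTrans` -/


theorem differentiable_powMap (N : ℕ) : Differentiable ℂ (powMap N) := by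
  rw [differentiable_pi]
  intro i
  exact (differentiable_apply i).pow N

theorem powMap_mem_overlap {N : ℕ} {α β : Chart} {p : Fin 2 → ℂ}
    (hp : p ∈ overlap α β) : powMap N p ∈ overlap α β :=
  ⟨fun h => pow_ne_zero N (hp.1 h), fun h => pow_ne_zero N (hp.2 h)⟩

theorem tau_powMap (N : ℕ) (α β : Chart) (p : Fin 2 → ℂ) :
    tau α β (powMap N p) = powMap N (tau α β p) := by
  funext i
  fin_cases i
  · by_cases h : α.1 = β.1 <;> simp [tau, powMap, h]
  · by_cases h : α.2 = β.2 <;> simp [tau, powMap, h]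



theorem lineTrans_self (a b : ℤ) (α : Chart) (p : Fin 2 → ℂ) : lineTrans a b α α p = 1 := by
  simp [lineTrans]



theorem lineTrans_mul (a b a' b' : ℤ) {α β : Chart} {p : Fin 2 → ℂ} (hp : p ∈ overlap α β) :
    lineTrans a b α β p * lineTrans a' b' α β p = lineTrans (a + a') (b + b') α β p := by
  unfold lineTrans
  by_cases h1 : α.1 = β.1 <;> by_cases h2 : α.2 = β.2
  · simp [h1, h2]
  · simp only [h1, h2, if_true, if_false, one_mul]
    rw [zpow_add₀ (hp.2 h2)]
  · simp only [h1, h2, if_true, if_false, mul_one]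
    rw [zpow_add₀ (hp.1 h1)]
  · simp only [h1, h2, if_false]
    rw [zpow_add₀ (hp.2 h2), zpow_add₀ (hp.1 h1)]
    ring

theorem lineTrans_pow (a b : ℤ) (n : ℕ) (α β : Chart) (p : Fin 2 → ℂ) :
    lineTrans a b α β p ^ n = lineTrans (a * n) (b * n) α β p := by
  unfold lineTrans
  rw [mul_pow]
  congr 1
  · split_ifs with h
    · simp
    · rw [zpow_mul, zpow_natCast]
  · split_ifs with h
    · simp
    · rw [zpow_mul, zpow_natCast]

theorem lineTrans_powMap (N : ℕ) (a b : ℤ) (α β : Chart) (p : Fin 2 → ℂ) :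
    lineTrans a b α β (powMap N p) = lineTrans (N * a) (N * b) α β p := by
  unfold lineTrans powMap
  congr 1
  · split_ifs with h
    · rfl
    · rw [zpow_mul, zpow_natCast]
  · split_ifs with h
    · rfl
    · rw [zpow_mul, zpow_natCast]

/-- The cocycle identity for `lineTrans`, in the form which also holds for the canonical
sections `β ↦ lineTrans c d β α` (only `p ∈ overlap β γ` is required). -/
theorem lineTrans_cocycle' (c d : ℤ) {β γ : Chart} (α : Chart) {p : Fin 2 → ℂ}
    (hp : p ∈ overlap β γ) :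
    lineTrans c d β γ p * lineTrans c d γ α (tau β γ p) = lineTrans c d β α p := by
  obtain ⟨β1, β2⟩ := β
  obtain ⟨γ1, γ2⟩ := γ
  obtain ⟨α1, α2⟩ := α
  have key : ∀ (b c' a : Fin 2) (x : ℂ) (e : ℤ), (b ≠ c' → x ≠ 0) →
      (if b = c' then (1 : ℂ) else x ^ e) *
        (if c' = a then (1 : ℂ) else (if b = c' then x else x⁻¹) ^ e) =
      (if b = a then (1 : ℂ) else x ^ e) := by
    intro b c' a x e hx
    by_cases h1 : b = c'
    · subst h1; simp
    · have hx' := hx h1
      by_cases h2 : c' = a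
      · subst h2; simp [h1]
      · have h3 : b = a := by omega
        subst h3
        simp [h1, h2, hx', zpow_ne_zero]
  have k1 := key β1 γ1 α1 (p 0) c hp.1
  have k2 := key β2 γ2 α2 (p 1) d hp.2
  simp only [lineTrans, tau, Matrix.cons_val_zero, Matrix.cons_val_one]
  rw [← k1, ← k2]
  ring

theorem differentiable_lineTrans_nat (c d : ℕ) (α β : Chart) :
    Differentiable ℂ (fun p => lineTrans (c : ℤ) (d : ℤ) α β p) := by
  unfold lineTrans
  refine Differentiable.mul ?_ ?_
  · split_ifs with h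
    · exact differentiable_const _
    · simp only [zpow_natCast]
      exact (differentiable_apply 0).pow c
  · split_ifs with h
    · exact differentiable_const _
    · simp only [zpow_natCast]
      exact (differentiable_apply 1).pow d

theorem differentiableOn_lineTrans (a b : ℤ) (α β : Chart) :
    DifferentiableOn ℂ (fun p => lineTrans a b α β p) (overlap α β) := by
  unfold lineTrans
  refine DifferentiableOn.mul ?_ ?_
  · split_ifs with h
    · exact differentiableOn_const _
    · intro p hp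
      exact ((differentiableAt_apply 0 p).zpow (Or.inl (hp.1 h))).differentiableWithinAt
  · split_ifs with h
    · exact differentiableOn_const _
    · intro p hp
      exact ((differentiableAt_apply 1 p).zpow (Or.inl (hp.2 h))).differentiableWithinAt

/-! ### the pulled back and twisted cocycle -/

theorem isHoloCocycle_pullTwist {r : ℕ} (N : ℕ) {g : Transition r} (hg : IsHoloCocycle g) :
    IsHoloCocycle (pullTwist N g) where
  refl α p := by
    simp [pullTwist, lineTrans_self, hg.refl]
  holo α β i j := by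
    have h1 := differentiableOn_lineTrans 1 1 α β
    have h2 : DifferentiableOn ℂ (fun p => g α β (powMap N p) i j) (overlap α β) :=
      (hg.holo α β i j).comp (differentiable_powMap N).differentiableOn
        (fun p hp => powMap_mem_overlap hp)
    exact h1.mul h2
  cocycle α β γ p hp := by
    have h1 := lineTrans_cocycle' 1 1 γ hp.1
    have h2 := hg.cocycle α β γ (powMap N p) ⟨powMap_mem_overlap hp.1, powMap_mem_overlap hp.2⟩
    rw [tau_powMap] at h2
    simp only [pullTwist]
    rw [Matrix.smul_mul, Matrix.mul_smul, smul_smul, h1, h2]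

/-! ### frame substitution -/

theorem frameSubst_smul_poly {r : ℕ} (M : Matrix (Fin r) (Fin r) ℂ) (c : ℂ)
    (Q : MvPolynomial (Fin r) ℂ) : frameSubst M (c • Q) = c • frameSubst M Q := by
  unfold frameSubst
  exact map_smul _ _ _



theorem frameSubst_smul_matrix {r : ℕ} (M : Matrix (Fin r) (Fin r) ℂ) (c : ℂ) {n : ℕ}
    {Q : MvPolynomial (Fin r) ℂ} (hQ : Q.IsHomogeneous n) :
    frameSubst (c • M) Q = c ^ n • frameSubst M Q := by
  unfold frameSubst
  rw [MvPolynomial.as_sum Q]
  simp only [map_sum, Finset.smul_sum]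
  refine Finset.sum_congr rfl fun m hm => ?_
  have hdeg : m.degree = n := by
    by_contra hne
    exact (MvPolynomial.mem_support_iff.mp hm) (hQ.coeff_eq_zero hne)
  rw [MvPolynomial.bind₁_monomial, MvPolynomial.bind₁_monomial]
  have : ∀ j : Fin r, (∑ i, MvPolynomial.C ((c • M) i j) * MvPolynomial.X i :
      MvPolynomial (Fin r) ℂ) = MvPolynomial.C c * ∑ i, MvPolynomial.C (M i j) * MvPolynomial.X i := by
    intro j
    rw [Finset.mul_sum]
    refine Finset.sum_congr rfl fun i _ => ?_
    simp [mul_assoc]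
  simp only [this, mul_pow]
  rw [Finset.prod_mul_distrib, Finset.prod_pow_eq_pow_sum, MvPolynomial.smul_eq_C_mul]
  have h2 : ∑ i ∈ m.support, m i = n := by
    rw [← hdeg]; rfl
  rw [h2, MvPolynomial.C_pow]
  ring

/-! ### ampleness of the pull back -/

/-- If every `Symⁿ E (0, 4)` is globally generated then `ψ_N^* E ⊗ O(1,1)` is ample. -/
theorem isAmple_pullTwist {r : ℕ} (N : ℕ) {g : Transition r} {b : ℕ}
    (hGG : ∀ n, GG g n 0 (b : ℤ)) : IsAmple (pullTwist N g) := by
  intro k
  refine ⟨k + N * b, fun n hn α p R hR => ?_⟩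
  obtain ⟨c, rfl⟩ : ∃ c, n = k + N * b + c := Nat.exists_eq_add_of_le hn
  obtain ⟨Q, ⟨hQ1, hQ2, hQ3⟩, hQR⟩ := hGG (k + N * b + c) α (powMap N p) R hR
  refine ⟨fun β q => lineTrans ((N * b + c : ℕ) : ℤ) (c : ℤ) β α q • Q β (powMap N q),
    ⟨?_, ?_, ?_⟩, ?_⟩
  · intro β q
    change (lineTrans ((N * b + c : ℕ) : ℤ) (c : ℤ) β α q • Q β (powMap N q)).IsHomogeneous _
    rw [MvPolynomial.smul_eq_C_mul]
    exact (hQ1 β _).C_mul _
  · intro β m
    simp only [MvPolynomial.coeff_smul, smul_eq_mul]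
    exact (differentiable_lineTrans_nat _ _ _ _).mul
      ((hQ2 β m).comp (differentiable_powMap N))
  · intro β γ q hq
    have h1 := hQ3 β γ (powMap N q) (powMap_mem_overlap hq)
    rw [tau_powMap] at h1
    simp only [pullTwist]
    rw [frameSubst_smul_poly, frameSubst_smul_matrix _ _ (hQ1 γ _), h1,
      ← lineTrans_cocycle' _ _ α hq, lineTrans_pow, lineTrans_powMap]
    simp only [smul_smul]
    congr 1
    have e1 : lineTrans ((N * b + c : ℕ) : ℤ) (c : ℤ) β γ q *
        lineTrans ((N : ℤ) * 0) ((N : ℤ) * (b : ℤ)) β γ q =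
        lineTrans (-(k : ℤ)) (-(k : ℤ)) β γ q *
          lineTrans (1 * ((k + N * b + c : ℕ) : ℤ)) (1 * ((k + N * b + c : ℕ) : ℤ)) β γ q := by
      rw [lineTrans_mul _ _ _ _ hq, lineTrans_mul _ _ _ _ hq]
      congr 1 <;> push_cast <;> ring
    linear_combination (lineTrans ((N * b + c : ℕ) : ℤ) (c : ℤ) γ α (tau β γ q)) * e1
  · simp only [lineTrans_self, one_smul, hQR]

end Crest.Agent.R258
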