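import Crest.Prelude.Def_QuadricBundle
import Mathlib
import Crest.Agent.R258.Pullback
import Crest.Agent.R258.Relaxed

-- ▼ part R258/DualNorm
section

/-!
# Dual norms of a Griffiths positive metric

For a Hermitian metric on a rank two bundle, the dual norm square of a holomorphic functional is
smooth and plurisubharmonic (Levi form nonnegative in every direction) when the metric is
Griffiths positive.
-/

set_option autoImplicit false

noncomputable section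

namespace Crest.Agent.R258

open Crest.AlgGeometry.QuadricBundle
open scoped ComplexConjugate ComplexOrder
open Complex Filter Topology

/-- Explicit real quadratic form of a Hermitian `2 × 2` matrix. -/
def nForm (A : Matrix (Fin 2) (Fin 2) ℂ) (v : Fin 2 → ℂ) : ℝ :=
  (A 0 0).re * normSq (v 0) + 2 * (A 0 1 * v 0 * conj (v 1)).re + (A 1 1).re * normSq (v 1)

/-- Determinant of a Hermitian `2 × 2` matrix, as a real number. -/
def rdet (A : Matrix (Fin 2) (Fin 2) ℂ) : ℝ :=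
  (A 0 0).re * (A 1 1).re - normSq (A 0 1)

/-- Numerator of the dual norm. -/
def mForm (A : Matrix (Fin 2) (Fin 2) ℂ) (f : Fin 2 → ℂ) : ℝ :=
  (A 1 1).re * normSq (f 0) - 2 * (A 0 1 * f 1 * conj (f 0)).re + (A 0 0).re * normSq (f 1)

/-- The dual norm square of the functional `w ↦ f 0 * w 0 + f 1 * w 1`, for the Hermitian form
`v ↦ ∑ A i j v i conj (v j)`. -/
def dualNormSq (A : Matrix (Fin 2) (Fin 2) ℂ) (f : Fin 2 → ℂ) : ℝ :=
  mForm A f / rdet A

/-- The maximising vector for the functional `f` (unnormalised). -/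
def maxVec (A : Matrix (Fin 2) (Fin 2) ℂ) (f : Fin 2 → ℂ) : Fin 2 → ℂ :=
  ![((A 1 1).re : ℂ) * conj (f 0) - conj (A 0 1) * conj (f 1),
    -(A 0 1) * conj (f 0) + ((A 0 0).re : ℂ) * conj (f 1)]

lemma posDef_facts {A : Matrix (Fin 2) (Fin 2) ℂ} (hA : A.PosDef) :
    (A 0 0).im = 0 ∧ (A 1 1).im = 0 ∧ A 1 0 = conj (A 0 1) ∧ 0 < (A 0 0).re ∧ 0 < (A 1 1).re ∧
      0 < rdet A := by
  have hH := hA.1
  have h00 : conj (A 0 0) = A 0 0 := hH.apply 0 0
  have h11 : conj (A 1 1) = A 1 1 := hH.apply 1 1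
  have h10 : conj (A 0 1) = A 1 0 := hH.apply 1 0
  have i00 : (A 0 0).im = 0 := by
    have := congrArg Complex.im h00
    simp at this; linarith
  have i11 : (A 1 1).im = 0 := by
    have := congrArg Complex.im h11
    simp at this; linarith
  have hd0 : 0 < A 0 0 := hA.diag_pos
  have hd1 : 0 < A 1 1 := hA.diag_pos
  have hdet : 0 < A.det := hA.det_pos
  refine ⟨i00, i11, h10.symm, (Complex.lt_def.1 hd0).1, (Complex.lt_def.1 hd1).1, ?_⟩
  have h := (Complex.lt_def.1 hdet).1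
  rw [Matrix.det_fin_two, ← h10] at h
  simp only [Complex.zero_re, Complex.sub_re, Complex.mul_re, Complex.conj_re, Complex.conj_im,
    i00, i11] at h
  simp only [rdet, Complex.normSq_apply]
  linarith

lemma hNormSq_eq_nForm {H : MetricData 2} {α : Chart} {p : Fin 2 → ℂ} (hA : (H α p).PosDef)
    (v : Fin 2 → ℂ) : hNormSq H α p v = nForm (H α p) v := by
  obtain ⟨h0, h1, h2, -, -, -⟩ := posDef_facts hA
  simp only [hNormSq, nForm, Fin.sum_univ_two, h2]
  simp only [Complex.add_re, Complex.mul_re, Complex.mul_im, Complex.conj_re, Complex.conj_im,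
    h0, h1, Complex.normSq_apply]
  ring

/-- The key algebraic identity (Cauchy–Schwarz with remainder). -/
lemma nForm_mul_mForm (A : Matrix (Fin 2) (Fin 2) ℂ) (f w : Fin 2 → ℂ) :
    nForm A w * mForm A f - rdet A * normSq (f 0 * w 0 + f 1 * w 1) =
      normSq (w 0 * maxVec A f 1 - w 1 * maxVec A f 0) := by
  simp only [nForm, mForm, rdet, maxVec, Complex.normSq_apply, Matrix.cons_val_zero,
    Matrix.cons_val_one]
  simp only [Complex.add_re, Complex.add_im, Complex.sub_re, Complex.sub_im, Complex.mul_re,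
    Complex.mul_im, Complex.conj_re, Complex.conj_im, Complex.neg_re, Complex.neg_im,
    Complex.ofReal_re, Complex.ofReal_im]
  ring

lemma apply_maxVec (A : Matrix (Fin 2) (Fin 2) ℂ) (f : Fin 2 → ℂ) :
    f 0 * maxVec A f 0 + f 1 * maxVec A f 1 = (mForm A f : ℂ) := by
  simp only [mForm, maxVec, Matrix.cons_val_zero, Matrix.cons_val_one]
  apply Complex.ext
  · simp only [Complex.normSq_apply, Complex.add_re, Complex.add_im, Complex.sub_re,
      Complex.sub_im, Complex.mul_re,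
      Complex.mul_im, Complex.conj_re, Complex.conj_im, Complex.neg_re, Complex.neg_im,
      Complex.ofReal_re, Complex.ofReal_im]
    ring
  · simp only [Complex.normSq_apply, Complex.add_re, Complex.add_im, Complex.sub_re,
      Complex.sub_im, Complex.mul_re,
      Complex.mul_im, Complex.conj_re, Complex.conj_im, Complex.neg_re, Complex.neg_im,
      Complex.ofReal_re, Complex.ofReal_im]
    ring

lemma nForm_maxVec (A : Matrix (Fin 2) (Fin 2) ℂ) (f : Fin 2 → ℂ) :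
    nForm A (maxVec A f) = rdet A * mForm A f := by
  simp only [nForm, mForm, rdet, maxVec, Matrix.cons_val_zero, Matrix.cons_val_one]
  simp only [Complex.normSq_apply, Complex.add_re, Complex.add_im, Complex.sub_re,
      Complex.sub_im, Complex.mul_re,
      Complex.mul_im, Complex.conj_re, Complex.conj_im, Complex.neg_re, Complex.neg_im,
      Complex.ofReal_re, Complex.ofReal_im]
  ring

lemma nForm_nonneg {A : Matrix (Fin 2) (Fin 2) ℂ} (hA : A.PosDef) (v : Fin 2 → ℂ) :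
    0 ≤ nForm A v := by
  obtain ⟨h0, h1, h2, h3, h4, h5⟩ := posDef_facts hA
  have key : (A 0 0).re * nForm A v =
      normSq ((A 0 0).re * v 0 + conj (A 0 1) * v 1) + rdet A * normSq (v 1) := by
    simp only [nForm, rdet, Complex.normSq_apply, Complex.add_re, Complex.add_im, Complex.mul_re,
      Complex.mul_im, Complex.conj_re, Complex.conj_im, Complex.ofReal_re, Complex.ofReal_im]
    ring
  have : 0 ≤ (A 0 0).re * nForm A v := by
    rw [key]
    have := Complex.normSq_nonneg ((A 0 0).re * v 0 + conj (A 0 1) * v 1)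
    have := mul_nonneg h5.le (Complex.normSq_nonneg (v 1))
    linarith
  exact nonneg_of_mul_nonneg_right this h3

lemma nForm_pos {A : Matrix (Fin 2) (Fin 2) ℂ} (hA : A.PosDef) {v : Fin 2 → ℂ} (hv : v ≠ 0) :
    0 < nForm A v := by
  obtain ⟨h0, h1, h2, h3, h4, h5⟩ := posDef_facts hA
  have key : (A 0 0).re * nForm A v =
      normSq ((A 0 0).re * v 0 + conj (A 0 1) * v 1) + rdet A * normSq (v 1) := by
    simp only [nForm, rdet, Complex.normSq_apply, Complex.add_re, Complex.add_im, Complex.mul_re,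
      Complex.mul_im, Complex.conj_re, Complex.conj_im, Complex.ofReal_re, Complex.ofReal_im]
    ring
  have hpos : 0 < (A 0 0).re * nForm A v := by
    rw [key]
    by_cases h : v 1 = 0
    · have hv0 : v 0 ≠ 0 := by
        intro h'
        apply hv
        funext i
        fin_cases i <;> simp [h, h']
      have : 0 < normSq ((A 0 0).re * v 0 + conj (A 0 1) * v 1) := by
        rw [h, mul_zero, add_zero]
        apply Complex.normSq_pos.2
        exact mul_ne_zero (by exact_mod_cast h3.ne') hv0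
      have := mul_nonneg h5.le (Complex.normSq_nonneg (v 1))
      linarith
    · have := Complex.normSq_nonneg ((A 0 0).re * v 0 + conj (A 0 1) * v 1)
      have := mul_pos h5 (Complex.normSq_pos.2 h)
      linarith
  exact pos_of_mul_pos_right hpos h3.le

lemma mForm_nonneg {A : Matrix (Fin 2) (Fin 2) ℂ} (hA : A.PosDef) (f : Fin 2 → ℂ) :
    0 ≤ mForm A f := by
  obtain ⟨h0, h1, h2, h3, h4, h5⟩ := posDef_facts hA
  have h := nForm_nonneg hA (maxVec A f)
  rw [nForm_maxVec] at h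
  exact nonneg_of_mul_nonneg_right h h5

lemma maxVec_ne_zero {A : Matrix (Fin 2) (Fin 2) ℂ} (hA : A.PosDef) {f : Fin 2 → ℂ} (hf : f ≠ 0) :
    maxVec A f ≠ 0 := by
  obtain ⟨h0, h1, h2, h3, h4, h5⟩ := posDef_facts hA
  intro h
  apply hf
  have e0 : maxVec A f 0 = 0 := by rw [h]; rfl
  have e1 : maxVec A f 1 = 0 := by rw [h]; rfl
  simp only [maxVec, Matrix.cons_val_zero, Matrix.cons_val_one] at e0 e1
  -- solve the linear system
  have hd : ((rdet A : ℝ) : ℂ) ≠ 0 := by exact_mod_cast h5.ne'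
  have hdet : ((rdet A : ℝ) : ℂ) = ((A 0 0).re : ℂ) * ((A 1 1).re : ℂ) - A 0 1 * conj (A 0 1) := by
    rw [Complex.mul_conj]; simp [rdet]
  have c0 : ((rdet A : ℝ) : ℂ) * conj (f 0) = 0 := by
    rw [hdet]
    linear_combination ((A 0 0).re : ℂ) * e0 + conj (A 0 1) * e1
  have c1 : ((rdet A : ℝ) : ℂ) * conj (f 1) = 0 := by
    rw [hdet]
    linear_combination (A 0 1) * e0 + ((A 1 1).re : ℂ) * e1
  have f0 : f 0 = 0 := by
    have := (mul_eq_zero.1 c0).resolve_left hd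
    exact (map_eq_zero _).1 this
  have f1 : f 1 = 0 := by
    have := (mul_eq_zero.1 c1).resolve_left hd
    exact (map_eq_zero _).1 this
  funext i
  fin_cases i <;> simp [f0, f1]

lemma mForm_pos {A : Matrix (Fin 2) (Fin 2) ℂ} (hA : A.PosDef) {f : Fin 2 → ℂ} (hf : f ≠ 0) :
    0 < mForm A f := by
  obtain ⟨h0, h1, h2, h3, h4, h5⟩ := posDef_facts hA
  have h := nForm_pos hA (maxVec_ne_zero hA hf)
  rw [nForm_maxVec] at h
  exact pos_of_mul_pos_right h h5.le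

lemma dualNormSq_nonneg {A : Matrix (Fin 2) (Fin 2) ℂ} (hA : A.PosDef) (f : Fin 2 → ℂ) :
    0 ≤ dualNormSq A f :=
  div_nonneg (mForm_nonneg hA f) (posDef_facts hA).2.2.2.2.2.le

lemma dualNormSq_pos {A : Matrix (Fin 2) (Fin 2) ℂ} (hA : A.PosDef) {f : Fin 2 → ℂ}
    (hf : f ≠ 0) : 0 < dualNormSq A f :=
  div_pos (mForm_pos hA hf) (posDef_facts hA).2.2.2.2.2

lemma dualNormSq_zero (A : Matrix (Fin 2) (Fin 2) ℂ) : dualNormSq A 0 = 0 := by
  simp [dualNormSq, mForm]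

/-- Cauchy–Schwarz for the dual norm. -/
lemma normSq_apply_le {A : Matrix (Fin 2) (Fin 2) ℂ} (hA : A.PosDef) (f w : Fin 2 → ℂ) :
    normSq (f 0 * w 0 + f 1 * w 1) ≤ dualNormSq A f * nForm A w := by
  have h5 := (posDef_facts hA).2.2.2.2.2
  have := nForm_mul_mForm A f w
  have h2 := Complex.normSq_nonneg (w 0 * maxVec A f 1 - w 1 * maxVec A f 0)
  rw [dualNormSq, div_mul_eq_mul_div, le_div_iff₀ h5]
  nlinarith


/-! ### Calculus in one real variable -/








/-! ### Smoothness along lines -/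








variable {g : Transition 2} {H : MetricData 2}









/-! ### Smoothness on open sets -/



/-! ### Norm properties -/

lemma dualNormSq_smul (A : Matrix (Fin 2) (Fin 2) ℂ) (c : ℂ) (f : Fin 2 → ℂ) :
    dualNormSq A (c • f) = normSq c * dualNormSq A f := by
  unfold dualNormSq mForm
  rw [← mul_div_assoc]
  congr 1
  simp only [Pi.smul_apply, smul_eq_mul, Complex.normSq_apply, Complex.mul_re, Complex.mul_im,
    Complex.conj_re, Complex.conj_im]
  ring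

/-- The dual norm is attained. -/
lemma normSq_apply_maxVec {A : Matrix (Fin 2) (Fin 2) ℂ} (hA : A.PosDef) (f : Fin 2 → ℂ) :
    normSq (f 0 * maxVec A f 0 + f 1 * maxVec A f 1) = dualNormSq A f * nForm A (maxVec A f) := by
  have h5 := (posDef_facts hA).2.2.2.2.2
  rw [apply_maxVec, nForm_maxVec, Complex.normSq_ofReal, dualNormSq]
  field_simp

/-- If `|f · w|² ≤ C |w|²` for all `w` then the dual norm square is at most `C`. -/
lemma dualNormSq_le_of_forall {A : Matrix (Fin 2) (Fin 2) ℂ} (hA : A.PosDef) {f : Fin 2 → ℂ}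
    {C : ℝ} (h : ∀ w : Fin 2 → ℂ, normSq (f 0 * w 0 + f 1 * w 1) ≤ C * nForm A w) (hC : 0 ≤ C) :
    dualNormSq A f ≤ C := by
  by_cases hf : f = 0
  · rw [hf, dualNormSq_zero]; exact hC
  have h1 := h (maxVec A f)
  rw [normSq_apply_maxVec hA] at h1
  exact le_of_mul_le_mul_right h1 (nForm_pos hA (maxVec_ne_zero hA hf))

/-- Triangle inequality for the dual norm. -/
lemma sqrt_dualNormSq_add_le {A : Matrix (Fin 2) (Fin 2) ℂ} (hA : A.PosDef) (f k : Fin 2 → ℂ) :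
    Real.sqrt (dualNormSq A (f + k)) ≤ Real.sqrt (dualNormSq A f) + Real.sqrt (dualNormSq A k) := by
  have hle : dualNormSq A (f + k) ≤
      (Real.sqrt (dualNormSq A f) + Real.sqrt (dualNormSq A k)) ^ 2 := by
    refine dualNormSq_le_of_forall hA (fun w => ?_) (by positivity)
    have h1 := normSq_apply_le hA f w
    have h2 := normSq_apply_le hA k w
    have hn := nForm_nonneg hA w
    have hF := dualNormSq_nonneg hA f
    have hK := dualNormSq_nonneg hA k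
    have e1 : ‖f 0 * w 0 + f 1 * w 1‖ ≤ Real.sqrt (dualNormSq A f) * Real.sqrt (nForm A w) := by
      rw [← Real.sqrt_mul hF]
      apply Real.le_sqrt_of_sq_le
      rw [← Complex.normSq_eq_norm_sq]; exact h1
    have e2 : ‖k 0 * w 0 + k 1 * w 1‖ ≤ Real.sqrt (dualNormSq A k) * Real.sqrt (nForm A w) := by
      rw [← Real.sqrt_mul hK]
      apply Real.le_sqrt_of_sq_le
      rw [← Complex.normSq_eq_norm_sq]; exact h2
    have e3 : ‖(f + k) 0 * w 0 + (f + k) 1 * w 1‖ ≤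
        (Real.sqrt (dualNormSq A f) + Real.sqrt (dualNormSq A k)) * Real.sqrt (nForm A w) := by
      have : (f + k) 0 * w 0 + (f + k) 1 * w 1 =
          (f 0 * w 0 + f 1 * w 1) + (k 0 * w 0 + k 1 * w 1) := by
        simp only [Pi.add_apply]; ring
      rw [this, add_mul]
      exact (norm_add_le _ _).trans (add_le_add e1 e2)
    rw [Complex.normSq_eq_norm_sq]
    calc ‖(f + k) 0 * w 0 + (f + k) 1 * w 1‖ ^ 2
        ≤ ((Real.sqrt (dualNormSq A f) + Real.sqrt (dualNormSq A k)) * Real.sqrt (nForm A w)) ^ 2 :=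
          pow_le_pow_left₀ (norm_nonneg _) e3 2
      _ = (Real.sqrt (dualNormSq A f) + Real.sqrt (dualNormSq A k)) ^ 2 * nForm A w := by
          rw [mul_pow, Real.sq_sqrt hn]
  calc Real.sqrt (dualNormSq A (f + k))
      ≤ Real.sqrt ((Real.sqrt (dualNormSq A f) + Real.sqrt (dualNormSq A k)) ^ 2) :=
        Real.sqrt_le_sqrt hle
    _ = _ := Real.sqrt_sq (by positivity)

/-- Change of frame: with `A' = Mᵀ A conj M` and `f' = Mᵀ f` the dual norm is unchanged. -/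
lemma dualNormSq_frame (A M : Matrix (Fin 2) (Fin 2) ℂ) (hA : A.PosDef)
    (hA' : (M.transpose * A * M.map conj).PosDef) (hM : M.det ≠ 0) (f : Fin 2 → ℂ) :
    dualNormSq (M.transpose * A * M.map conj) (M.transpose.mulVec f) = dualNormSq A f := by
  have hn : ∀ w, nForm (M.transpose * A * M.map conj) w = nForm A (M.mulVec w) := by
    intro w
    obtain ⟨h0, h1, h2, -, -, -⟩ := posDef_facts hA
    simp only [nForm, Matrix.mul_apply, Matrix.mulVec, dotProduct, Fin.sum_univ_two,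
      Matrix.transpose_apply, Matrix.map_apply, h2]
    simp only [Complex.normSq_apply, Complex.add_re, Complex.add_im, Complex.mul_re,
      Complex.mul_im, Complex.conj_re, Complex.conj_im, h0, h1]
    ring
  have hf : ∀ w, (M.transpose.mulVec f) 0 * w 0 + (M.transpose.mulVec f) 1 * w 1 =
      f 0 * (M.mulVec w) 0 + f 1 * (M.mulVec w) 1 := by
    intro w
    simp only [Matrix.mulVec, dotProduct, Fin.sum_univ_two, Matrix.transpose_apply]
    ring
  apply le_antisymm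
  · refine dualNormSq_le_of_forall hA' (fun w => ?_) (dualNormSq_nonneg hA f)
    rw [hf, hn]
    exact normSq_apply_le hA f _
  · refine dualNormSq_le_of_forall hA (fun w => ?_) (dualNormSq_nonneg hA' _)
    have hu : IsUnit M.det := isUnit_iff_ne_zero.2 hM
    have hw : M.mulVec (M⁻¹.mulVec w) = w := by
      rw [Matrix.mulVec_mulVec, Matrix.mul_nonsing_inv M hu, Matrix.one_mulVec]
    have := normSq_apply_le hA' (M.transpose.mulVec f) (M⁻¹.mulVec w)
    rw [hf, hn, hw] at this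
    exact this

/-- Change of chart for the dual norm. -/
theorem dualNormSq_compat (hg : IsHoloCocycle g) (hH : IsHermitianMetric g H) {α β : Chart}
    {p : Fin 2 → ℂ} (hp : p ∈ overlap α β) (f : Fin 2 → ℂ) :
    dualNormSq (H β (tau α β p)) ((g α β p).transpose.mulVec f) = dualNormSq (H α p) f := by
  have hc := hH.compat α β p hp
  have hdet : (g α β p).det ≠ 0 := by
    have hpa : p ∈ overlap α α := by simp [overlap]
    have h1 := hg.cocycle α β α p ⟨hp, hpa⟩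
    rw [hg.refl α p] at h1
    intro h0
    have := congrArg Matrix.det h1
    rw [Matrix.det_mul, h0, zero_mul, Matrix.det_one] at this
    exact zero_ne_one this
  have hA' := hH.posDef β (tau α β p)
  rw [hc] at hA' ⊢
  exact dualNormSq_frame _ _ (hH.posDef α p) hA' hdet f

end Crest.Agent.R258
end
end

-- ▼ part R258/Growth
section

/-!
Row 258 (S0396): consequences of the maximum principle for functions of one complex variable
(`MPfun`): disc maximum principle, exterior estimates under a growth condition, annulus estimates,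
near constancy.
-/

set_option autoImplicit false

noncomputable section

open Crest Crest.AlgGeometry Crest.AlgGeometry.QuadricBundle
open Set Filter Topology

namespace Crest.Agent.R258

/-- `u : ℂ → ℝ` satisfies the maximum principle with holomorphic multipliers. -/
structure MPfun (u : ℂ → ℝ) : Prop where
  nonneg : ∀ z, 0 ≤ u z
  cont : Continuous u
  mp : ∀ K : Set ℂ, IsCompact K → ∀ ω : ℂ → ℝ, ContinuousOn ω K → (∀ z ∈ K, 0 ≤ ω z) →
    (∀ z₀ ∈ interior K, ∃ ψ : ℂ → ℂ, AnalyticAt ℂ ψ z₀ ∧ ∀ᶠ z in 𝓝 z₀, ω z = ‖ψ z‖ ^ 2) →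
    ∀ M : ℝ, 0 ≤ M → (∀ z ∈ K, z ∉ interior K → u z * ω z ≤ M) → ∀ z ∈ K, u z * ω z ≤ M

/-- local branch for `‖z‖ ^ (-2 b)`. -/
theorem weight_pow_loc (b : ℕ) {z₀ : ℂ} (hz₀ : z₀ ≠ 0) :
    ∃ ψ : ℂ → ℂ, AnalyticAt ℂ ψ z₀ ∧ ∀ᶠ z in 𝓝 z₀, (‖z‖ ^ (2 * b))⁻¹ = ‖ψ z‖ ^ 2 := by
  refine ⟨fun z => (z ^ b)⁻¹, ?_, ?_⟩
  · exact (analyticAt_id.pow b).inv (pow_ne_zero b hz₀)
  · refine Filter.Eventually.of_forall fun z => ?_
    simp only [norm_inv, norm_pow, inv_pow]
    rw [← pow_mul, mul_comm b 2]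

namespace MPfun

variable {u : ℂ → ℝ} (hu : MPfun u)

include hu

/-- Exterior maximum principle. -/
theorem exterior {F : Set ℂ} (hF : IsClosed F) {ω : ℂ → ℝ} (hω : ContinuousOn ω F)
    (hω0 : ∀ z ∈ F, 0 ≤ ω z)
    (hloc : ∀ z₀ ∈ interior F, ∃ ψ : ℂ → ℂ, AnalyticAt ℂ ψ z₀ ∧ ∀ᶠ z in 𝓝 z₀, ω z = ‖ψ z‖ ^ 2)
    {M : ℝ} (hM : 0 ≤ M)
    (hinf : ∀ M', 0 < M' → ∃ R : ℝ, ∀ z ∈ F, R ≤ ‖z‖ → u z * ω z ≤ M')
    (hbd : ∀ z ∈ F, z ∉ interior F → u z * ω z ≤ M) :
    ∀ z ∈ F, u z * ω z ≤ M := by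
  intro z hz
  refine le_of_forall_gt_imp_ge_of_dense fun M' hM' => ?_
  obtain ⟨R, hR⟩ := hinf M' (lt_of_le_of_lt hM hM')
  set R' := max (max R ‖z‖) 1 with hR'
  have hR'pos : 0 < R' := lt_of_lt_of_le one_pos (le_max_right _ _)
  have hK : IsCompact (F ∩ Metric.closedBall (0 : ℂ) R') :=
    (isCompact_closedBall 0 R').inter_left hF
  refine hu.mp _ hK ω (hω.mono inter_subset_left) (fun w hw => hω0 w hw.1) ?_ M'
    (hM.trans hM'.le) ?_ z ⟨hz, ?_⟩
  · intro z₀ hz₀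
    rw [interior_inter] at hz₀
    exact hloc z₀ hz₀.1
  · intro w hw hwi
    rw [interior_inter] at hwi
    by_cases h1 : w ∈ interior F
    · have h2 : w ∉ interior (Metric.closedBall (0 : ℂ) R') := fun h => hwi ⟨h1, h⟩
      rw [interior_closedBall _ hR'pos.ne'] at h2
      have h3 : R' ≤ ‖w‖ := by simpa using h2
      exact hR w hw.1 (((le_max_left _ _).trans (le_max_left _ _)).trans h3)
    · exact (hbd w hw.1 h1).trans hM'.le
  · simp only [Metric.mem_closedBall, dist_zero_right]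
    exact (le_max_right _ _).trans (le_max_left _ _)

/-- Disc maximum principle. -/
theorem disc {R m : ℝ} (hR : 0 < R) (hm : 0 ≤ m) (h : ∀ z, ‖z‖ = R → u z ≤ m) :
    ∀ z, ‖z‖ ≤ R → u z ≤ m := by
  intro z hz
  have := hu.mp (Metric.closedBall 0 R) (isCompact_closedBall 0 R) (fun _ => 1) continuousOn_const
    (fun _ _ => zero_le_one) (fun z₀ _ => ⟨fun _ => 1, analyticAt_const, by simp⟩) m hm ?_ z
    (by simpa using hz)
  · simpa using this
  · intro w hw hwi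
    rw [interior_closedBall _ hR.ne'] at hwi
    have h1 : ‖w‖ ≤ R := by simpa using hw
    have h2 : R ≤ ‖w‖ := by simpa using hwi
    simpa using h w (le_antisymm h1 h2)

theorem annulus {r R m : ℝ} {b : ℕ} (hr : 0 < r) (hm : 0 ≤ m)
    (h1 : ∀ z, ‖z‖ = r → u z ≤ m * ‖z‖ ^ (2 * b))
    (h2 : ∀ z, ‖z‖ = R → u z ≤ m * ‖z‖ ^ (2 * b)) :
    ∀ z, r ≤ ‖z‖ → ‖z‖ ≤ R → u z ≤ m * ‖z‖ ^ (2 * b) := by
  intro z hz1 hz2
  have hpos : ∀ w : ℂ, r ≤ ‖w‖ → 0 < ‖w‖ ^ (2 * b) := fun w hw => pow_pos (hr.trans_le hw) _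
  have key := hu.mp ({w | r ≤ ‖w‖} ∩ Metric.closedBall 0 R)
    ((isCompact_closedBall 0 R).inter_left (isClosed_le continuous_const continuous_norm))
    (fun w => (‖w‖ ^ (2 * b))⁻¹) ?_ ?_ ?_ m hm ?_ z ⟨hz1, by simpa using hz2⟩
  · rw [← div_eq_mul_inv, div_le_iff₀ (hpos z hz1)] at key
    exact key
  · refine ContinuousOn.inv₀ (by fun_prop) ?_
    intro w hw
    exact (hpos w hw.1).ne'
  · intro w hw; exact inv_nonneg.mpr (hpos w hw.1).le
  · intro z₀ hz₀
    refine weight_pow_loc b ?_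
    have : z₀ ∈ {w : ℂ | r ≤ ‖w‖} := (interior_subset hz₀).1
    intro h0
    rw [h0] at this
    simp at this
    linarith
  · intro w hw hwi
    rw [← div_eq_mul_inv, div_le_iff₀ (hpos w hw.1)]
    have hw1 : r ≤ ‖w‖ := hw.1
    have hw2 : ‖w‖ ≤ R := by simpa using hw.2
    rcases hw1.eq_or_lt with h | h
    · exact h1 w h.symm
    · rcases hw2.eq_or_lt with h' | h'
      · exact h2 w h'
      · exfalso
        apply hwi
        rw [mem_interior]
        refine ⟨{w | r < ‖w‖} ∩ Metric.ball 0 R, ?_, ?_, ⟨h, by simpa using h'⟩⟩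
        · intro v hv
          have hv1 : r < ‖v‖ := hv.1
          have hv2 : r ≤ ‖v‖ := hv1.le
          exact ⟨hv2, Metric.ball_subset_closedBall hv.2⟩
        · exact (isOpen_lt continuous_const continuous_norm).inter Metric.isOpen_ball

/-- Exterior growth estimate: `u ≤ C‖z‖^(2a)`, `a < b`, `u ≤ m` on `‖z‖ = 1` imply
`u ≤ m‖z‖^(2b)` for `1 ≤ ‖z‖`. -/
theorem outside {C m : ℝ} {a b : ℕ} (hab : a < b) (hm : 0 ≤ m)
    (hgr : ∀ z, 1 ≤ ‖z‖ → u z ≤ C * ‖z‖ ^ (2 * a))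
    (h1 : ∀ z, ‖z‖ = 1 → u z ≤ m) :
    ∀ z, 1 ≤ ‖z‖ → u z ≤ m * ‖z‖ ^ (2 * b) := by
  have hC : 0 ≤ C := by
    have := hgr 1 (by simp)
    simp at this
    exact (hu.nonneg 1).trans this
  have hpos : ∀ w : ℂ, 1 ≤ ‖w‖ → 0 < ‖w‖ ^ (2 * b) := fun w hw => pow_pos (one_pos.trans_le hw) _
  intro z hz
  have key := hu.exterior (F := {w : ℂ | 1 ≤ ‖w‖})
    (isClosed_le continuous_const continuous_norm) (ω := fun w => (‖w‖ ^ (2 * b))⁻¹)
    ?_ ?_ ?_ hm ?_ ?_ z hz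
  · rw [← div_eq_mul_inv, div_le_iff₀ (hpos z hz)] at key
    exact key
  · refine ContinuousOn.inv₀ (by fun_prop) ?_
    intro w hw
    exact (hpos w hw).ne'
  · intro w hw; exact inv_nonneg.mpr (hpos w hw).le
  · intro z₀ hz₀
    refine weight_pow_loc b ?_
    have : z₀ ∈ {w : ℂ | 1 ≤ ‖w‖} := interior_subset hz₀
    intro h0
    rw [h0] at this
    simp at this
    linarith
  · intro M' hM'
    refine ⟨max 1 (C / M'), fun w hw hRw => ?_⟩
    have hw1 : 1 ≤ ‖w‖ := hw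
    rw [← div_eq_mul_inv, div_le_iff₀ (hpos w hw)]
    refine (hgr w hw).trans ?_
    have h3 : C ≤ M' * ‖w‖ := by
      have : C / M' ≤ ‖w‖ := (le_max_right _ _).trans hRw
      rw [div_le_iff₀ hM'] at this
      linarith
    calc C * ‖w‖ ^ (2 * a) ≤ (M' * ‖w‖) * ‖w‖ ^ (2 * a) := by gcongr
      _ = M' * ‖w‖ ^ (2 * a + 1) := by ring
      _ ≤ M' * ‖w‖ ^ (2 * b) := by
          gcongr
          · omega
  · intro w hw hwi
    rw [← div_eq_mul_inv, div_le_iff₀ (hpos w hw)]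
    have hw1 : 1 ≤ ‖w‖ := hw
    rcases hw1.eq_or_lt with h | h
    · rw [← h]; simpa using h1 w h.symm
    · exfalso
      apply hwi
      rw [mem_interior]
      refine ⟨{w | 1 < ‖w‖}, ?_, isOpen_lt continuous_const continuous_norm, h⟩
      intro v hv
      have hv1 : 1 < ‖v‖ := hv
      have hv2 : 1 ≤ ‖v‖ := hv1.le
      exact hv2

end MPfun

/-- local branch for `‖φ z‖ ^ (-4 / n)`. -/
theorem weight_cpow_loc {φ : ℂ → ℂ} (hφ : ∀ z, AnalyticAt ℂ φ z) (s : ℝ) {z₀ : ℂ}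
    (hz₀ : φ z₀ ≠ 0) :
    ∃ ψ : ℂ → ℂ, AnalyticAt ℂ ψ z₀ ∧ ∀ᶠ z in 𝓝 z₀, ‖φ z‖ ^ (2 * s) = ‖ψ z‖ ^ 2 := by
  refine ⟨fun z => (φ z / φ z₀) ^ ((s : ℝ) : ℂ) * ((‖φ z₀‖ ^ s : ℝ) : ℂ), ?_, ?_⟩
  · refine AnalyticAt.mul ?_ analyticAt_const
    refine AnalyticAt.cpow ((hφ z₀).div analyticAt_const hz₀) analyticAt_const ?_
    rw [div_self hz₀]
    simp [Complex.slitPlane]
  · refine Filter.Eventually.of_forall fun z => ?_
    rw [norm_mul, Complex.norm_cpow_real, norm_div, Complex.norm_real, Real.norm_eq_abs,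
      abs_of_nonneg (Real.rpow_nonneg (norm_nonneg _) _), ← Real.mul_rpow (by positivity)
      (norm_nonneg _), div_mul_cancel₀ _ (norm_ne_zero_iff.mpr hz₀), mul_comm 2 s,
      Real.rpow_mul (norm_nonneg _)]
    norm_cast

namespace MPfun

variable {u : ℂ → ℝ} (hu : MPfun u)

include hu

/-- Near constancy. -/
theorem nearConst {C m ε : ℝ} {n : ℕ} (hn : 0 < n) (hε : 0 < ε) (hm : 0 ≤ m) (X' : ℂ)
    (hgr : ∀ z, 1 ≤ ‖z‖ → u z ≤ C * ‖z‖ ^ 2)
    (h1 : ∀ z, dist (z ^ n) X' ≤ ε → u z ≤ m) :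
    ∀ z, ε ≤ dist (z ^ n) X' → u z ≤ m * (dist (z ^ n) X' / ε) ^ (4 / n : ℝ) := by
  have hn' : (0 : ℝ) < n := by exact_mod_cast hn
  have hC : 0 ≤ C := by
    have := hgr 1 (by simp)
    simp at this
    exact (hu.nonneg 1).trans this
  have hdist : ∀ z : ℂ, dist (z ^ n) X' = ‖z ^ n - X'‖ := fun z => dist_eq_norm _ _
  simp only [hdist] at h1 ⊢
  intro z hz
  have hcont : Continuous fun z : ℂ => ‖z ^ n - X'‖ := by fun_prop
  have hpos : ∀ w : ℂ, ε ≤ ‖w ^ n - X'‖ → 0 < ‖w ^ n - X'‖ ^ (4 / n : ℝ) :=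
    fun w hw => Real.rpow_pos_of_pos (hε.trans_le hw) _
  have hωeq : ∀ w : ℂ, ‖w ^ n - X'‖ ^ (2 * (-(2 / n)) : ℝ) = (‖w ^ n - X'‖ ^ (4 / n : ℝ))⁻¹ := by
    intro w
    rw [← Real.rpow_neg (norm_nonneg _)]
    congr 1
    ring
  have hM0 : 0 ≤ m * (ε ^ (4 / n : ℝ))⁻¹ := by positivity
  have key := hu.exterior (F := {w : ℂ | ε ≤ ‖w ^ n - X'‖})
    (isClosed_le continuous_const hcont) (ω := fun w => ‖w ^ n - X'‖ ^ (2 * (-(2 / n)) : ℝ))
    ?_ ?_ ?_ hM0 ?_ ?_ z hz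
  · simp only [hωeq] at key
    rw [← div_eq_mul_inv, div_le_iff₀ (hpos z hz)] at key
    rw [Real.div_rpow (norm_nonneg _) hε.le]
    calc u z ≤ _ := key
      _ = _ := by rw [div_eq_mul_inv]; ring
  · refine ContinuousOn.rpow_const hcont.continuousOn ?_
    intro w hw
    left
    exact (hε.trans_le hw).ne'
  · intro w hw; positivity
  · intro z₀ hz₀
    refine weight_cpow_loc (φ := fun z => z ^ n - X') (fun z => by fun_prop) (-(2 / n)) ?_
    have : z₀ ∈ {w : ℂ | ε ≤ ‖w ^ n - X'‖} := interior_subset hz₀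
    intro h0
    have this2 : ε ≤ ‖z₀ ^ n - X'‖ := this
    rw [h0, norm_zero] at this2
    linarith
  · intro M' hM'
    refine ⟨max (max 1 (2 * ‖X'‖)) (16 * C / M' + 1), fun w hw hRw => ?_⟩
    have hw1 : 1 ≤ ‖w‖ := ((le_max_left _ _).trans (le_max_left _ _)).trans hRw
    have hwX : 2 * ‖X'‖ ≤ ‖w‖ := ((le_max_right _ _).trans (le_max_left _ _)).trans hRw
    have hwM : 16 * C / M' + 1 ≤ ‖w‖ := (le_max_right _ _).trans hRw
    have hw0 : 0 < ‖w‖ := one_pos.trans_le hw1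
    have hwn : ‖w‖ ≤ ‖w‖ ^ n := le_self_pow₀ hw1 hn.ne'
    have hlow : ‖w‖ ^ n / 2 ≤ ‖w ^ n - X'‖ := by
      have h5 : ‖w ^ n‖ - ‖X'‖ ≤ ‖w ^ n - X'‖ := norm_sub_norm_le _ _
      rw [norm_pow] at h5
      linarith
    have hlow2 : ‖w‖ ^ 4 / 16 ≤ ‖w ^ n - X'‖ ^ (4 / n : ℝ) := by
      have h6 : (‖w‖ ^ n / 2) ^ (4 / n : ℝ) ≤ ‖w ^ n - X'‖ ^ (4 / n : ℝ) :=
        Real.rpow_le_rpow (by positivity) hlow (by positivity)
      refine le_trans ?_ h6
      rw [Real.div_rpow (by positivity) (by norm_num), ← Real.rpow_natCast (‖w‖) n,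
        ← Real.rpow_mul (norm_nonneg _), mul_div_cancel₀ _ hn'.ne']
      have h7 : (2 : ℝ) ^ (4 / n : ℝ) ≤ 16 := by
        have h8 : (2 : ℝ) ^ (4 / n : ℝ) ≤ (2 : ℝ) ^ (4 : ℝ) := by
          refine Real.rpow_le_rpow_of_exponent_le (by norm_num) ?_
          rw [div_le_iff₀ hn']
          have : (1 : ℝ) ≤ n := by exact_mod_cast hn
          linarith
        refine h8.trans ?_
        norm_num
      have h9 : ‖w‖ ^ (4 : ℝ) = ‖w‖ ^ 4 := by
        rw [← Real.rpow_natCast]; norm_num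
      rw [h9]
      gcongr
    rw [hωeq w, ← div_eq_mul_inv, div_le_iff₀ (hpos w hw)]
    refine (hgr w hw1).trans ?_
    refine le_trans ?_ (mul_le_mul_of_nonneg_left hlow2 hM'.le)
    have h10 : 16 * C ≤ M' * ‖w‖ := by
      have : 16 * C / M' ≤ ‖w‖ := by linarith
      rw [div_le_iff₀ hM'] at this
      linarith
    have h11 : 16 * C * ‖w‖ ^ 2 ≤ M' * ‖w‖ * ‖w‖ ^ 2 := by gcongr
    have h12 : M' * ‖w‖ * ‖w‖ ^ 2 ≤ M' * ‖w‖ ^ 4 := by
      have : ‖w‖ ^ 3 ≤ ‖w‖ ^ 4 := pow_le_pow_right₀ hw1 (by norm_num)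
      nlinarith
    linarith
  · intro w hw hwi
    rw [hωeq w]
    have hw1 : ε ≤ ‖w ^ n - X'‖ := hw
    rcases hw1.eq_or_lt with h | h
    · rw [← h]
      exact mul_le_mul_of_nonneg_right (h1 w h.symm.le) (by positivity)
    · exfalso
      apply hwi
      rw [mem_interior]
      refine ⟨{w | ε < ‖w ^ n - X'‖}, ?_, isOpen_lt continuous_const hcont, h⟩
      intro v hv
      have hv1 : ε < ‖v ^ n - X'‖ := hv
      have hv2 : ε ≤ ‖v ^ n - X'‖ := hv1.le
      exact hv2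

end MPfun

end Crest.Agent.R258
end
end

-- ▼ part R258/MaxPrinciple
section

/-!
# Maximum principle for functionals on a Griffiths-positive bundle (result 258)
-/

set_option autoImplicit false

namespace Crest.Agent.R258

open Crest.AlgGeometry.QuadricBundle Filter Topology Complex

open scoped ComplexConjugate ComplexOrder

theorem ContDiffAt_deriv_aux {a : ℝ → ℝ} {t₀ : ℝ} (ha : ContDiffAt ℝ 2 a t₀) :
    DifferentiableAt ℝ (deriv a) t₀ := by
  have h : ContDiffAt ℝ 1 (fderiv ℝ a) t₀ := ha.fderiv_right (by norm_num)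
  have h2 : ContDiffAt ℝ 1 (fun t => fderiv ℝ a t 1) t₀ := h.clm_apply contDiffAt_const
  exact h2.differentiableAt (by norm_num)

/-- second derivative comparison at a touching point -/
theorem deriv_deriv_le_of_touch {a u : ℝ → ℝ} {t₀ : ℝ} (ha : ContDiffAt ℝ 2 a t₀)
    (hu : ContDiffAt ℝ 2 u t₀) (hle : ∀ᶠ t in 𝓝 t₀, u t ≤ a t) (heq : u t₀ = a t₀) :
    deriv (deriv u) t₀ ≤ deriv (deriv a) t₀ := by
  by_contra hcon
  push Not at hcon
  have hd : ContDiffAt ℝ 2 (fun t => a t - u t) t₀ := ha.sub hu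
  have hmin : IsLocalMin (fun t => a t - u t) t₀ := by
    filter_upwards [hle] with t ht
    simp only [heq, sub_self]
    linarith
  have h1 : deriv (fun t => a t - u t) t₀ = 0 := hmin.deriv_eq_zero
  have h2 : deriv (deriv (fun t => a t - u t)) t₀ = deriv (deriv a) t₀ - deriv (deriv u) t₀ := by
    have e1 : ∀ᶠ t in 𝓝 t₀, DifferentiableAt ℝ a t := by
      have := (ha.eventually (by simp)).mono fun t ht => ht.differentiableAt (by norm_num)
      exact this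
    have e2 : ∀ᶠ t in 𝓝 t₀, DifferentiableAt ℝ u t := by
      have := (hu.eventually (by simp)).mono fun t ht => ht.differentiableAt (by norm_num)
      exact this
    have e3 : deriv (fun t => a t - u t) =ᶠ[𝓝 t₀] fun t => deriv a t - deriv u t := by
      filter_upwards [e1, e2] with t h1 h2
      exact deriv_fun_sub h1 h2
    rw [e3.deriv_eq]
    exact deriv_fun_sub (ContDiffAt_deriv_aux ha) (ContDiffAt_deriv_aux hu)
  have hneg : deriv (deriv (fun t => a t - u t)) t₀ < 0 := by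
    rw [h2]; linarith
  have hmax := isLocalMax_of_deriv_deriv_neg hneg h1 hd.continuousAt
  have hconst : (fun t => a t - u t) =ᶠ[𝓝 t₀] fun _ => a t₀ - u t₀ := by
    filter_upwards [hmin, hmax] with t h3 h4
    exact le_antisymm h4 h3
  have h5 : deriv (fun t => a t - u t) =ᶠ[𝓝 t₀] fun _ => 0 := by
    have := hconst.deriv
    simpa using this
  have h6 : deriv (deriv (fun t => a t - u t)) t₀ = 0 := by
    rw [h5.deriv_eq]; simp
  linarith

section norm

variable {r : ℕ}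

theorem hNormSq_eq {H : MetricData r} {α : Chart} {q : Fin 2 → ℂ} (v : Fin r → ℂ) :
    hNormSq H α q v = (star (fun i => conj (v i)) ⬝ᵥ (H α q).mulVec (fun i => conj (v i))).re := by
  unfold hNormSq
  congr 1
  simp only [dotProduct, Matrix.mulVec, Pi.star_apply, RCLike.star_def, Complex.conj_conj,
    Finset.mul_sum]
  refine Finset.sum_congr rfl fun i _ => Finset.sum_congr rfl fun j _ => ?_
  ring

theorem hNormSq_pos {H : MetricData r} {α : Chart} {q : Fin 2 → ℂ} (hH : (H α q).PosDef)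
    {v : Fin r → ℂ} (hv : v ≠ 0) : 0 < hNormSq H α q v := by
  rw [hNormSq_eq]
  have hv' : (fun i => conj (v i)) ≠ 0 := by
    intro h
    apply hv
    funext i
    have := congrFun h i
    simpa using this
  have := hH.dotProduct_mulVec_pos hv'
  exact (Complex.pos_iff.mp this).1

theorem hNormSq_zero {H : MetricData r} {α : Chart} {q : Fin 2 → ℂ} :
    hNormSq H α q 0 = 0 := by
  simp [hNormSq]


theorem hNormSq_smul {H : MetricData r} {α : Chart} {q : Fin 2 → ℂ} (c : ℂ) (v : Fin r → ℂ) :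
    hNormSq H α q (c • v) = ‖c‖ ^ 2 * hNormSq H α q v := by
  unfold hNormSq
  have h1 : (∑ i, ∑ j, H α q i j * (c • v) i * conj ((c • v) j)) =
      ((‖c‖ ^ 2 : ℝ) : ℂ) * ∑ i, ∑ j, H α q i j * v i * conj (v j) := by
    rw [Finset.mul_sum]
    refine Finset.sum_congr rfl fun i _ => ?_
    rw [Finset.mul_sum]
    refine Finset.sum_congr rfl fun j _ => ?_
    have h2 : ((‖c‖ ^ 2 : ℝ) : ℂ) = c * conj c := by
      rw [Complex.mul_conj, Complex.normSq_eq_norm_sq]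
    rw [h2]
    simp only [Pi.smul_apply, smul_eq_mul, map_mul]
    ring
  rw [h1, Complex.re_ofReal_mul]

theorem continuous_hNormSq {g : Transition r} {H : MetricData r} (hH : IsHermitianMetric g H)
    (α : Chart) : Continuous fun qv : (Fin 2 → ℂ) × (Fin r → ℂ) => hNormSq H α qv.1 qv.2 := by
  unfold hNormSq
  refine Complex.continuous_re.comp ?_
  refine continuous_finsetSum _ fun i _ => continuous_finsetSum _ fun j _ => ?_
  refine Continuous.mul (Continuous.mul ?_ ?_) ?_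
  · exact (hH.smooth α i j).continuous.comp continuous_fst
  · exact (continuous_apply i).comp continuous_snd
  · exact Complex.continuous_conj.comp ((continuous_apply j).comp continuous_snd)

theorem continuous_hNormSq_line {g : Transition r} {H : MetricData r} (hH : IsHermitianMetric g H)
    (α : Chart) (b ξ : Fin 2 → ℂ) :
    Continuous fun zw : ℂ × (Fin r → ℂ) => hNormSq H α (b + zw.1 • ξ) zw.2 := by
  have h0 : Continuous (fun z : ℂ => b + z • ξ) := by fun_prop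
  have h1 : Continuous (fun zw : ℂ × (Fin r → ℂ) => ((b + zw.1 • ξ, zw.2) :
      (Fin 2 → ℂ) × (Fin r → ℂ))) :=
    (h0.comp continuous_fst).prodMk continuous_snd
  have h2 := Continuous.comp (g := fun qv : (Fin 2 → ℂ) × (Fin r → ℂ) => hNormSq H α qv.1 qv.2)
    (continuous_hNormSq hH α) h1
  exact h2

theorem contDiffAt_hNormSq {g : Transition r} {H : MetricData r} (hH : IsHermitianMetric g H)
    (α : Chart) {c : ℝ → (Fin 2 → ℂ)} {S : ℝ → (Fin r → ℂ)} {t₀ : ℝ}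
    (hc : ContDiffAt ℝ 2 c t₀) (hS : ContDiffAt ℝ 2 S t₀) :
    ContDiffAt ℝ 2 (fun t => hNormSq H α (c t) (S t)) t₀ := by
  unfold hNormSq
  have hre : ContDiff ℝ 2 (fun z : ℂ => z.re) := Complex.reCLM.contDiff
  refine hre.contDiffAt.comp t₀ ?_
  refine ContDiffAt.sum fun i _ => ContDiffAt.sum fun j _ => ?_
  have h1 : ContDiffAt ℝ 2 (fun t => H α (c t) i j) t₀ := by
    have h2 : ContDiff ℝ 2 (fun p => H α p i j) := (hH.smooth α i j).of_le
      (WithTop.coe_le_coe.mpr (le_top : (2 : ℕ∞) ≤ ⊤))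
    exact h2.contDiffAt.comp t₀ hc
  have h3 : ∀ k, ContDiffAt ℝ 2 (fun t => S t k) t₀ := fun k => (contDiffAt_pi.mp hS) k
  have h4 : ContDiffAt ℝ 2 (fun t => conj (S t j)) t₀ := by
    have h5 : ContDiff ℝ 2 (fun z : ℂ => conj z) := Complex.conjCLE.contDiff
    exact h5.contDiffAt.comp t₀ (h3 j)
  exact (h1.mul (h3 i)).mul h4

end norm

/-- harmonicity of the real part, in the form needed: the two second derivatives cancel. -/
theorem deriv_deriv_re_line {f : ℂ → ℂ} {z₀ : ℂ} (hf : AnalyticAt ℂ f z₀) (c ζ : ℂ) (k : ℝ) :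
    ContDiffAt ℝ 2 (fun t : ℝ => 2 * (conj c * f (z₀ + (t : ℂ) * ζ)).re - k) 0 ∧
    deriv (deriv (fun t : ℝ => 2 * (conj c * f (z₀ + (t : ℂ) * ζ)).re - k)) 0 =
      2 * (conj c * (ζ ^ 2 * deriv (deriv f) z₀)).re := by
  -- the line
  have hline : ∀ t : ℝ, HasDerivAt (fun t : ℝ => z₀ + (t : ℂ) * ζ) ζ t := by
    intro t
    have h1 : HasDerivAt (fun t : ℝ => (t : ℂ)) 1 t := Complex.ofRealCLM.hasDerivAt
    have h2 := (h1.mul_const ζ).const_add z₀
    simpa using h2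
  have hlc : Continuous (fun t : ℝ => z₀ + (t : ℂ) * ζ) := by fun_prop
  have h0 : z₀ + ((0 : ℝ) : ℂ) * ζ = z₀ := by simp
  -- differentiability near z₀
  have hev : ∀ᶠ z in 𝓝 z₀, AnalyticAt ℂ f z := hf.eventually_analyticAt
  have hevt : ∀ᶠ t : ℝ in 𝓝 0, AnalyticAt ℂ f (z₀ + (t : ℂ) * ζ) := by
    have : Tendsto (fun t : ℝ => z₀ + (t : ℂ) * ζ) (𝓝 0) (𝓝 z₀) := by
      have := hlc.tendsto 0
      rwa [h0] at this
    exact this.eventually hev
  have hre : ∀ (F : ℝ → ℂ) (F' : ℂ) (t : ℝ), HasDerivAt F F' t →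
      HasDerivAt (fun t => 2 * (conj c * F t).re - k) (2 * (conj c * F').re) t := by
    intro F F' t hF
    have h1 : HasDerivAt (fun t => conj c * F t) (conj c * F') t := hF.const_mul _
    have h2 : HasDerivAt (fun t => (conj c * F t).re) (conj c * F').re t :=
      (Complex.reCLM.hasFDerivAt.comp_hasDerivAt t h1)
    exact (h2.const_mul 2).sub_const k
  have hd1 : ∀ᶠ t : ℝ in 𝓝 0, HasDerivAt (fun t : ℝ => 2 * (conj c * f (z₀ + (t : ℂ) * ζ)).re - k)
      (2 * (conj c * (deriv f (z₀ + (t : ℂ) * ζ) * ζ)).re) t := by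
    filter_upwards [hevt] with t ht
    refine hre _ _ t ?_
    have h3 := ht.differentiableAt.hasDerivAt
    exact h3.scomp_of_eq t (hline t) rfl |>.congr_deriv (by rw [smul_eq_mul, mul_comm])
  have hderiv : deriv (fun t : ℝ => 2 * (conj c * f (z₀ + (t : ℂ) * ζ)).re - k) =ᶠ[𝓝 0]
      fun t : ℝ => 2 * (conj c * (deriv f (z₀ + (t : ℂ) * ζ) * ζ)).re := by
    filter_upwards [hd1] with t ht
    exact ht.deriv
  constructor
  · have h4 : ContDiffAt ℂ 2 f z₀ := hf.contDiffAt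
    have h5 : ContDiffAt ℝ 2 f z₀ := h4.restrict_scalars ℝ
    have h6 : ContDiffAt ℝ 2 (fun t : ℝ => z₀ + (t : ℂ) * ζ) 0 := by
      have : ContDiff ℝ 2 (fun t : ℝ => (t : ℂ)) := Complex.ofRealCLM.contDiff
      exact (contDiff_const.add (this.mul contDiff_const)).contDiffAt
    have h7 : ContDiffAt ℝ 2 (fun t : ℝ => f (z₀ + (t : ℂ) * ζ)) 0 := by
      have h8 : ContDiffAt ℝ 2 f (z₀ + ((0 : ℝ) : ℂ) * ζ) := by rw [h0]; exact h5
      exact h8.comp 0 h6
    have h9 : ContDiff ℝ 2 (fun z : ℂ => z.re) := Complex.reCLM.contDiff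
    have h10 : ContDiffAt ℝ 2 (fun t : ℝ => (conj c * f (z₀ + (t : ℂ) * ζ)).re) 0 :=
      h9.contDiffAt.comp 0 (contDiffAt_const.mul h7)
    exact (contDiffAt_const.mul h10).sub contDiffAt_const
  · rw [hderiv.deriv_eq]
    have h3 : HasDerivAt (deriv f) (deriv (deriv f) z₀) (z₀ + ((0 : ℝ) : ℂ) * ζ) := by
      rw [h0]
      exact hf.deriv.differentiableAt.hasDerivAt
    have h4 : HasDerivAt (fun t : ℝ => deriv f (z₀ + (t : ℂ) * ζ)) (deriv (deriv f) z₀ * ζ) 0 :=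
      h3.scomp_of_eq 0 (hline 0) rfl |>.congr_deriv (by rw [smul_eq_mul, mul_comm])
    have h5 := hre (fun t : ℝ => deriv f (z₀ + (t : ℂ) * ζ) * ζ) (deriv (deriv f) z₀ * ζ * ζ) 0
      (h4.mul_const ζ)
    have h6 : (fun t : ℝ => 2 * (conj c * (deriv f (z₀ + (t : ℂ) * ζ) * ζ)).re) =
        fun t : ℝ => (2 * (conj c * (deriv f (z₀ + (t : ℂ) * ζ) * ζ)).re - k) + k := by
      funext t; ring
    rw [h6]
    have h7 := (h5.add_const k).deriv
    rw [h7]
    ring_nf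

/-- The local obstruction: a touching configuration contradicts Griffiths positivity. -/
theorem no_touch {r : ℕ} {g : Transition r} {H : MetricData r} (hH : IsHermitianMetric g H)
    (hG : IsGriffithsPositive H) (α : Chart) (b ξ : Fin 2 → ℂ) (hξ : ξ ≠ 0)
    (τ : ℂ → Fin r → ℂ) (z₀ : ℂ) (hτ : ∀ i, AnalyticAt ℂ (fun z => τ z i) z₀)
    (w₀ : Fin r → ℂ) (hw₀ : w₀ ≠ 0) (M : ℝ) (hM : 0 < M)
    (hle : ∀ᶠ z in 𝓝 z₀, ∀ w : Fin r → ℂ,
      ‖∑ i, τ z i * w i‖ ^ 2 ≤ M * hNormSq H α (b + z • ξ) w)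
    (heq : ‖∑ i, τ z₀ i * w₀ i‖ ^ 2 = M * hNormSq H α (b + z₀ • ξ) w₀) : False := by
  obtain ⟨U, s, hU, hpU, hs, hsp, hlevi⟩ := hG α (b + z₀ • ξ) ξ w₀ hξ hw₀
  -- the section along the line
  have hLc : Continuous (fun z : ℂ => b + z • ξ) := by fun_prop
  have hLd : Differentiable ℂ (fun z : ℂ => b + z • ξ) := by fun_prop
  set S : ℂ → Fin r → ℂ := fun z => s (b + z • ξ) with hS
  have hSan : ∀ i, AnalyticAt ℂ (fun z => S z i) z₀ := by
    intro i
    have h1 : DifferentiableOn ℂ (fun z => S z i) ((fun z : ℂ => b + z • ξ) ⁻¹' U) := by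
      intro z hz
      have h2 : DifferentiableAt ℂ s (b + z • ξ) := (hs _ hz).differentiableAt (hU.mem_nhds hz)
      have h3 : DifferentiableAt ℂ S z := h2.comp z (hLd z)
      exact ((differentiableAt_pi.mp h3) i).differentiableWithinAt
    exact h1.analyticAt ((hU.preimage hLc).mem_nhds hpU)
  set f : ℂ → ℂ := fun z => ∑ i, τ z i * S z i with hf
  have hfan : AnalyticAt ℂ f z₀ := by
    have : AnalyticAt ℂ (fun z => ∑ i, τ z i * S z i) z₀ :=
      Finset.analyticAt_fun_sum _ fun i _ => (hτ i).mul (hSan i)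
    exact this
  set c : ℂ := f z₀ with hc
  have hcval : c = ∑ i, τ z₀ i * w₀ i := by
    rw [hc, hf]
    simp only [hS, hsp]
  -- comparison functions along the two real lines
  have hcmp : ∀ ζ : ℂ, (deriv (deriv (fun t : ℝ =>
      2 * (conj c * f (z₀ + (t : ℂ) * ζ)).re - ‖c‖ ^ 2)) 0) ≤
      M * secondDerivAlong (fun q => hNormSq H α q (s q)) (b + z₀ • ξ) (ζ • ξ) := by
    intro ζ
    have hline : ∀ t : ℝ, b + (z₀ + (t : ℂ) * ζ) • ξ = b + z₀ • ξ + (t : ℂ) • (ζ • ξ) := by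
      intro t
      rw [add_smul, mul_smul, add_assoc]
    have hlc : Continuous (fun t : ℝ => z₀ + (t : ℂ) * ζ) := by fun_prop
    have h0 : z₀ + ((0 : ℝ) : ℂ) * ζ = z₀ := by simp
    have ht0 : Tendsto (fun t : ℝ => z₀ + (t : ℂ) * ζ) (𝓝 0) (𝓝 z₀) := by
      have := hlc.tendsto 0
      rwa [h0] at this
    -- smoothness of the norm of the section
    have hAt : ContDiffAt ℝ 2 (fun t : ℝ => hNormSq H α (b + z₀ • ξ + (t : ℂ) • (ζ • ξ))
        (s (b + z₀ • ξ + (t : ℂ) • (ζ • ξ)))) 0 := by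
      refine contDiffAt_hNormSq hH α ?_ ?_
      · have h1 : ContDiff ℝ 2 (fun t : ℝ => (t : ℂ)) := Complex.ofRealCLM.contDiff
        exact (contDiff_const.add (h1.smul contDiff_const)).contDiffAt
      · have h2 : ∀ i, ContDiffAt ℝ 2 (fun z : ℂ => S z i) z₀ := fun i =>
          ((hSan i).contDiffAt (n := 2)).restrict_scalars ℝ
        have h3 : ContDiffAt ℝ 2 (fun t : ℝ => z₀ + (t : ℂ) * ζ) 0 := by
          have : ContDiff ℝ 2 (fun t : ℝ => (t : ℂ)) := Complex.ofRealCLM.contDiff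
          exact (contDiff_const.add (this.mul contDiff_const)).contDiffAt
        have h4 : ContDiffAt ℝ 2 (fun t : ℝ => S (z₀ + (t : ℂ) * ζ)) 0 := by
          rw [contDiffAt_pi]
          intro i
          have h5 : ContDiffAt ℝ 2 (fun z : ℂ => S z i) (z₀ + ((0 : ℝ) : ℂ) * ζ) := by
            rw [h0]; exact h2 i
          exact h5.comp 0 h3
        have h6 : (fun t : ℝ => S (z₀ + (t : ℂ) * ζ)) =
            fun t : ℝ => s (b + z₀ • ξ + (t : ℂ) • (ζ • ξ)) := by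
          funext t
          simp only [hS]
          rw [hline t]
        rwa [h6] at h4
    have hMA : ContDiffAt ℝ 2 (fun t : ℝ => M * hNormSq H α (b + z₀ • ξ + (t : ℂ) • (ζ • ξ))
        (s (b + z₀ • ξ + (t : ℂ) • (ζ • ξ)))) 0 := contDiffAt_const.mul hAt
    have hu := (deriv_deriv_re_line hfan c ζ (‖c‖ ^ 2)).1
    have hle' : ∀ᶠ t : ℝ in 𝓝 0, 2 * (conj c * f (z₀ + (t : ℂ) * ζ)).re - ‖c‖ ^ 2 ≤
        M * hNormSq H α (b + z₀ • ξ + (t : ℂ) • (ζ • ξ))
          (s (b + z₀ • ξ + (t : ℂ) • (ζ • ξ))) := by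
      filter_upwards [ht0.eventually hle] with t ht
      have h7 := ht (S (z₀ + (t : ℂ) * ζ))
      have h8 : 2 * (conj c * f (z₀ + (t : ℂ) * ζ)).re - ‖c‖ ^ 2 ≤
          ‖f (z₀ + (t : ℂ) * ζ)‖ ^ 2 := by
        have h9 := Complex.re_le_norm (conj c * f (z₀ + (t : ℂ) * ζ))
        rw [norm_mul, Complex.norm_conj] at h9
        nlinarith [sq_nonneg (‖c‖ - ‖f (z₀ + (t : ℂ) * ζ)‖)]
      refine h8.trans ?_
      rw [hline t] at h7
      simp only [hS, hline t] at h7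
      simp only [hf, hS, hline t]
      exact h7
    have heq' : 2 * (conj c * f (z₀ + ((0 : ℝ) : ℂ) * ζ)).re - ‖c‖ ^ 2 =
        M * hNormSq H α (b + z₀ • ξ + ((0 : ℝ) : ℂ) • (ζ • ξ))
          (s (b + z₀ • ξ + ((0 : ℝ) : ℂ) • (ζ • ξ))) := by
      rw [h0]
      have h10 : b + z₀ • ξ + ((0 : ℝ) : ℂ) • (ζ • ξ) = b + z₀ • ξ := by simp
      rw [h10, hsp, ← heq, ← hcval, ← hc]
      have h11 : (conj c * c).re = ‖c‖ ^ 2 := by
        rw [mul_comm, Complex.mul_conj, Complex.normSq_eq_norm_sq, Complex.ofReal_re]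
      rw [h11]; ring
    have h12 := deriv_deriv_le_of_touch hMA hu hle' heq'
    have h13 : deriv (deriv (fun t : ℝ => M * hNormSq H α (b + z₀ • ξ + (t : ℂ) • (ζ • ξ))
        (s (b + z₀ • ξ + (t : ℂ) • (ζ • ξ))))) 0 =
        M * secondDerivAlong (fun q => hNormSq H α q (s q)) (b + z₀ • ξ) (ζ • ξ) := by
      unfold secondDerivAlong
      have h14 : deriv (fun t : ℝ => M * hNormSq H α (b + z₀ • ξ + (t : ℂ) • (ζ • ξ))
        (s (b + z₀ • ξ + (t : ℂ) • (ζ • ξ)))) = fun t => M * deriv (fun t : ℝ =>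
        hNormSq H α (b + z₀ • ξ + (t : ℂ) • (ζ • ξ))
        (s (b + z₀ • ξ + (t : ℂ) • (ζ • ξ)))) t := by
        funext t
        exact deriv_const_mul_field M
      rw [h14]
      exact deriv_const_mul_field M
    rw [h13] at h12
    exact h12
  have h1 := hcmp 1
  have h2 := hcmp Complex.I
  rw [(deriv_deriv_re_line hfan c 1 (‖c‖ ^ 2)).2] at h1
  rw [(deriv_deriv_re_line hfan c Complex.I (‖c‖ ^ 2)).2] at h2
  rw [one_smul] at h1
  have h3 : (conj c * (1 ^ 2 * deriv (deriv f) z₀)).re +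
      (conj c * (Complex.I ^ 2 * deriv (deriv f) z₀)).re = 0 := by
    rw [Complex.I_sq, one_pow, one_mul, neg_one_mul, mul_neg, Complex.neg_re]
    ring
  have h4 : leviAlong (fun q => hNormSq H α q (s q)) (b + z₀ • ξ) ξ =
      secondDerivAlong (fun q => hNormSq H α q (s q)) (b + z₀ • ξ) ξ +
      secondDerivAlong (fun q => hNormSq H α q (s q)) (b + z₀ • ξ) (Complex.I • ξ) := rfl
  rw [h4] at hlevi
  nlinarith

/-- **Maximum principle** for `‖σ·w‖² ω / h(w)` on a compact subset of a complex line. -/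
theorem max_principle {r : ℕ} {g : Transition r} {H : MetricData r} (hH : IsHermitianMetric g H)
    (hG : IsGriffithsPositive H) (α : Chart) (b ξ : Fin 2 → ℂ) (hξ : ξ ≠ 0) (K : Set ℂ)
    (hK : IsCompact K) (σ : ℂ → Fin r → ℂ) (hσ : Differentiable ℂ σ) (ω : ℂ → ℝ)
    (hω : ContinuousOn ω K) (hω0 : ∀ z ∈ K, 0 ≤ ω z)
    (hloc : ∀ z₀ ∈ interior K, ∃ ψ : ℂ → ℂ, AnalyticAt ℂ ψ z₀ ∧ ∀ᶠ z in 𝓝 z₀, ω z = ‖ψ z‖ ^ 2)
    (M : ℝ) (hM : 0 ≤ M)
    (hbd : ∀ z ∈ K, z ∉ interior K → ∀ w : Fin r → ℂ,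
      ‖∑ i, σ z i * w i‖ ^ 2 * ω z ≤ M * hNormSq H α (b + z • ξ) w) :
    ∀ z ∈ K, ∀ w : Fin r → ℂ,
      ‖∑ i, σ z i * w i‖ ^ 2 * ω z ≤ M * hNormSq H α (b + z • ξ) w := by
  intro z₁ hz₁ w₁
  by_contra hcon
  push Not at hcon
  have hw₁ : w₁ ≠ 0 := by
    rintro rfl
    rw [hNormSq_zero] at hcon
    simp at hcon
  -- the quotient
  set Φ : ℂ × (Fin r → ℂ) → ℝ := fun zw =>
    ‖∑ i, σ zw.1 i * zw.2 i‖ ^ 2 * ω zw.1 / hNormSq H α (b + zw.1 • ξ) zw.2 with hΦ
  set Sph : Set (Fin r → ℂ) := Metric.sphere 0 1 with hSph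
  have hSphc : IsCompact Sph := isCompact_sphere 0 1
  have hSph0 : ∀ w ∈ Sph, w ≠ 0 := by
    intro w hw h
    rw [hSph, mem_sphere_zero_iff_norm, h, norm_zero] at hw
    exact zero_ne_one hw
  have hpos : ∀ z : ℂ, ∀ w ∈ Sph, 0 < hNormSq H α (b + z • ξ) w := fun z w hw =>
    hNormSq_pos (hH.posDef α _) (hSph0 w hw)
  have hLc : Continuous (fun z : ℂ => b + z • ξ) := by fun_prop
  have hcontΦ : ContinuousOn Φ (K ×ˢ Sph) := by
    refine ContinuousOn.div ?_ ?_ ?_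
    · refine ContinuousOn.mul ?_ ?_
      · refine Continuous.continuousOn ?_
        refine (continuous_norm.comp ?_).pow 2
        refine continuous_finsetSum _ fun i _ => Continuous.mul ?_ ?_
        · exact (continuous_apply i).comp (hσ.continuous.comp continuous_fst)
        · exact (continuous_apply i).comp continuous_snd
      · exact hω.comp continuous_fst.continuousOn fun zw h => h.1
    · exact (continuous_hNormSq_line hH α b ξ).continuousOn
    · rintro ⟨z, w⟩ ⟨_, hw⟩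
      exact (hpos z w hw).ne'
  -- homogeneity
  have hhom : ∀ (M' : ℝ) (z : ℂ), (∀ w ∈ Sph, ‖∑ i, σ z i * w i‖ ^ 2 * ω z ≤
      M' * hNormSq H α (b + z • ξ) w) → ∀ w : Fin r → ℂ,
      ‖∑ i, σ z i * w i‖ ^ 2 * ω z ≤ M' * hNormSq H α (b + z • ξ) w := by
    intro M' z h w
    by_cases hw : w = 0
    · rw [hw, hNormSq_zero]; simp
    · have hn : 0 < ‖w‖ := norm_pos_iff.mpr hw
      set u : Fin r → ℂ := ((‖w‖ : ℂ)⁻¹) • w with hu
      have huS : u ∈ Sph := by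
        rw [hSph, mem_sphere_zero_iff_norm, hu, norm_smul, norm_inv, Complex.norm_real,
          Real.norm_eq_abs, abs_of_pos hn, inv_mul_cancel₀ hn.ne']
      have hwu : w = (‖w‖ : ℂ) • u := by
        rw [hu, smul_smul, mul_inv_cancel₀, one_smul]
        exact_mod_cast hn.ne'
      have h1 := h u huS
      have h2 : ∑ i, σ z i * w i = (‖w‖ : ℂ) * ∑ i, σ z i * u i := by
        rw [Finset.mul_sum]
        refine Finset.sum_congr rfl fun i _ => ?_
        conv_lhs => rw [hwu]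
        simp only [Pi.smul_apply, smul_eq_mul]
        ring
      have h3 : hNormSq H α (b + z • ξ) w = ‖w‖ ^ 2 * hNormSq H α (b + z • ξ) u := by
        conv_lhs => rw [hwu]
        rw [hNormSq_smul, Complex.norm_real, Real.norm_eq_abs, abs_of_pos hn]
      rw [h2, h3, norm_mul, Complex.norm_real, Real.norm_eq_abs, abs_of_pos hn, mul_pow]
      calc ‖w‖ ^ 2 * ‖∑ i, σ z i * u i‖ ^ 2 * ω z =
          ‖w‖ ^ 2 * (‖∑ i, σ z i * u i‖ ^ 2 * ω z) := by ring
        _ ≤ ‖w‖ ^ 2 * (M' * hNormSq H α (b + z • ξ) u) :=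
          mul_le_mul_of_nonneg_left h1 (sq_nonneg _)
        _ = _ := by ring
  -- a violating point of the compact set
  obtain ⟨u₁, hu₁S, hu₁⟩ : ∃ u ∈ Sph, M * hNormSq H α (b + z₁ • ξ) u <
      ‖∑ i, σ z₁ i * u i‖ ^ 2 * ω z₁ := by
    by_contra hno
    push Not at hno
    exact absurd (hhom M z₁ hno w₁) (not_le.mpr hcon)
  obtain ⟨⟨z₀, w₀⟩, ⟨hz₀, hw₀S⟩, hmax⟩ := (hK.prod hSphc).exists_isMaxOn
    ⟨(z₁, u₁), hz₁, hu₁S⟩ hcontΦ
  set M' : ℝ := Φ (z₀, w₀) with hM'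
  have hMM' : M < M' := by
    have h1 : Φ (z₁, u₁) ≤ M' := hmax ⟨hz₁, hu₁S⟩
    have h2 : M < Φ (z₁, u₁) := by
      rw [hΦ]
      simp only
      rw [lt_div_iff₀ (hpos z₁ u₁ hu₁S)]
      exact hu₁
    linarith
  have hz₀int : z₀ ∈ interior K := by
    by_contra hnot
    have h1 := hbd z₀ hz₀ hnot w₀
    have h2 : M' ≤ M := by
      rw [hM', hΦ]
      simp only
      rw [div_le_iff₀ (hpos z₀ w₀ hw₀S)]
      exact h1
    linarith
  have hM'pos : 0 < M' := lt_of_le_of_lt hM hMM'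
  have hglob : ∀ z ∈ K, ∀ w : Fin r → ℂ,
      ‖∑ i, σ z i * w i‖ ^ 2 * ω z ≤ M' * hNormSq H α (b + z • ξ) w := by
    intro z hz
    refine hhom M' z fun w hw => ?_
    have h1 : Φ (z, w) ≤ M' := hmax ⟨hz, hw⟩
    rw [hΦ] at h1
    simp only at h1
    rwa [div_le_iff₀ (hpos z w hw)] at h1
  obtain ⟨ψ, hψ, hωψ⟩ := hloc z₀ hz₀int
  refine no_touch hH hG α b ξ hξ (fun z i => ψ z * σ z i) z₀ ?_ w₀ (hSph0 w₀ hw₀S) M' hM'pos
    ?_ ?_
  · intro i
    refine hψ.mul ?_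
    have h1 : Differentiable ℂ (fun z => σ z i) := differentiable_pi.mp hσ i
    exact h1.analyticAt z₀
  · filter_upwards [hωψ, isOpen_interior.mem_nhds hz₀int] with z hz hzK w
    have h1 := hglob z (interior_subset hzK) w
    have h2 : ∑ i, ψ z * σ z i * w i = ψ z * ∑ i, σ z i * w i := by
      rw [Finset.mul_sum]
      exact Finset.sum_congr rfl fun i _ => by ring
    rw [h2, norm_mul, mul_pow, mul_comm, ← hz]
    exact h1
  · have h2 : ∑ i, ψ z₀ * σ z₀ i * w₀ i = ψ z₀ * ∑ i, σ z₀ i * w₀ i := by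
      rw [Finset.mul_sum]
      exact Finset.sum_congr rfl fun i _ => by ring
    rw [h2, norm_mul, mul_pow, mul_comm, ← hωψ.self_of_nhds, hM', hΦ]
    simp only
    rw [div_mul_cancel₀ _ (hpos z₀ w₀ hw₀S).ne']

end Crest.Agent.R258
end

-- ▼ part R258/Metric
section

/-!
Row 258 (S0396): dual norms of the functionals `s₁ = (0,1)`, `s₂ = (f, v)`, `e = (1, 0)` on
`ψ_N^* E (1,1)` as functions on the chart `(0,0)`: maximum principle in each variable, growth.
-/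

set_option autoImplicit false

noncomputable section

open Crest Crest.AlgGeometry Crest.AlgGeometry.QuadricBundle
open Set Filter Topology
open scoped ComplexConjugate ComplexOrder

namespace Crest.Agent.R258

/-- Continuity of the dual norm square. -/
theorem continuous_dualNormSq {T : Type*} [TopologicalSpace T]
    {A : T → Matrix (Fin 2) (Fin 2) ℂ} {f : T → Fin 2 → ℂ}
    (hA : ∀ i j, Continuous fun t => A t i j) (hf : ∀ i, Continuous fun t => f t i)
    (hpos : ∀ t, (A t).PosDef) : Continuous fun t => dualNormSq (A t) (f t) := by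
  have hconj : ∀ {k : T → ℂ}, Continuous k → Continuous fun t => (starRingEnd ℂ) (k t) :=
    fun hk => Complex.continuous_conj.comp hk
  have hre : ∀ {k : T → ℂ}, Continuous k → Continuous fun t => (k t).re :=
    fun hk => Complex.continuous_re.comp hk
  have hn : ∀ {k : T → ℂ}, Continuous k → Continuous fun t => Complex.normSq (k t) :=
    fun hk => Complex.continuous_normSq.comp hk
  unfold dualNormSq
  refine Continuous.div ?_ ?_ ?_
  · unfold mForm
    exact (((hre (hA 1 1)).mul (hn (hf 0))).sub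
      (continuous_const.mul (hre (((hA 0 1).mul (hf 1)).mul (hconj (hf 0)))))).add
        ((hre (hA 0 0)).mul (hn (hf 1)))
  · unfold rdet
    exact ((hre (hA 0 0)).mul (hre (hA 1 1))).sub (hn (hA 0 1))
  · intro q
    exact (posDef_facts (hpos q)).2.2.2.2.2.ne'

theorem continuous_dualNormSq_metric {g : Transition 2} {H : MetricData 2}
    (hH : IsHermitianMetric g H) (α : Chart) {T : Type*} [TopologicalSpace T]
    {l : T → Fin 2 → ℂ} (hl : Continuous l) {f : T → Fin 2 → ℂ} (hf : Continuous f) :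
    Continuous fun t => dualNormSq (H α (l t)) (f t) :=
  continuous_dualNormSq (fun i j => (hH.smooth α i j).continuous.comp hl)
    (fun i => (continuous_apply i).comp hf) (fun t => hH.posDef α _)

/-- Dual norms of holomorphic functionals along complex lines satisfy the maximum principle. -/
theorem mpfun_line {g : Transition 2} {H : MetricData 2} (hH : IsHermitianMetric g H)
    (hG : IsGriffithsPositive H) (α : Chart) (b ξ : Fin 2 → ℂ) (hξ : ξ ≠ 0)
    {σ : (Fin 2 → ℂ) → Fin 2 → ℂ} (hσ : Differentiable ℂ σ) :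
    MPfun (fun z => dualNormSq (H α (b + z • ξ)) (σ (b + z • ξ))) := by
  have hlin : Differentiable ℂ (fun z : ℂ => b + z • ξ) := by fun_prop
  refine ⟨fun z => dualNormSq_nonneg (hH.posDef α _) _, ?_, ?_⟩
  · exact continuous_dualNormSq_metric hH α hlin.continuous (hσ.continuous.comp hlin.continuous)
  · intro K hK ω hω hω0 hloc M hM hbd z hz
    have key := max_principle hH hG α b ξ hξ K hK (fun z => σ (b + z • ξ)) (hσ.comp hlin) ω hω hω0
      hloc M hM ?_ z hz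
    · rcases (hω0 z hz).eq_or_lt with h0 | h0
      · rw [← h0, mul_zero]; exact hM
      · rw [← le_div_iff₀ h0]
        refine dualNormSq_le_of_forall (hH.posDef α _) (fun w => ?_) (by positivity)
        have h4 := key w
        rw [hNormSq_eq_nForm (hH.posDef α _), Fin.sum_univ_two, ← Complex.normSq_eq_norm_sq] at h4
        rw [div_mul_eq_mul_div, le_div_iff₀ h0]
        exact h4
    · intro w hw hwi x
      rw [hNormSq_eq_nForm (hH.posDef α _), Fin.sum_univ_two, ← Complex.normSq_eq_norm_sq]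
      have h5 := normSq_apply_le (hH.posDef α (b + w • ξ)) (σ (b + w • ξ)) x
      have h6 := hbd w hw hwi
      have h7 := nForm_nonneg (hH.posDef α (b + w • ξ)) x
      calc _ ≤ dualNormSq (H α (b + w • ξ)) (σ (b + w • ξ)) * nForm (H α (b + w • ξ)) x * ω w :=
            mul_le_mul_of_nonneg_right h5 (hω0 w hw)
        _ = (dualNormSq (H α (b + w • ξ)) (σ (b + w • ξ)) * ω w) * nForm (H α (b + w • ξ)) x := by
            ring
        _ ≤ _ := mul_le_mul_of_nonneg_right h6 h7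


/-! ### Chart change and growth -/

/-- Transformation of dual norms of a twisted family of functionals. -/
theorem dualNormSq_chart {g : Transition 2} {H : MetricData 2} (hg : IsHoloCocycle g)
    (hH : IsHermitianMetric g H) {a b : ℤ} {σ : Chart → (Fin 2 → ℂ) → Fin 2 → ℂ}
    (hσ : ∀ α β, ∀ p ∈ overlap α β,
      (g α β p).transpose.mulVec (σ α p) = lineTrans a b α β p • σ β (tau α β p))
    {α β : Chart} {p : Fin 2 → ℂ} (hp : p ∈ overlap α β) :
    dualNormSq (H α p) (σ α p) =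
      Complex.normSq (lineTrans a b α β p) * dualNormSq (H β (tau α β p)) (σ β (tau α β p)) := by
  rw [← dualNormSq_compat hg hH hp (σ α p), hσ α β p hp, dualNormSq_smul]

theorem growth_x {g : Transition 2} {H : MetricData 2} (hg : IsHoloCocycle g)
    (hH : IsHermitianMetric g H) {a : ℕ} {b : ℤ} {σ : Chart → (Fin 2 → ℂ) → Fin 2 → ℂ}
    (hσc : ∀ α, Continuous (σ α))
    (hσ : ∀ α β, ∀ p ∈ overlap α β,
      (g α β p).transpose.mulVec (σ α p) = lineTrans a b α β p • σ β (tau α β p)) (y : ℂ) :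
    ∃ C : ℝ, ∀ x : ℂ, 1 ≤ ‖x‖ →
      dualNormSq (H (0, 0) ![x, y]) (σ (0, 0) ![x, y]) ≤ C * ‖x‖ ^ (2 * a) := by
  have hl : Continuous fun z : ℂ => (![z, y] : Fin 2 → ℂ) := by fun_prop
  have hc : Continuous fun z : ℂ => dualNormSq (H (1, 0) ![z, y]) (σ (1, 0) ![z, y]) :=
    continuous_dualNormSq_metric hH (1, 0) hl ((hσc (1, 0)).comp hl)
  obtain ⟨C, hC⟩ := (isCompact_closedBall (0 : ℂ) 1).bddAbove_image hc.continuousOn
  refine ⟨C, fun x hx => ?_⟩
  have hx0 : x ≠ 0 := by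
    rintro rfl; simp at hx; linarith
  have hp : (![x, y] : Fin 2 → ℂ) ∈ overlap ((0, 0) : Chart) ((1, 0) : Chart) := by
    simp [overlap, hx0]
  have htau : tau ((0, 0) : Chart) ((1, 0) : Chart) ![x, y] = ![x⁻¹, y] := by
    simp [tau]
  have hline : lineTrans (a : ℤ) b ((0, 0) : Chart) ((1, 0) : Chart) ![x, y] = x ^ a := by
    simp [lineTrans]
  rw [dualNormSq_chart hg hH hσ hp, htau, hline, Complex.normSq_eq_norm_sq, norm_pow, ← pow_mul,
    mul_comm a 2, mul_comm C]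
  refine mul_le_mul_of_nonneg_left ?_ (by positivity)
  apply hC
  refine ⟨x⁻¹, ?_, rfl⟩
  simp only [Metric.mem_closedBall, dist_zero_right, norm_inv]
  exact inv_le_one_of_one_le₀ hx

theorem growth_y {g : Transition 2} {H : MetricData 2} (hg : IsHoloCocycle g)
    (hH : IsHermitianMetric g H) {a : ℤ} {b : ℕ} {σ : Chart → (Fin 2 → ℂ) → Fin 2 → ℂ}
    (hσc : ∀ α, Continuous (σ α))
    (hσ : ∀ α β, ∀ p ∈ overlap α β,
      (g α β p).transpose.mulVec (σ α p) = lineTrans a b α β p • σ β (tau α β p)) (x : ℂ) :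
    ∃ C : ℝ, ∀ y : ℂ, 1 ≤ ‖y‖ →
      dualNormSq (H (0, 0) ![x, y]) (σ (0, 0) ![x, y]) ≤ C * ‖y‖ ^ (2 * b) := by
  have hl : Continuous fun z : ℂ => (![x, z] : Fin 2 → ℂ) := by fun_prop
  have hc : Continuous fun z : ℂ => dualNormSq (H (0, 1) ![x, z]) (σ (0, 1) ![x, z]) :=
    continuous_dualNormSq_metric hH (0, 1) hl ((hσc (0, 1)).comp hl)
  obtain ⟨C, hC⟩ := (isCompact_closedBall (0 : ℂ) 1).bddAbove_image hc.continuousOn
  refine ⟨C, fun y hy => ?_⟩
  have hy0 : y ≠ 0 := by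
    rintro rfl; simp at hy; linarith
  have hp : (![x, y] : Fin 2 → ℂ) ∈ overlap ((0, 0) : Chart) ((0, 1) : Chart) := by
    simp [overlap, hy0]
  have htau : tau ((0, 0) : Chart) ((0, 1) : Chart) ![x, y] = ![x, y⁻¹] := by
    simp [tau]
  have hline : lineTrans a (b : ℤ) ((0, 0) : Chart) ((0, 1) : Chart) ![x, y] = y ^ b := by
    simp [lineTrans]
  rw [dualNormSq_chart hg hH hσ hp, htau, hline, Complex.normSq_eq_norm_sq, norm_pow, ← pow_mul,
    mul_comm b 2, mul_comm C]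
  refine mul_le_mul_of_nonneg_left ?_ (by positivity)
  apply hC
  refine ⟨y⁻¹, ?_, rfl⟩
  simp only [Metric.mem_closedBall, dist_zero_right, norm_inv]
  exact inv_le_one_of_one_le₀ hy

/-- A family of functionals on `E` transforming by `lineTrans a b` gives one on
`ψ_N^* E (1,1)` transforming by `lineTrans (N a + 1) (N b + 1)`. -/
theorem pullTwist_functional {g : Transition 2} {a b : ℤ} {σ : Chart → (Fin 2 → ℂ) → Fin 2 → ℂ}
    (hσ : ∀ α β, ∀ p ∈ overlap α β,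
      (g α β p).transpose.mulVec (σ α p) = lineTrans a b α β p • σ β (tau α β p)) (N : ℕ) :
    ∀ α β, ∀ p ∈ overlap α β,
      (pullTwist N g α β p).transpose.mulVec (σ α (powMap N p)) =
        lineTrans (N * a + 1) (N * b + 1) α β p • σ β (powMap N (tau α β p)) := by
  intro α β p hp
  have h1 := hσ α β (powMap N p) (powMap_mem_overlap hp)
  rw [pullTwist, Matrix.transpose_smul, Matrix.smul_mulVec, h1, tau_powMap, smul_smul,
    lineTrans_powMap, mul_comm, lineTrans_mul _ _ _ _ hp]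

end Crest.Agent.R258
end
end

-- ▼ part R258/RelDataOf

/-!
Row 258 (S0396): from Griffiths positive metrics on all `ψ_N^* E (1,1)` to `RelData`.
-/

set_option autoImplicit false

noncomputable section

open Crest Crest.AlgGeometry Crest.AlgGeometry.QuadricBundle
open Set Filter Topology

namespace Crest.Agent.R258

/-! ### Push forward by `(x, y) ↦ (x ^ n, y ^ n)` -/

/-- `n`-th roots of `X`. -/
def rts (n : ℕ) (X : ℂ) : Set ℂ := {x | x ^ n = X}

theorem mem_rts {n : ℕ} {X x : ℂ} : x ∈ rts n X ↔ x ^ n = X := Iff.rfl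

theorem isCompact_rts {n : ℕ} (hn : n ≠ 0) (X : ℂ) : IsCompact (rts n X) := by
  refine IsCompact.of_isClosed_subset (isCompact_closedBall (0 : ℂ) (max 1 ‖X‖)) ?_ ?_
  · exact isClosed_eq (by fun_prop) continuous_const
  · intro x hx
    have hx' : x ^ n = X := hx
    rw [Metric.mem_closedBall, dist_zero_right]
    by_contra hcon
    push Not at hcon
    have h1 : 1 < ‖x‖ := lt_of_le_of_lt (le_max_left _ _) hcon
    have h2 : ‖X‖ < ‖x‖ := lt_of_le_of_lt (le_max_right _ _) hcon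
    have h3 : ‖x‖ ≤ ‖x‖ ^ n := le_self_pow₀ h1.le hn
    rw [← norm_pow, hx'] at h3
    linarith

theorem rts_nonempty {n : ℕ} (hn : n ≠ 0) (X : ℂ) : (rts n X).Nonempty :=
  IsAlgClosed.exists_pow_nat_eq X (Nat.pos_of_ne_zero hn)

/-- Sup over the fibre of `(x, y) ↦ (x ^ n, y ^ n)`. -/
def push (n : ℕ) (F : ℂ → ℂ → ℝ) (X Y : ℂ) : ℝ :=
  sSup ((fun p : ℂ × ℂ => F p.1 p.2) '' (rts n X ×ˢ rts n Y))

theorem le_push {n : ℕ} (hn : n ≠ 0) {F : ℂ → ℂ → ℝ}
    (hF : Continuous fun p : ℂ × ℂ => F p.1 p.2) (x y : ℂ) :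
    F x y ≤ push n F (x ^ n) (y ^ n) := by
  refine le_csSup ?_ ⟨(x, y), ⟨mem_rts.mpr rfl, mem_rts.mpr rfl⟩, rfl⟩
  exact ((isCompact_rts hn _).prod (isCompact_rts hn _)).bddAbove_image hF.continuousOn

theorem exists_push {n : ℕ} (hn : n ≠ 0) {F : ℂ → ℂ → ℝ}
    (hF : Continuous fun p : ℂ × ℂ => F p.1 p.2) (X Y : ℂ) :
    ∃ x y, x ^ n = X ∧ y ^ n = Y ∧ push n F X Y = F x y := by
  have hK := ((isCompact_rts hn X).prod (isCompact_rts hn Y)).image_of_continuousOn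
    hF.continuousOn
  obtain ⟨⟨x, y⟩, hxy, h⟩ := hK.sSup_mem (((rts_nonempty hn X).prod (rts_nonempty hn Y)).image _)
  exact ⟨x, y, hxy.1, hxy.2, h.symm⟩

/-- Sup over the closed unit bidisc. -/
def supBi (F : ℂ → ℂ → ℝ) : ℝ :=
  sSup ((fun p : ℂ × ℂ => F p.1 p.2) '' (Metric.closedBall (0 : ℂ) 1 ×ˢ Metric.closedBall (0 : ℂ) 1))

theorem le_supBi {F : ℂ → ℂ → ℝ} (hF : Continuous fun p : ℂ × ℂ => F p.1 p.2) {x y : ℂ}
    (hx : ‖x‖ ≤ 1) (hy : ‖y‖ ≤ 1) : F x y ≤ supBi F := by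
  refine le_csSup ?_ ⟨(x, y), ⟨by simpa using hx, by simpa using hy⟩, rfl⟩
  exact ((isCompact_closedBall _ _).prod (isCompact_closedBall _ _)).bddAbove_image
    hF.continuousOn

theorem exists_supBi {F : ℂ → ℂ → ℝ} (hF : Continuous fun p : ℂ × ℂ => F p.1 p.2) :
    ∃ x y : ℂ, ‖x‖ ≤ 1 ∧ ‖y‖ ≤ 1 ∧ supBi F = F x y := by
  have hK := ((isCompact_closedBall (0 : ℂ) 1).prod
    (isCompact_closedBall (0 : ℂ) 1)).image_of_continuousOn hF.continuousOn
  obtain ⟨⟨x, y⟩, hxy, h⟩ := hK.sSup_mem ⟨F 0 0, (0, 0), by simp, rfl⟩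
  exact ⟨x, y, by simpa using hxy.1, by simpa using hxy.2, h.symm⟩

/-! ### The data of one metric -/

/-- Squared dual norms on the chart `(0,0)` of one metric on `ψ_n^* E (1,1)`. -/
structure SliceData (n : ℕ) (f v : ℂ → ℂ → ℂ) (P Q E : ℂ → ℂ → ℝ) : Prop where
  cP : Continuous fun p : ℂ × ℂ => P p.1 p.2
  cQ : Continuous fun p : ℂ × ℂ => Q p.1 p.2
  cE : Continuous fun p : ℂ × ℂ => E p.1 p.2
  posP : 0 < P 0 0
  Px : ∀ y, MPfun fun x => P x y
  Py : ∀ x, MPfun fun y => P x y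
  Qx : ∀ y, MPfun fun x => Q x y
  Qy : ∀ x, MPfun fun y => Q x y
  Ex : ∀ y, MPfun fun x => E x y
  grPx : ∀ y, ∃ C : ℝ, ∀ x : ℂ, 1 ≤ ‖x‖ → P x y ≤ C * ‖x‖ ^ (2 * 1)
  grPy : ∀ x, ∃ C : ℝ, ∀ y : ℂ, 1 ≤ ‖y‖ → P x y ≤ C * ‖y‖ ^ (2 * (n * 8 + 1))
  grQx : ∀ y, ∃ C : ℝ, ∀ x : ℂ, 1 ≤ ‖x‖ → Q x y ≤ C * ‖x‖ ^ (2 * (n * 4 + 1))
  grQy : ∀ x, ∃ C : ℝ, ∀ y : ℂ, 1 ≤ ‖y‖ → Q x y ≤ C * ‖y‖ ^ (2 * 1)
  tri1 : ∀ x y, Real.sqrt (Q x y) ≤
    ‖v (x ^ n) (y ^ n)‖ * Real.sqrt (P x y) + ‖f (x ^ n) (y ^ n)‖ * Real.sqrt (E x y)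
  tri2 : ∀ x y, ‖v (x ^ n) (y ^ n)‖ * Real.sqrt (P x y) ≤
    Real.sqrt (Q x y) + ‖f (x ^ n) (y ^ n)‖ * Real.sqrt (E x y)
  tri3 : ∀ x y, ‖f (x ^ n) (y ^ n)‖ * Real.sqrt (E x y) ≤
    Real.sqrt (Q x y) + ‖v (x ^ n) (y ^ n)‖ * Real.sqrt (P x y)

theorem MPfun.global_le {u : ℂ → ℝ} (hu : MPfun u) {C m : ℝ} {a b : ℕ} (hab : a < b) (hm : 0 ≤ m)
    (hgr : ∀ z, 1 ≤ ‖z‖ → u z ≤ C * ‖z‖ ^ (2 * a)) (h1 : ∀ z, ‖z‖ = 1 → u z ≤ m) (z : ℂ) :
    u z ≤ m * max 1 ‖z‖ ^ (2 * b) := by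
  rcases le_total 1 ‖z‖ with h | h
  · rw [max_eq_right h]
    exact hu.outside hab hm hgr h1 z h
  · rw [max_eq_left h, one_pow, mul_one]
    exact hu.disc one_pos hm h1 z h

/-- root of the radius -/
theorem exists_root_radius {n : ℕ} (hn : n ≠ 0) {R : ℝ} (hR : 0 < R) :
    ∃ R' : ℝ, 0 < R' ∧ R' ^ n = R := by
  refine ⟨R ^ ((n : ℝ)⁻¹), by positivity, ?_⟩
  exact Real.rpow_inv_natCast_pow hR.le hn

section

variable {n : ℕ} {f v : ℂ → ℂ → ℂ} {P Q E : ℂ → ℂ → ℝ}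

/-- normalising constant -/
def nrmC (P Q : ℂ → ℂ → ℝ) : ℝ :=
  supBi (fun x y => Real.sqrt (P x y)) + supBi (fun x y => Real.sqrt (Q x y))

/-- normalised push forward -/
def pushN (n : ℕ) (P Q F : ℂ → ℂ → ℝ) : ℂ → ℂ → ℝ :=
  push n (fun x y => Real.sqrt (F x y) / nrmC P Q)

theorem cont_sqrt {F : ℂ → ℂ → ℝ} (hF : Continuous fun p : ℂ × ℂ => F p.1 p.2) :
    Continuous fun p : ℂ × ℂ => Real.sqrt (F p.1 p.2) := hF.sqrt

theorem supBi_sqrt_nonneg (F : ℂ → ℂ → ℝ) (hF : Continuous fun p : ℂ × ℂ => F p.1 p.2) :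
    0 ≤ supBi (fun x y => Real.sqrt (F x y)) :=
  (Real.sqrt_nonneg (F 0 0)).trans
    (le_supBi (F := fun x y => Real.sqrt (F x y)) (cont_sqrt hF) (x := 0) (y := 0) (by simp) (by simp))

theorem SliceData.nrmC_pos (h : SliceData n f v P Q E) : 0 < nrmC P Q := by
  have h1 : Real.sqrt (P 0 0) ≤ supBi (fun x y => Real.sqrt (P x y)) :=
    le_supBi (F := fun x y => Real.sqrt (P x y)) (cont_sqrt h.cP) (x := 0) (y := 0)
      (by simp) (by simp)
  have h2 := supBi_sqrt_nonneg Q h.cQ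
  have h3 := Real.sqrt_pos.mpr h.posP
  unfold nrmC
  linarith

variable (hn : n ≠ 0) (h : SliceData n f v P Q E)

include hn in
theorem le_pushN {F : ℂ → ℂ → ℝ} (hF : Continuous fun p : ℂ × ℂ => F p.1 p.2) (x y : ℂ) :
    Real.sqrt (F x y) / nrmC P Q ≤ pushN n P Q F (x ^ n) (y ^ n) :=
  le_push hn (F := fun x y => Real.sqrt (F x y) / nrmC P Q) (hF.sqrt.div_const _) x y

include hn in
theorem exists_pushN {F : ℂ → ℂ → ℝ} (hF : Continuous fun p : ℂ × ℂ => F p.1 p.2) (X Y : ℂ) :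
    ∃ x y, x ^ n = X ∧ y ^ n = Y ∧ pushN n P Q F X Y = Real.sqrt (F x y) / nrmC P Q :=
  exists_push hn (F := fun x y => Real.sqrt (F x y) / nrmC P Q) (hF.sqrt.div_const _) X Y

include hn h in
theorem SliceData.pushN_nonneg {F : ℂ → ℂ → ℝ} (hF : Continuous fun p : ℂ × ℂ => F p.1 p.2)
    (X Y : ℂ) : 0 ≤ pushN n P Q F X Y := by
  obtain ⟨x, y, -, -, hxy⟩ := exists_pushN (P := P) (Q := Q) hn hF X Y
  rw [hxy]
  exact div_nonneg (Real.sqrt_nonneg _) h.nrmC_pos.le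

include hn h in
theorem SliceData.sq_le_of_pushN_le {F : ℂ → ℂ → ℝ} (hF : Continuous fun p : ℂ × ℂ => F p.1 p.2)
    {x y : ℂ} {m : ℝ} (hm : pushN n P Q F (x ^ n) (y ^ n) ≤ m) :
    F x y ≤ (m * nrmC P Q) ^ 2 := by
  have h1 := (le_pushN (P := P) (Q := Q) hn hF x y).trans hm
  rw [div_le_iff₀ h.nrmC_pos] at h1
  have h2 := Real.sqrt_le_left (le_trans (Real.sqrt_nonneg _) h1) |>.mp h1
  exact h2

include h in
theorem SliceData.pushN_le_of_sq {F : ℂ → ℂ → ℝ} {x y : ℂ} {m : ℝ} (hm : 0 ≤ m)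
    (h1 : F x y ≤ (m * nrmC P Q) ^ 2) : Real.sqrt (F x y) / nrmC P Q ≤ m := by
  rw [div_le_iff₀ h.nrmC_pos]
  exact (Real.sqrt_le_left (mul_nonneg hm h.nrmC_pos.le)).mpr h1

include hn in
theorem norm_bound_aux {x : ℂ} {ρ : ℝ} (hρ : 1 ≤ ρ) (hx : ‖x ^ n‖ ≤ ρ) :
    max 1 ‖x‖ ^ n ≤ ρ ∧ max 1 ‖x‖ ≤ ρ := by
  have h1 : max 1 ‖x‖ ^ n ≤ ρ := by
    rcases le_total 1 ‖x‖ with h | h
    · rw [max_eq_right h, ← norm_pow]; exact hx
    · rw [max_eq_left h, one_pow]; exact hρ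
  exact ⟨h1, (le_self_pow₀ (le_max_left _ _) hn).trans h1⟩

include hn h in
theorem SliceData.growthP (ρ : ℝ) (X Y : ℂ) (hρ : 1 ≤ ρ) (hX : ‖X‖ ≤ ρ) (hY : ‖Y‖ ≤ ρ) :
    pushN n P Q P X Y ≤ ρ ^ 12 := by
  obtain ⟨x, y, rfl, rfl, hxy⟩ := exists_pushN (P := P) (Q := Q) hn h.cP X Y
  rw [hxy]
  obtain ⟨hx1, hx2⟩ := norm_bound_aux hn hρ hX
  obtain ⟨hy1, hy2⟩ := norm_bound_aux hn hρ hY
  set S := supBi (fun x y => Real.sqrt (P x y)) with hS
  have hS0 : 0 ≤ S := supBi_sqrt_nonneg P h.cP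
  have hSM : S ≤ nrmC P Q := by
    have := supBi_sqrt_nonneg Q h.cQ
    unfold nrmC; linarith
  have hM := h.nrmC_pos
  refine h.pushN_le_of_sq (by positivity) ?_
  -- bound on the circle in `x`
  have hcirc : ∀ x' : ℂ, ‖x'‖ = 1 → P x' y ≤ S ^ 2 * max 1 ‖y‖ ^ (2 * (n * 8 + 2)) := by
    intro x' hx'
    obtain ⟨C, hC⟩ := h.grPy x'
    refine (h.Py x').global_le (a := n * 8 + 1) (b := n * 8 + 2) (by omega) (by positivity) hC ?_ y
    intro y' hy'
    have := le_supBi (F := fun x y => Real.sqrt (P x y)) (cont_sqrt h.cP) (x := x') (y := y')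
      hx'.le hy'.le
    exact (Real.sqrt_le_left hS0).mp this
  obtain ⟨C, hC⟩ := h.grPx y
  have hfin := (h.Px y).global_le (a := 1) (b := 2) (by omega)
    (m := S ^ 2 * max 1 ‖y‖ ^ (2 * (n * 8 + 2))) (by positivity) hC hcirc x
  refine hfin.trans ?_
  have e1 : max 1 ‖y‖ ^ (2 * (n * 8 + 2)) = (max 1 ‖y‖ ^ n) ^ 16 * max 1 ‖y‖ ^ 4 := by
    rw [← pow_mul, ← pow_add]; congr 1; ring
  rw [e1]
  have hmx : 0 ≤ max 1 ‖x‖ := by positivity
  have hmy : 0 ≤ max 1 ‖y‖ := by positivity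
  have hS2 : S ^ 2 ≤ nrmC P Q ^ 2 := by gcongr
  calc S ^ 2 * ((max 1 ‖y‖ ^ n) ^ 16 * max 1 ‖y‖ ^ 4) * max 1 ‖x‖ ^ (2 * 2)
      ≤ nrmC P Q ^ 2 * (ρ ^ 16 * ρ ^ 4) * ρ ^ (2 * 2) := by gcongr
    _ = (ρ ^ 12 * nrmC P Q) ^ 2 := by ring

include hn h in
theorem SliceData.growthQ (ρ : ℝ) (X Y : ℂ) (hρ : 1 ≤ ρ) (hX : ‖X‖ ≤ ρ) (hY : ‖Y‖ ≤ ρ) :
    pushN n P Q Q X Y ≤ ρ ^ 12 := by
  obtain ⟨x, y, rfl, rfl, hxy⟩ := exists_pushN (P := P) (Q := Q) hn h.cQ X Y
  rw [hxy]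
  obtain ⟨hx1, hx2⟩ := norm_bound_aux hn hρ hX
  obtain ⟨hy1, hy2⟩ := norm_bound_aux hn hρ hY
  set S := supBi (fun x y => Real.sqrt (Q x y)) with hS
  have hS0 : 0 ≤ S := supBi_sqrt_nonneg Q h.cQ
  have hSM : S ≤ nrmC P Q := by
    have := supBi_sqrt_nonneg P h.cP
    unfold nrmC; linarith
  have hM := h.nrmC_pos
  refine h.pushN_le_of_sq (by positivity) ?_
  have hcirc : ∀ x' : ℂ, ‖x'‖ = 1 → Q x' y ≤ S ^ 2 * max 1 ‖y‖ ^ (2 * 2) := by
    intro x' hx'
    obtain ⟨C, hC⟩ := h.grQy x'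
    refine (h.Qy x').global_le (a := 1) (b := 2) (by omega) (by positivity) hC ?_ y
    intro y' hy'
    have := le_supBi (F := fun x y => Real.sqrt (Q x y)) (cont_sqrt h.cQ) (x := x') (y := y')
      hx'.le hy'.le
    exact (Real.sqrt_le_left hS0).mp this
  obtain ⟨C, hC⟩ := h.grQx y
  have hfin := (h.Qx y).global_le (a := n * 4 + 1) (b := n * 4 + 2) (by omega)
    (m := S ^ 2 * max 1 ‖y‖ ^ (2 * 2)) (by positivity) hC hcirc x
  refine hfin.trans ?_
  have e1 : max 1 ‖x‖ ^ (2 * (n * 4 + 2)) = (max 1 ‖x‖ ^ n) ^ 8 * max 1 ‖x‖ ^ 4 := by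
    rw [← pow_mul, ← pow_add]; congr 1; ring
  rw [e1]
  have hmx : 0 ≤ max 1 ‖x‖ := by positivity
  have hmy : 0 ≤ max 1 ‖y‖ := by positivity
  have hS2 : S ^ 2 ≤ nrmC P Q ^ 2 := by gcongr
  calc S ^ 2 * max 1 ‖y‖ ^ (2 * 2) * ((max 1 ‖x‖ ^ n) ^ 8 * max 1 ‖x‖ ^ 4)
      ≤ nrmC P Q ^ 2 * ρ ^ (2 * 2) * (ρ ^ 8 * ρ ^ 4) := by gcongr
    _ = nrmC P Q ^ 2 * ρ ^ 16 := by ring
    _ ≤ nrmC P Q ^ 2 * ρ ^ 24 := by
        gcongr
        norm_num
    _ = (ρ ^ 12 * nrmC P Q) ^ 2 := by ring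

theorem sq_rpow_aux {a b : ℝ} (n : ℕ) (hb : 0 ≤ b) :
    (a * b ^ ((2 : ℝ) / n)) ^ 2 = a ^ 2 * b ^ ((4 : ℝ) / n) := by
  rw [mul_pow]
  congr 1
  rw [← Real.rpow_natCast, ← Real.rpow_mul hb]
  congr 1
  push_cast
  ring

include hn h in
theorem SliceData.ncP (X' Y : ℂ) (ε m : ℝ) (hε : 0 < ε) (hm : 0 ≤ m)
    (h1 : ∀ X, dist X X' ≤ ε → pushN n P Q P X Y ≤ m) (X : ℂ) (hX : ε ≤ dist X X') :
    pushN n P Q P X Y ≤ m * (dist X X' / ε) ^ ((2 : ℝ) / n) := by
  obtain ⟨x, y, rfl, rfl, hxy⟩ := exists_pushN (P := P) (Q := Q) hn h.cP X Y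
  rw [hxy]
  have hM := h.nrmC_pos
  have hd : 0 ≤ dist (x ^ n) X' / ε := by positivity
  refine h.pushN_le_of_sq (by positivity) ?_
  obtain ⟨C, hC⟩ := h.grPx y
  have key := (h.Px y).nearConst (C := C) (m := (m * nrmC P Q) ^ 2) (Nat.pos_of_ne_zero hn) hε
    (by positivity) X' (fun z hz => by simpa using hC z hz)
    (fun z hz => h.sq_le_of_pushN_le hn h.cP (h1 _ hz)) x hX
  refine key.trans (le_of_eq ?_)
  rw [mul_right_comm, sq_rpow_aux n hd]

include hn h in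
theorem SliceData.ncQ (X Y' : ℂ) (ε m : ℝ) (hε : 0 < ε) (hm : 0 ≤ m)
    (h1 : ∀ Y, dist Y Y' ≤ ε → pushN n P Q Q X Y ≤ m) (Y : ℂ) (hY : ε ≤ dist Y Y') :
    pushN n P Q Q X Y ≤ m * (dist Y Y' / ε) ^ ((2 : ℝ) / n) := by
  obtain ⟨x, y, rfl, rfl, hxy⟩ := exists_pushN (P := P) (Q := Q) hn h.cQ X Y
  rw [hxy]
  have hM := h.nrmC_pos
  have hd : 0 ≤ dist (y ^ n) Y' / ε := by positivity
  refine h.pushN_le_of_sq (by positivity) ?_
  obtain ⟨C, hC⟩ := h.grQy x
  have key := (h.Qy x).nearConst (C := C) (m := (m * nrmC P Q) ^ 2) (Nat.pos_of_ne_zero hn) hε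
    (by positivity) Y' (fun z hz => by simpa using hC z hz)
    (fun z hz => h.sq_le_of_pushN_le hn h.cQ (h1 _ hz)) y hY
  refine key.trans (le_of_eq ?_)
  rw [mul_right_comm, sq_rpow_aux n hd]

include hn h in
theorem SliceData.mpE (Y : ℂ) (R m : ℝ) (hR : 0 < R)
    (h1 : ∀ X : ℂ, ‖X‖ = R → pushN n P Q E X Y ≤ m) (X : ℂ) (hX : ‖X‖ ≤ R) :
    pushN n P Q E X Y ≤ m := by
  have hm : 0 ≤ m := (h.pushN_nonneg hn h.cE (R : ℂ) Y).trans
    (h1 (R : ℂ) (by simp [abs_of_pos hR]))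
  obtain ⟨x, y, rfl, rfl, hxy⟩ := exists_pushN (P := P) (Q := Q) hn h.cE X Y
  rw [hxy]
  obtain ⟨R', hR'0, hR'⟩ := exists_root_radius hn hR
  refine h.pushN_le_of_sq hm ?_
  refine (h.Ex y).disc hR'0 (by positivity) (fun z hz => ?_) x ?_
  · exact h.sq_le_of_pushN_le hn h.cE
      (h1 _ (by rw [norm_pow, hz, hR']))
  · rw [norm_pow, ← hR'] at hX
    exact le_of_pow_le_pow_left₀ hn hR'0.le hX

include hn h in
theorem SliceData.mpQ (Y : ℂ) (m : ℝ)
    (h1 : ∀ X : ℂ, ‖X‖ = 1 → pushN n P Q Q X Y ≤ m) (X : ℂ) (hX : ‖X‖ ≤ 1) :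
    pushN n P Q Q X Y ≤ m := by
  have hm : 0 ≤ m := (h.pushN_nonneg hn h.cQ 1 Y).trans (h1 1 (by simp))
  obtain ⟨x, y, rfl, rfl, hxy⟩ := exists_pushN (P := P) (Q := Q) hn h.cQ X Y
  rw [hxy]
  refine h.pushN_le_of_sq hm ?_
  refine (h.Qx y).disc one_pos (by positivity) (fun z hz => ?_) x ?_
  · exact h.sq_le_of_pushN_le hn h.cQ
      (h1 _ (by rw [norm_pow, hz, one_pow]))
  · rw [norm_pow] at hX
    exact le_of_pow_le_pow_left₀ hn one_pos.le (by simpa using hX)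

include hn h in
theorem SliceData.mpP (X : ℂ) (m : ℝ)
    (h1 : ∀ Y : ℂ, ‖Y‖ = 1 → pushN n P Q P X Y ≤ m) (Y : ℂ) (hY : ‖Y‖ ≤ 1) :
    pushN n P Q P X Y ≤ m := by
  have hm : 0 ≤ m := (h.pushN_nonneg hn h.cP X 1).trans (h1 1 (by simp))
  obtain ⟨x, y, rfl, rfl, hxy⟩ := exists_pushN (P := P) (Q := Q) hn h.cP X Y
  rw [hxy]
  refine h.pushN_le_of_sq hm ?_
  refine (h.Py x).disc one_pos (by positivity) (fun z hz => ?_) y ?_
  · exact h.sq_le_of_pushN_le hn h.cP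
      (h1 _ (by rw [norm_pow, hz, one_pow]))
  · rw [norm_pow] at hY
    exact le_of_pow_le_pow_left₀ hn one_pos.le (by simpa using hY)

include hn h in
theorem SliceData.annQ (Y : ℂ) (r R m : ℝ) (hr : 0 < r) (hrR : r < R)
    (h1 : ∀ X : ℂ, ‖X‖ = r → pushN n P Q Q X Y ≤ m * r ^ 2)
    (h2 : ∀ X : ℂ, ‖X‖ = R → pushN n P Q Q X Y ≤ m * R ^ 2)
    (X : ℂ) (hX1 : r ≤ ‖X‖) (hX2 : ‖X‖ ≤ R) :
    pushN n P Q Q X Y ≤ m * ‖X‖ ^ 2 := by
  have hm : 0 ≤ m := by
    have h3 := (h.pushN_nonneg hn h.cQ (r : ℂ) Y).trans (h1 (r : ℂ) (by simp [abs_of_pos hr]))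
    exact nonneg_of_mul_nonneg_left h3 (by positivity)
  obtain ⟨x, y, rfl, rfl, hxy⟩ := exists_pushN (P := P) (Q := Q) hn h.cQ X Y
  rw [hxy]
  obtain ⟨r', hr'0, hr'⟩ := exists_root_radius hn hr
  obtain ⟨R', hR'0, hR'⟩ := exists_root_radius hn (hr.trans hrR)
  have hM := h.nrmC_pos
  refine h.pushN_le_of_sq (by positivity) ?_
  have e1 : ∀ z : ℂ, (m * ‖z ^ n‖ ^ 2 * nrmC P Q) ^ 2 = (m * nrmC P Q) ^ 2 * ‖z‖ ^ (2 * (2 * n)) := by
    intro z
    rw [norm_pow, show 2 * (2 * n) = n * 4 by ring, pow_mul]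
    ring
  have key := (h.Qx y).annulus (r := r') (R := R') (m := (m * nrmC P Q) ^ 2) (b := 2 * n) hr'0
    (by positivity) ?_ ?_ x ?_ ?_
  · rw [e1 x]; exact key
  · intro z hz
    rw [← e1 z]
    refine h.sq_le_of_pushN_le hn h.cQ ?_
    rw [norm_pow, hz, hr']
    exact h1 _ (by rw [norm_pow, hz, hr'])
  · intro z hz
    rw [← e1 z]
    refine h.sq_le_of_pushN_le hn h.cQ ?_
    rw [norm_pow, hz, hR']
    exact h2 _ (by rw [norm_pow, hz, hR'])
  · rw [norm_pow, ← hr'] at hX1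
    exact le_of_pow_le_pow_left₀ hn (norm_nonneg _) hX1
  · rw [norm_pow, ← hR'] at hX2
    exact le_of_pow_le_pow_left₀ hn hR'0.le hX2

include hn h in
theorem SliceData.norm_le (a b : ℝ)
    (h1 : ∀ X Y : ℂ, ‖X‖ ≤ 1 → ‖Y‖ ≤ 1 → pushN n P Q P X Y ≤ a)
    (h2 : ∀ X Y : ℂ, ‖X‖ ≤ 1 → ‖Y‖ ≤ 1 → pushN n P Q Q X Y ≤ b) : 1 ≤ a + b := by
  have hM := h.nrmC_pos
  obtain ⟨x, y, hx, hy, hxy⟩ := exists_supBi (F := fun x y => Real.sqrt (P x y)) (cont_sqrt h.cP)
  obtain ⟨z, w, hz, hw, hzw⟩ := exists_supBi (F := fun x y => Real.sqrt (Q x y)) (cont_sqrt h.cQ)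
  have hpw : ∀ t : ℂ, ‖t‖ ≤ 1 → ‖t ^ n‖ ≤ 1 := fun t ht => by
    rw [norm_pow]; exact pow_le_one₀ (norm_nonneg _) ht
  have k1 := (le_pushN (P := P) (Q := Q) hn h.cP x y).trans (h1 _ _ (hpw x hx) (hpw y hy))
  have k2 := (le_pushN (P := P) (Q := Q) hn h.cQ z w).trans (h2 _ _ (hpw z hz) (hpw w hw))
  rw [div_le_iff₀ hM] at k1 k2
  have hsum : nrmC P Q = Real.sqrt (P x y) + Real.sqrt (Q z w) := by
    unfold nrmC
    rw [hxy, hzw]
  have : 1 * nrmC P Q ≤ (a + b) * nrmC P Q := by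
    rw [one_mul, add_mul]
    linarith
  exact le_of_mul_le_mul_right this hM

end

/-- One `SliceData` for every exponent gives `RelData`. -/
theorem relData_of_sliceData {f v : ℂ → ℂ → ℂ} {P Q E : ℕ → ℂ → ℂ → ℝ}
    (h : ∀ N, SliceData (N + 1) f v (P N) (Q N) (E N)) :
    RelData f v (fun N => pushN (N + 1) (P N) (Q N) (P N))
      (fun N => pushN (N + 1) (P N) (Q N) (Q N)) (fun N => pushN (N + 1) (P N) (Q N) (E N)) where
  P_nonneg N X Y := (h N).pushN_nonneg N.succ_ne_zero (h N).cP X Y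
  Q_nonneg N X Y := (h N).pushN_nonneg N.succ_ne_zero (h N).cQ X Y
  E_nonneg N X Y := (h N).pushN_nonneg N.succ_ne_zero (h N).cE X Y
  tri1 N X Y := by
    have hM := (h N).nrmC_pos
    obtain ⟨x, y, rfl, rfl, hxy⟩ := exists_pushN (P := P N) (Q := Q N) N.succ_ne_zero (h N).cQ X Y
    rw [hxy]
    have k1 := le_pushN (P := P N) (Q := Q N) N.succ_ne_zero (h N).cP x y
    have k2 := le_pushN (P := P N) (Q := Q N) N.succ_ne_zero (h N).cE x y
    calc Real.sqrt (Q N x y) / nrmC (P N) (Q N) ≤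
        (‖v (x ^ (N + 1)) (y ^ (N + 1))‖ * Real.sqrt (P N x y) +
          ‖f (x ^ (N + 1)) (y ^ (N + 1))‖ * Real.sqrt (E N x y)) / nrmC (P N) (Q N) := by
          gcongr
          exact (h N).tri1 x y
      _ = ‖v (x ^ (N + 1)) (y ^ (N + 1))‖ * (Real.sqrt (P N x y) / nrmC (P N) (Q N)) +
          ‖f (x ^ (N + 1)) (y ^ (N + 1))‖ * (Real.sqrt (E N x y) / nrmC (P N) (Q N)) := by ring
      _ ≤ _ := by gcongr
  tri2 N X Y := by
    have hM := (h N).nrmC_pos
    obtain ⟨x, y, rfl, rfl, hxy⟩ := exists_pushN (P := P N) (Q := Q N) N.succ_ne_zero (h N).cP X Y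
    rw [hxy]
    have k1 := le_pushN (P := P N) (Q := Q N) N.succ_ne_zero (h N).cQ x y
    have k2 := le_pushN (P := P N) (Q := Q N) N.succ_ne_zero (h N).cE x y
    calc ‖v (x ^ (N + 1)) (y ^ (N + 1))‖ * (Real.sqrt (P N x y) / nrmC (P N) (Q N))
        = (‖v (x ^ (N + 1)) (y ^ (N + 1))‖ * Real.sqrt (P N x y)) / nrmC (P N) (Q N) := by ring
      _ ≤ (Real.sqrt (Q N x y) + ‖f (x ^ (N + 1)) (y ^ (N + 1))‖ * Real.sqrt (E N x y))
          / nrmC (P N) (Q N) := by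
          gcongr
          exact (h N).tri2 x y
      _ = Real.sqrt (Q N x y) / nrmC (P N) (Q N) +
          ‖f (x ^ (N + 1)) (y ^ (N + 1))‖ * (Real.sqrt (E N x y) / nrmC (P N) (Q N)) := by ring
      _ ≤ _ := by gcongr
  tri3 N X Y := by
    have hM := (h N).nrmC_pos
    obtain ⟨x, y, rfl, rfl, hxy⟩ := exists_pushN (P := P N) (Q := Q N) N.succ_ne_zero (h N).cE X Y
    rw [hxy]
    have k1 := le_pushN (P := P N) (Q := Q N) N.succ_ne_zero (h N).cQ x y
    have k2 := le_pushN (P := P N) (Q := Q N) N.succ_ne_zero (h N).cP x y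
    calc ‖f (x ^ (N + 1)) (y ^ (N + 1))‖ * (Real.sqrt (E N x y) / nrmC (P N) (Q N))
        = (‖f (x ^ (N + 1)) (y ^ (N + 1))‖ * Real.sqrt (E N x y)) / nrmC (P N) (Q N) := by ring
      _ ≤ (Real.sqrt (Q N x y) + ‖v (x ^ (N + 1)) (y ^ (N + 1))‖ * Real.sqrt (P N x y))
          / nrmC (P N) (Q N) := by
          gcongr
          exact (h N).tri3 x y
      _ = Real.sqrt (Q N x y) / nrmC (P N) (Q N) +
          ‖v (x ^ (N + 1)) (y ^ (N + 1))‖ * (Real.sqrt (P N x y) / nrmC (P N) (Q N)) := by ring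
      _ ≤ _ := by gcongr
  growthP N ρ X Y h1 h2 h3 := (h N).growthP N.succ_ne_zero ρ X Y h1 h2 h3
  growthQ N ρ X Y h1 h2 h3 := (h N).growthQ N.succ_ne_zero ρ X Y h1 h2 h3
  ncP N X' Y ε m hε hm h1 X hX := by
    have := (h N).ncP N.succ_ne_zero X' Y ε m hε hm h1 X hX
    push_cast at this
    exact this
  ncQ N X Y' ε m hε hm h1 Y hY := by
    have := (h N).ncQ N.succ_ne_zero X Y' ε m hε hm h1 Y hY
    push_cast at this
    exact this
  mpE N Y R m hR h1 X hX := (h N).mpE N.succ_ne_zero Y R m hR h1 X hX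
  mpQ N Y m h1 X hX := (h N).mpQ N.succ_ne_zero Y m h1 X hX
  mpP N X m h1 Y hY := (h N).mpP N.succ_ne_zero X m h1 Y hY
  annQ N Y r R m hr hrR h1 h2 X hX1 hX2 := (h N).annQ N.succ_ne_zero Y r R m hr hrR h1 h2 X hX1 hX2
  norm N a b h1 h2 := (h N).norm_le N.succ_ne_zero a b h1 h2


/-! ### `SliceData` of one metric -/

theorem sqrt_dualNormSq_smul (A : Matrix (Fin 2) (Fin 2) ℂ) (c : ℂ) (f : Fin 2 → ℂ) :
    Real.sqrt (dualNormSq A (c • f)) = ‖c‖ * Real.sqrt (dualNormSq A f) := by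
  rw [dualNormSq_smul, Complex.normSq_eq_norm_sq, Real.sqrt_mul (by positivity),
    Real.sqrt_sq (norm_nonneg _)]

open scoped ComplexOrder in
theorem tri_aux {A : Matrix (Fin 2) (Fin 2) ℂ} (hA : A.PosDef) {a b c : Fin 2 → ℂ} (s t : ℂ)
    (h : a = s • b + t • c) : Real.sqrt (dualNormSq A a) ≤
      ‖s‖ * Real.sqrt (dualNormSq A b) + ‖t‖ * Real.sqrt (dualNormSq A c) := by
  rw [h, ← sqrt_dualNormSq_smul, ← sqrt_dualNormSq_smul]
  exact sqrt_dualNormSq_add_le hA _ _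

theorem line_x (z y : ℂ) : (![0, y] : Fin 2 → ℂ) + z • ![1, 0] = ![z, y] := by
  funext i; fin_cases i <;> simp

theorem line_y (x z : ℂ) : (![x, 0] : Fin 2 → ℂ) + z • ![0, 1] = ![x, z] := by
  funext i; fin_cases i <;> simp

theorem mpfun_x {g : Transition 2} {H : MetricData 2} (hH : IsHermitianMetric g H)
    (hG : IsGriffithsPositive H) (α : Chart) (y : ℂ)
    {σ : (Fin 2 → ℂ) → Fin 2 → ℂ} (hσ : Differentiable ℂ σ) :
    MPfun (fun z => dualNormSq (H α ![z, y]) (σ ![z, y])) := by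
  have := mpfun_line hH hG α ![0, y] ![1, 0] (by simp) hσ
  simpa only [line_x] using this

theorem mpfun_y {g : Transition 2} {H : MetricData 2} (hH : IsHermitianMetric g H)
    (hG : IsGriffithsPositive H) (α : Chart) (x : ℂ)
    {σ : (Fin 2 → ℂ) → Fin 2 → ℂ} (hσ : Differentiable ℂ σ) :
    MPfun (fun z => dualNormSq (H α ![x, z]) (σ ![x, z])) := by
  have := mpfun_line hH hG α ![x, 0] ![0, 1] (by simp) hσ
  simpa only [line_y] using this

theorem sliceData_of_metric {g : Transition 2} {s2 : Chart → (Fin 2 → ℂ) → Fin 2 → ℂ}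
    (hs2 : ∀ α, Differentiable ℂ (s2 α))
    (h1g : ∀ α β, ∀ p ∈ overlap α β,
      (g α β p).transpose.mulVec ![0, 1] = lineTrans 0 8 α β p • ![0, 1])
    (h2g : ∀ α β, ∀ p ∈ overlap α β,
      (g α β p).transpose.mulVec (s2 α p) = lineTrans 4 0 α β p • s2 β (tau α β p))
    {N : ℕ} (hg : IsHoloCocycle (pullTwist N g)) {H : MetricData 2}
    (hH : IsHermitianMetric (pullTwist N g) H) (hG : IsGriffithsPositive H) :
    SliceData N (fun X Y => s2 (0, 0) ![X, Y] 0) (fun X Y => s2 (0, 0) ![X, Y] 1)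
      (fun x y => dualNormSq (H (0, 0) ![x, y]) ![0, 1])
      (fun x y => dualNormSq (H (0, 0) ![x, y]) (s2 (0, 0) (powMap N ![x, y])))
      (fun x y => dualNormSq (H (0, 0) ![x, y]) ![1, 0]) := by
  have hl : Continuous fun p : ℂ × ℂ => (![p.1, p.2] : Fin 2 → ℂ) := by fun_prop
  have hpd : ∀ α, Differentiable ℂ fun p => s2 α (powMap N p) :=
    fun α => (hs2 α).comp (differentiable_powMap N)
  have hcst : ∀ c : Fin 2 → ℂ, Differentiable ℂ fun _ : Fin 2 → ℂ => c :=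
    fun c => differentiable_const c
  have h1' := pullTwist_functional (g := g) (a := 0) (b := 8) (σ := fun _ _ => ![0, 1]) h1g N
  have h2' := pullTwist_functional (g := g) (a := 4) (b := 0) (σ := s2) h2g N
  have hpow : ∀ x y : ℂ, powMap N ![x, y] = ![x ^ N, y ^ N] := by
    intro x y; funext i; fin_cases i <;> simp [powMap]
  have hdec : ∀ x y : ℂ, s2 (0, 0) (powMap N ![x, y]) =
      s2 (0, 0) ![x ^ N, y ^ N] 1 • ![0, 1] + s2 (0, 0) ![x ^ N, y ^ N] 0 • ![1, 0] := by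
    intro x y; rw [hpow]; funext i; fin_cases i <;> simp
  refine
    { cP := continuous_dualNormSq_metric hH (0, 0) hl continuous_const
      cQ := continuous_dualNormSq_metric hH (0, 0) hl ((hpd (0, 0)).continuous.comp hl)
      cE := continuous_dualNormSq_metric hH (0, 0) hl continuous_const
      posP := dualNormSq_pos (hH.posDef _ _) (by simp)
      Px := fun y => mpfun_x hH hG (0, 0) y (hcst _)
      Py := fun y => mpfun_y hH hG (0, 0) y (hcst _)
      Qx := fun y => mpfun_x hH hG (0, 0) y (hpd _)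
      Qy := fun y => mpfun_y hH hG (0, 0) y (hpd _)
      Ex := fun y => mpfun_x hH hG (0, 0) y (hcst _)
      grPx := ?_
      grPy := ?_
      grQx := ?_
      grQy := ?_
      tri1 := ?_
      tri2 := ?_
      tri3 := ?_ }
  · intro y
    refine growth_x (a := 1) (b := (N : ℤ) * 8 + 1) hg hH (σ := fun _ _ => ![0, 1])
      (fun _ => continuous_const) ?_ y
    intro α β p hp
    rw [h1' α β p hp]
    norm_num
  · intro x
    refine growth_y (a := 1) (b := N * 8 + 1) hg hH (σ := fun _ _ => ![0, 1])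
      (fun _ => continuous_const) ?_ x
    intro α β p hp
    rw [h1' α β p hp]
    norm_num
  · intro y
    refine growth_x (a := N * 4 + 1) (b := 1) hg hH (σ := fun α p => s2 α (powMap N p))
      (fun α => (hpd α).continuous) ?_ y
    intro α β p hp
    rw [h2' α β p hp]
    norm_num
  · intro x
    refine growth_y (a := (N : ℤ) * 4 + 1) (b := 1) hg hH (σ := fun α p => s2 α (powMap N p))
      (fun α => (hpd α).continuous) ?_ x
    intro α β p hp
    rw [h2' α β p hp]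
    norm_num
  · intro x y
    exact tri_aux (hH.posDef _ _) _ _ (hdec x y)
  · intro x y
    have h0 : s2 (0, 0) ![x ^ N, y ^ N] 1 • (![0, 1] : Fin 2 → ℂ) =
        (1 : ℂ) • s2 (0, 0) (powMap N ![x, y]) +
          (-(s2 (0, 0) ![x ^ N, y ^ N] 0)) • (![1, 0] : Fin 2 → ℂ) := by
      rw [hdec x y]; funext i; fin_cases i <;> simp
    have := tri_aux (hH.posDef (0, 0) ![x, y]) _ _ h0
    rw [sqrt_dualNormSq_smul, norm_one, one_mul, norm_neg] at this
    exact this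
  · intro x y
    have h0 : s2 (0, 0) ![x ^ N, y ^ N] 0 • (![1, 0] : Fin 2 → ℂ) =
        (1 : ℂ) • s2 (0, 0) (powMap N ![x, y]) +
          (-(s2 (0, 0) ![x ^ N, y ^ N] 1)) • (![0, 1] : Fin 2 → ℂ) := by
      rw [hdec x y]; funext i; fin_cases i <;> simp
    have := tri_aux (hH.posDef (0, 0) ![x, y]) _ _ h0
    rw [sqrt_dualNormSq_smul, norm_one, one_mul, norm_neg] at this
    exact this

/-- **Analysis output**: Griffiths positive metrics on all `ψ_{N+1}^* E (1,1)` give `RelData`. -/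
theorem exists_relData_of_metrics {g : Transition 2} {s2 : Chart → (Fin 2 → ℂ) → Fin 2 → ℂ}
    (hs2 : ∀ α, Differentiable ℂ (s2 α))
    (h1g : ∀ α β, ∀ p ∈ overlap α β,
      (g α β p).transpose.mulVec ![0, 1] = lineTrans 0 8 α β p • ![0, 1])
    (h2g : ∀ α β, ∀ p ∈ overlap α β,
      (g α β p).transpose.mulVec (s2 α p) = lineTrans 4 0 α β p • s2 β (tau α β p))
    (hg : IsHoloCocycle g)
    (hmet : ∀ N : ℕ, ∃ H : MetricData 2, IsHermitianMetric (pullTwist (N + 1) g) H ∧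
      IsGriffithsPositive H) :
    ∃ P Q E : ℕ → ℂ → ℂ → ℝ,
      RelData (fun X Y => s2 (0, 0) ![X, Y] 0) (fun X Y => s2 (0, 0) ![X, Y] 1) P Q E := by
  choose H hH hG using hmet
  refine ⟨_, _, _, relData_of_sliceData (fun N => sliceData_of_metric hs2 h1g h2g
    (isHoloCocycle_pullTwist (N + 1) hg) (hH N) (hG N))⟩

end Crest.Agent.R258
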