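import Mathlib
import Crest.Agent.R258.Relaxed
import Crest.Prelude.Def_QuadricBundle
import Crest.Agent.R258.Pullback
import Crest.Agent.R258.RelDataOf

-- ▼ part R258/FinalFE
section

/-!
The functional-equation endgame: the two relaxed limit functions vanish on the unit disc.
-/

namespace Crest.Agent.R258

noncomputable section

open Complex

/-- Functional equations of the relaxed limits, and the resulting vanishing. -/
theorem final_fe (A B : ℂ → ℝ) (μ : ℝ) (hμ : 1 < μ)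
    (hA0 : ∀ Y, 0 ≤ A Y) (hB0 : ∀ X, 0 ≤ B X)
    (hC1 : ∀ Y : ℂ, Y ≠ 0 → B ((1 + Y ^ 2) / (2 * Y)) * ‖2 * Y‖ ^ 4 = A Y)
    (hC2 : ∀ Y : ℂ, (μ : ℂ) - Y ^ 2 / μ ≠ 0 →
      B (2 * Y / ((μ : ℂ) - Y ^ 2 / μ)) * ‖(μ : ℂ) - Y ^ 2 / μ‖ ^ 4 = A Y)
    (hbdd : ∃ C₀ : ℝ, ∀ Y, ‖Y‖ ≤ μ → A Y ≤ C₀)
    (hL4 : ∀ r₀ R₀ b : ℝ, 0 < r₀ → r₀ < 1 → 1 < R₀ →
      (∀ X, ‖X‖ = r₀ → B X ≤ b * r₀ ^ 2) → (∀ X, ‖X‖ = R₀ → B X ≤ b * R₀ ^ 2) →
      ∀ X, ‖X‖ = 1 → B X ≤ b)
    (hLB : ∀ b : ℝ, (∀ X, ‖X‖ = 1 → B X ≤ b) → ∀ X, ‖X‖ ≤ 1 → B X ≤ b)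
    (hLA : ∀ b : ℝ, (∀ Y, ‖Y‖ = 1 → A Y ≤ b) → ∀ Y, ‖Y‖ ≤ 1 → A Y ≤ b) :
    (∀ Y, ‖Y‖ ≤ 1 → A Y = 0) ∧ (∀ X, ‖X‖ ≤ 1 → B X = 0) := by
  have hμ0 : (0 : ℝ) < μ := by linarith
  have hμc : (μ : ℂ) ≠ 0 := by exact_mod_cast hμ0.ne'
  -- first involution
  have hinv1 : ∀ Y : ℂ, Y ≠ 0 → A Y = ‖Y‖ ^ 8 * A Y⁻¹ := by
    intro Y hY
    have hY' : Y⁻¹ ≠ 0 := inv_ne_zero hY
    have e : (1 + Y⁻¹ ^ 2) / (2 * Y⁻¹) = (1 + Y ^ 2) / (2 * Y) := by
      field_simp; ring
    have h1 := hC1 Y hY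
    have h2 := hC1 Y⁻¹ hY'
    rw [e] at h2
    rw [← h1, ← h2]
    simp only [norm_mul, norm_inv]
    have : ‖Y‖ ≠ 0 := norm_ne_zero_iff.2 hY
    field_simp
  -- second involution, combined
  have hinv2 : ∀ Y : ℂ, Y ≠ 0 → (μ : ℂ) - Y ^ 2 / μ ≠ 0 →
      A (-(μ : ℂ) ^ 2 / Y) * ‖Y‖ ^ 8 = μ ^ 8 * A Y := by
    intro Y hY hne
    set Z : ℂ := -(μ : ℂ) ^ 2 / Y with hZ
    have hZe : (μ : ℂ) - Z ^ 2 / μ = -((μ : ℂ) ^ 2 / Y ^ 2) * ((μ : ℂ) - Y ^ 2 / μ) := by
      rw [hZ]; field_simp; ring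
    have hneZ : (μ : ℂ) - Z ^ 2 / μ ≠ 0 := by
      rw [hZe]
      refine mul_ne_zero (neg_ne_zero.2 (div_ne_zero (pow_ne_zero _ hμc) (pow_ne_zero _ hY))) hne
    have e : 2 * Z / ((μ : ℂ) - Z ^ 2 / μ) = 2 * Y / ((μ : ℂ) - Y ^ 2 / μ) := by
      rw [hZe, hZ]
      field_simp
    have h1 := hC2 Y hne
    have h2 := hC2 Z hneZ
    rw [e] at h2
    rw [← h1, ← h2, hZe, norm_mul, norm_neg, norm_div, norm_pow, norm_pow, Complex.norm_real,
      Real.norm_of_nonneg hμ0.le]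
    have : ‖Y‖ ≠ 0 := norm_ne_zero_iff.2 hY
    field_simp
  have hscale : ∀ Y : ℂ, Y ≠ 0 → ‖Y‖ < μ⁻¹ → A Y = (μ ^ 8)⁻¹ * A (-(μ : ℂ) ^ 2 * Y) := by
    intro Y hY hlt
    have hYn : ‖Y‖ ≠ 0 := norm_ne_zero_iff.2 hY
    have hYi : Y⁻¹ ≠ 0 := inv_ne_zero hY
    have hne : (μ : ℂ) - Y⁻¹ ^ 2 / μ ≠ 0 := by
      intro h0
      have h1 : Y⁻¹ ^ 2 = (μ : ℂ) ^ 2 := by
        field_simp at h0 ⊢
        linear_combination -h0
      have h2 : ‖Y‖⁻¹ ^ 2 = μ ^ 2 := by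
        have := congrArg norm h1
        simpa [norm_pow, norm_inv, Complex.norm_real, abs_of_pos hμ0] using this
      have h3 : ‖Y‖⁻¹ = μ := by
        have h4 : 0 ≤ ‖Y‖⁻¹ := by positivity
        exact (pow_left_inj₀ h4 hμ0.le (by norm_num)).1 h2
      rw [← h3, inv_inv] at hlt
      exact lt_irrefl _ hlt
    have h1 := hinv2 Y⁻¹ hYi hne
    have h2 := hinv1 Y hY
    have e : -(μ : ℂ) ^ 2 / Y⁻¹ = -(μ : ℂ) ^ 2 * Y := by field_simp
    rw [e, norm_inv] at h1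
    rw [h2]
    have h3 : A Y⁻¹ = (μ ^ 8)⁻¹ * (A (-(μ : ℂ) ^ 2 * Y) * ‖Y‖⁻¹ ^ 8) := by
      rw [h1]; field_simp
    rw [h3]
    field_simp
  obtain ⟨C₀, hC₀⟩ := hbdd
  have hC₀' : 0 ≤ C₀ := le_trans (hA0 0) (hC₀ 0 (by simpa using hμ0.le))
  -- growth bound near `0`
  have hsmall : ∀ n : ℕ, ∀ Y : ℂ, Y ≠ 0 → μ⁻¹ ≤ μ ^ (2 * n) * ‖Y‖ → ‖Y‖ < μ →
      A Y ≤ C₀ * μ ^ 4 * ‖Y‖ ^ 4 := by
    intro n
    induction n with
    | zero =>
      intro Y hY h1 h2
      simp only [mul_zero, pow_zero, one_mul] at h1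
      have h3 : 1 ≤ μ * ‖Y‖ := by
        rw [inv_le_iff_one_le_mul₀ hμ0] at h1; linarith [h1, mul_comm ‖Y‖ μ]
      calc A Y ≤ C₀ := hC₀ Y h2.le
        _ = C₀ * 1 := by ring
        _ ≤ C₀ * (μ * ‖Y‖) ^ 4 := mul_le_mul_of_nonneg_left (one_le_pow₀ h3) hC₀'
        _ = _ := by ring
    | succ n ih =>
      intro Y hY h1 h2
      by_cases hlt : ‖Y‖ < μ⁻¹
      · have hnorm : ‖-(μ : ℂ) ^ 2 * Y‖ = μ ^ 2 * ‖Y‖ := by
          rw [norm_mul, norm_neg, norm_pow, Complex.norm_real, Real.norm_of_nonneg hμ0.le]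
        have hYne : -(μ : ℂ) ^ 2 * Y ≠ 0 :=
          mul_ne_zero (neg_ne_zero.2 (pow_ne_zero _ hμc)) hY
        have h3 := ih (-(μ : ℂ) ^ 2 * Y) hYne
          (by rw [hnorm]; calc μ⁻¹ ≤ μ ^ (2 * (n + 1)) * ‖Y‖ := h1
                _ = _ := by ring)
          (by rw [hnorm]
              calc μ ^ 2 * ‖Y‖ < μ ^ 2 * μ⁻¹ := mul_lt_mul_of_pos_left hlt (by positivity)
                _ = μ := by field_simp)
        rw [hscale Y hY hlt]
        rw [hnorm] at h3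
        calc (μ ^ 8)⁻¹ * A (-(μ : ℂ) ^ 2 * Y) ≤ (μ ^ 8)⁻¹ * (C₀ * μ ^ 4 * (μ ^ 2 * ‖Y‖) ^ 4) :=
              mul_le_mul_of_nonneg_left h3 (by positivity)
          _ = _ := by field_simp
      · rw [not_lt] at hlt
        have h3 : 1 ≤ μ * ‖Y‖ := by
          rw [inv_le_iff_one_le_mul₀ hμ0] at hlt; linarith [hlt, mul_comm ‖Y‖ μ]
        calc A Y ≤ C₀ := hC₀ Y h2.le
          _ = C₀ * 1 := by ring
          _ ≤ C₀ * (μ * ‖Y‖) ^ 4 := mul_le_mul_of_nonneg_left (one_le_pow₀ h3) hC₀'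
          _ = _ := by ring
  have hA1 : ∀ Y : ℂ, Y ≠ 0 → ‖Y‖ < μ → A Y ≤ C₀ * μ ^ 4 * ‖Y‖ ^ 4 := by
    intro Y hY hlt
    have hYn : 0 < ‖Y‖ := norm_pos_iff.2 hY
    obtain ⟨n, hn⟩ := pow_unbounded_of_one_lt (μ⁻¹ / ‖Y‖) (one_lt_pow₀ hμ (n := 2) (by norm_num))
    refine hsmall n Y hY ?_ hlt
    rw [← pow_mul] at hn
    rw [div_lt_iff₀ hYn] at hn
    exact hn.le
  have hA2 : ∀ Y : ℂ, Y ≠ 0 → A Y ≤ C₀ * μ ^ 4 * ‖Y‖ ^ 4 := by
    intro Y hY
    by_cases hlt : ‖Y‖ < μ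
    · exact hA1 Y hY hlt
    · rw [not_lt] at hlt
      have hYn : 0 < ‖Y‖ := norm_pos_iff.2 hY
      have h1 : ‖Y⁻¹‖ < μ := by
        rw [norm_inv]
        calc ‖Y‖⁻¹ ≤ 1 := inv_le_one_of_one_le₀ (by linarith)
          _ < μ := hμ
      have h2 := hA1 Y⁻¹ (inv_ne_zero hY) h1
      rw [hinv1 Y hY]
      rw [norm_inv] at h2
      calc ‖Y‖ ^ 8 * A Y⁻¹ ≤ ‖Y‖ ^ 8 * (C₀ * μ ^ 4 * ‖Y‖⁻¹ ^ 4) :=
            mul_le_mul_of_nonneg_left h2 (by positivity)
        _ = _ := by field_simp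
  set K : ℝ := C₀ * μ ^ 4 / 16 with hK
  have hK0 : 0 ≤ K := by positivity
  -- `B ≤ K`
  have hBle : ∀ X : ℂ, B X ≤ K := by
    intro X
    -- root of `Y² - 2XY + 1 = 0`
    obtain ⟨s, hs⟩ := IsAlgClosed.exists_pow_nat_eq (X ^ 2 - 1) (n := 2) (by norm_num)
    have hY : (X + s) * (X - s) = 1 := by linear_combination -hs
    have hY0 : X + s ≠ 0 := left_ne_zero_of_mul_eq_one hY
    have e : (1 + (X + s) ^ 2) / (2 * (X + s)) = X := by
      field_simp
      linear_combination hs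
    have h1 := hC1 (X + s) hY0
    rw [e] at h1
    have h2 := hA2 (X + s) hY0
    rw [← h1, norm_mul] at h2
    have h3 : 0 < ‖X + s‖ := norm_pos_iff.2 hY0
    have h4 : ‖(2 : ℂ)‖ = 2 := by simp
    rw [h4] at h2
    have h5 : B X * 16 * ‖X + s‖ ^ 4 ≤ C₀ * μ ^ 4 * ‖X + s‖ ^ 4 := by
      calc B X * 16 * ‖X + s‖ ^ 4 = B X * (2 * ‖X + s‖) ^ 4 := by ring
        _ ≤ _ := h2
    have h6 := le_of_mul_le_mul_right h5 (by positivity)
    rw [hK]; linarith
  -- `B X ≤ K ‖X‖⁴` for `X ≠ 0`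
  have hBle2 : ∀ X : ℂ, X ≠ 0 → B X ≤ K * ‖X‖ ^ 4 := by
    intro X hX
    -- root of `X Y² / μ + 2 Y - μ X = 0`
    obtain ⟨s, hs⟩ := IsAlgClosed.exists_pow_nat_eq (1 + X ^ 2) (n := 2) (by norm_num)
    set Y : ℂ := μ * (s - 1) / X with hYdef
    have hYX : Y * X = μ * (s - 1) := by rw [hYdef]; field_simp
    have hrel : X * ((μ : ℂ) - Y ^ 2 / μ) = 2 * Y := by
      rw [hYdef]
      field_simp
      linear_combination (-1 : ℂ) * hs
    have hY0 : Y ≠ 0 := by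
      intro h0
      rw [h0] at hrel
      have : X * (μ : ℂ) = 0 := by linear_combination hrel
      exact (mul_ne_zero hX hμc) this
    have hne : (μ : ℂ) - Y ^ 2 / μ ≠ 0 := by
      intro h0
      rw [h0, mul_zero] at hrel
      exact hY0 (by linear_combination (-1/2 : ℂ) * hrel)
    have e : 2 * Y / ((μ : ℂ) - Y ^ 2 / μ) = X := by
      rw [div_eq_iff hne]; exact hrel.symm
    have h1 := hC2 Y hne
    rw [e] at h1
    have h2 := hA2 Y hY0
    rw [← h1] at h2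
    set w := (μ : ℂ) - Y ^ 2 / μ with hw
    have hwn : 0 < ‖w‖ := norm_pos_iff.2 hne
    have hYn : ‖Y‖ = ‖X‖ * ‖w‖ / 2 := by
      have := congrArg norm hrel
      rw [norm_mul, norm_mul] at this
      have h4 : ‖(2 : ℂ)‖ = 2 := by simp
      rw [h4] at this
      linarith
    rw [hYn] at h2
    have h5 : B X * ‖w‖ ^ 4 ≤ (K * ‖X‖ ^ 4) * ‖w‖ ^ 4 := by
      calc B X * ‖w‖ ^ 4 ≤ C₀ * μ ^ 4 * (‖X‖ * ‖w‖ / 2) ^ 4 := h2
        _ = _ := by rw [hK]; ring
    exact le_of_mul_le_mul_right h5 (by positivity)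
  -- `B = 0` on the unit circle
  have hB1 : ∀ X : ℂ, ‖X‖ = 1 → B X ≤ 0 := by
    intro X hX
    refine le_of_forall_pos_le_add fun ε hε => ?_
    rw [zero_add]
    -- choose `r₀` with `K r₀² ≤ ε` and `R₀` with `K ≤ ε R₀²`
    obtain ⟨R, hR1, hR2⟩ : ∃ R : ℝ, 1 < R ∧ K ≤ ε * R := by
      refine ⟨max 2 (K / ε), lt_of_lt_of_le (by norm_num) (le_max_left _ _), ?_⟩
      have := le_max_right 2 (K / ε)
      rw [div_le_iff₀ hε] at this
      linarith [mul_comm ε (max 2 (K / ε))]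
    have hR0 : 0 < R := by linarith
    have hRsq : R ≤ R ^ 2 := by nlinarith
    refine hL4 R⁻¹ R ε (by positivity) (inv_lt_one_of_one_lt₀ hR1) hR1 ?_ ?_ X hX
    · intro X' hX'
      have hX0 : X' ≠ 0 := by
        intro h0; rw [h0, norm_zero] at hX'; exact (inv_ne_zero hR0.ne') hX'.symm
      refine (hBle2 X' hX0).trans ?_
      rw [hX']
      have h1 : R⁻¹ ^ 4 = R⁻¹ ^ 2 * R⁻¹ ^ 2 := by ring
      rw [h1, ← mul_assoc]
      refine mul_le_mul_of_nonneg_right ?_ (by positivity)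
      rw [inv_pow, ← div_eq_mul_inv, div_le_iff₀ (by positivity)]
      nlinarith
    · intro X' _
      exact (hBle X').trans (by nlinarith)
  have hBz : ∀ X : ℂ, ‖X‖ ≤ 1 → B X = 0 := fun X hX => le_antisymm (hLB 0 hB1 X hX) (hB0 X)
  refine ⟨?_, hBz⟩
  have hA1' : ∀ Y : ℂ, ‖Y‖ = 1 → A Y ≤ 0 := by
    intro Y hY
    have hY0 : Y ≠ 0 := by intro h0; rw [h0, norm_zero] at hY; norm_num at hY
    rw [← hC1 Y hY0]
    have hle : ‖(1 + Y ^ 2) / (2 * Y)‖ ≤ 1 := by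
      rw [norm_div, norm_mul, hY]
      have h4 : ‖(2 : ℂ)‖ = 2 := by simp
      rw [h4, div_le_one (by norm_num)]
      calc ‖1 + Y ^ 2‖ ≤ ‖(1 : ℂ)‖ + ‖Y ^ 2‖ := norm_add_le _ _
        _ = 2 * 1 := by rw [norm_one, norm_pow, hY]; norm_num
    rw [hBz _ hle, zero_mul]
  exact fun Y hY => le_antisymm (hLA 0 hA1' Y hY) (hA0 Y)

end

end Crest.Agent.R258
end

-- ▼ part R258/Contra
section

/-!
The contradiction drawn from the relaxed limits, for a concrete curve `F₁ F₂ = 0`.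
-/

namespace Crest.Agent.R258

noncomputable section

/-- The relaxed limits `A`, `B` cannot exist for data `f`, `v` adapted to the curve
`(2XY - 1 - Y²) (X (μ - Y²/μ) - 2Y) = 0`. -/
theorem relaxed_contra (f v : ℂ → ℂ → ℂ) (μ : ℝ) (hμ : 1 < μ)
    (hf1 : ∀ X Y : ℂ, 2 * X * Y - 1 - Y ^ 2 = 0 → f X Y = 0)
    (hf2 : ∀ X Y : ℂ, X * ((μ : ℂ) - Y ^ 2 / μ) - 2 * Y = 0 → f X Y = 0)
    (hv1 : ∀ X Y : ℂ, 2 * X * Y - 1 - Y ^ 2 = 0 → v X Y * (2 * Y) ^ 4 = 1)
    (hv2 : ∀ X Y : ℂ, X * ((μ : ℂ) - Y ^ 2 / μ) - 2 * Y = 0 →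
      v X Y * ((μ : ℂ) - Y ^ 2 / μ) ^ 4 = 1)
    (A B : ℂ → ℝ) (hA0 : ∀ Y, 0 ≤ A Y) (hB0 : ∀ X, 0 ≤ B X)
    (hAg : ∀ ρ : ℝ, 1 ≤ ρ → ∀ Y, ‖Y‖ ≤ ρ → A Y ≤ ρ ^ 12)
    (hrel : ∀ X Y, f X Y = 0 → v X Y ≠ 0 → B X = ‖v X Y‖ * A Y)
    (hann : ∀ m r R : ℝ, 0 < r → r < R → (∀ X, ‖X‖ = r → B X ≤ m * r ^ 2) →
      (∀ X, ‖X‖ = R → B X ≤ m * R ^ 2) → ∀ X, r ≤ ‖X‖ → ‖X‖ ≤ R → B X ≤ m * ‖X‖ ^ 2)
    (hLB : ∀ b : ℝ, (∀ X, ‖X‖ = 1 → B X ≤ b) → ∀ X, ‖X‖ ≤ 1 → B X ≤ b)
    (hLA : ∀ b : ℝ, (∀ Y, ‖Y‖ = 1 → A Y ≤ b) → ∀ Y, ‖Y‖ ≤ 1 → A Y ≤ b)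
    (hne : ¬ ((∀ Y, ‖Y‖ ≤ 1 → A Y = 0) ∧ (∀ X, ‖X‖ ≤ 1 → B X = 0))) : False := by
  have key : ∀ X Y w : ℂ, f X Y = 0 → v X Y * w ^ 4 = 1 → B X * ‖w‖ ^ 4 = A Y := by
    intro X Y w h0 h1
    have hv0 : v X Y ≠ 0 := left_ne_zero_of_mul_eq_one h1
    have h2 : ‖v X Y‖ * ‖w‖ ^ 4 = 1 := by
      rw [← norm_pow, ← norm_mul, h1, norm_one]
    rw [hrel X Y h0 hv0]
    calc ‖v X Y‖ * A Y * ‖w‖ ^ 4 = (‖v X Y‖ * ‖w‖ ^ 4) * A Y := by ring
      _ = A Y := by rw [h2, one_mul]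
  refine hne (final_fe A B μ hμ hA0 hB0 ?_ ?_ ⟨μ ^ 12, fun Y hY => hAg μ hμ.le Y hY⟩ ?_ hLB hLA)
  · intro Y hY
    have h : 2 * ((1 + Y ^ 2) / (2 * Y)) * Y - 1 - Y ^ 2 = 0 := by
      field_simp; ring
    exact key _ Y (2 * Y) (hf1 _ _ h) (hv1 _ _ h)
  · intro Y hY
    have h : (2 * Y / ((μ : ℂ) - Y ^ 2 / μ)) * ((μ : ℂ) - Y ^ 2 / μ) - 2 * Y = 0 := by
      rw [div_mul_cancel₀ _ hY, sub_self]
    exact key _ Y _ (hf2 _ _ h) (hv2 _ _ h)
  · intro r₀ R₀ b hr0 hr1 hR h1 h2 X hX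
    have := hann b r₀ R₀ hr0 (hr1.trans hR) h1 h2 X (by rw [hX]; exact hr1.le)
      (by rw [hX]; exact hR.le)
    rwa [hX, one_pow, mul_one] at this

/-- The limit data `LimData` cannot exist for data `f`, `v` adapted to the curve. -/
theorem LimData.contra {f v : ℂ → ℂ → ℂ} {A B : ℂ → ℝ} (h : LimData f v A B) (μ : ℝ) (hμ : 1 < μ)
    (hf1 : ∀ X Y : ℂ, 2 * X * Y - 1 - Y ^ 2 = 0 → f X Y = 0)
    (hf2 : ∀ X Y : ℂ, X * ((μ : ℂ) - Y ^ 2 / μ) - 2 * Y = 0 → f X Y = 0)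
    (hv1 : ∀ X Y : ℂ, 2 * X * Y - 1 - Y ^ 2 = 0 → v X Y * (2 * Y) ^ 4 = 1)
    (hv2 : ∀ X Y : ℂ, X * ((μ : ℂ) - Y ^ 2 / μ) - 2 * Y = 0 →
      v X Y * ((μ : ℂ) - Y ^ 2 / μ) ^ 4 = 1) : False := by
  refine relaxed_contra f v μ hμ hf1 hf2 hv1 hv2 A B h.A_nonneg h.B_nonneg
    (fun ρ hρ Y hY => h.growthA ρ Y hρ hY) h.rel ?_ h.mpB h.mpA h.nonzero
  intro m r R hr hrR h1 h2 X hX1 hX2
  rcases hX1.eq_or_lt with hX1 | hX1
  · rw [← hX1]; exact h1 X hX1.symm
  rcases hX2.eq_or_lt with hX2 | hX2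
  · rw [hX2]; exact h2 X hX2
  exact h.annB r R m hr hrR h1 h2 X hX1 hX2

/-- No sequence `RelData` for data `f`, `v` adapted to the curve. -/
theorem RelData.contra {f v : ℂ → ℂ → ℂ} {P Q E : ℕ → ℂ → ℂ → ℝ} (h : RelData f v P Q E)
    (hfc : Continuous fun p : ℂ × ℂ => f p.1 p.2) (hvc : Continuous fun p : ℂ × ℂ => v p.1 p.2)
    (hcirc : ∀ (Y : ℂ) (ρ : ℝ), ∃ R, ρ ≤ R ∧ ∀ X : ℂ, ‖X‖ = R → f X Y ≠ 0)
    (μ : ℝ) (hμ : 1 < μ)
    (hf1 : ∀ X Y : ℂ, 2 * X * Y - 1 - Y ^ 2 = 0 → f X Y = 0)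
    (hf2 : ∀ X Y : ℂ, X * ((μ : ℂ) - Y ^ 2 / μ) - 2 * Y = 0 → f X Y = 0)
    (hv1 : ∀ X Y : ℂ, 2 * X * Y - 1 - Y ^ 2 = 0 → v X Y * (2 * Y) ^ 4 = 1)
    (hv2 : ∀ X Y : ℂ, X * ((μ : ℂ) - Y ^ 2 / μ) - 2 * Y = 0 →
      v X Y * ((μ : ℂ) - Y ^ 2 / μ) ^ 4 = 1) : False := by
  obtain ⟨A, B, hAB⟩ := relaxed_limit h hfc hvc hcirc
  exact hAB.contra μ hμ hf1 hf2 hv1 hv2



end

end Crest.Agent.R258
end

-- ▼ part R258/Defs
section

/-!
# rid 258 (S0396): definitions shared by all files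

See `notes` (kind blueprint) in the team database for the mathematics.
-/

set_option autoImplicit false

noncomputable section

namespace Crest.Agent.R258

open Crest.AlgGeometry.QuadricBundle
open scoped ComplexConjugate

/-! ## Explicit polynomials (over any commutative `ℚ`-algebra / field of char 0)

`m` is a root of `m² = 2m+1`, `(x0,x1)` homogeneous coordinates in the first `ℙ¹`
(`x = x1/x0`), `y` the affine coordinate of the second. -/

section polys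
variable {R : Type*} [CommRing R] [Algebra ℚ R]

/-- `δ = m - (m-2) y²`. -/
def del (m y : R) : R := m - (m - 2) * y ^ 2

/-- `t₁ = U ∧ x`, `U = (2y, 1+y²)`. -/
def t1 (x0 x1 y : R) : R := 2 * y * x1 - (1 + y ^ 2) * x0

/-- `t₂ = V ∧ x`, `V = (δ, 2y)`. -/
def t2 (m x0 x1 y : R) : R := del m y * x1 - 2 * y * x0

/-- `T = t₁ t₂ / 32`, quadratic form in `x`. -/
def TT (m x0 x1 y : R) : R := algebraMap ℚ R (1 / 32) * (t1 x0 x1 y * t2 m x0 x1 y)

/-- quartic form `ν` in `x` with `ν(U) = ν(V) = 1`. -/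
def nu (m x0 x1 y : R) : R :=
  (29 - 12 * m) * x0 ^ 4 + algebraMap ℚ R (1 / 32) * (273 - 117 * m) * x0 ^ 2 * x1 ^ 2 + x1 ^ 4
  + (algebraMap ℚ R (1 / 32) * (-2962 + 1231 * m) * x0 ^ 3 * x1
      + algebraMap ℚ R (1 / 32) * (-699 + 272 * m) * x0 * x1 ^ 3) * y
  + (algebraMap ℚ R (1 / 32) * (926 - 384 * m) * x0 ^ 4
      + algebraMap ℚ R (1 / 32) * (2533 - 1043 * m) * x0 ^ 2 * x1 ^ 2
      + algebraMap ℚ R (1 / 32) * (178 - 76 * m) * x1 ^ 4) * y ^ 2
  + (algebraMap ℚ R (1 / 32) * (-1118 + 463 * m) * x0 ^ 3 * x1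
      + algebraMap ℚ R (1 / 32) * (-89 + 38 * m) * x0 * x1 ^ 3) * y ^ 3

/-- `y³ p(x,y)`, where `p` is the off-diagonal entry of the transition matrix. -/
def PP (m x0 x1 y : R) : R :=
  (79 + 192 * m) * x0 ^ 2 + (12 + 13 * m) * x1 ^ 2
  + (-13 - 39 * m) * x0 * x1 * y
  + (x0 ^ 2 + (2 + 5 * m) * x1 ^ 2) * y ^ 2
  + (-1 - m) * x0 * x1 * y ^ 3
  + (-x0 ^ 2 + m * x1 ^ 2) * y ^ 4
  + (-1 + m) * x0 * x1 * y ^ 5
  + (x0 ^ 2 + (-2 + m) * x1 ^ 2) * y ^ 6
  + (3 - m) * x0 * x1 * y ^ 7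
  + (-x0 ^ 2 + (-12 + 5 * m) * x1 ^ 2) * y ^ 8
  + (91 - 39 * m) * x0 * x1 * y ^ 9
  + ((-463 + 192 * m) * x0 ^ 2 + (-38 + 13 * m) * x1 ^ 2) * y ^ 10

end polys

/-- `μ₀ = 1+√2` for the chart `b = 0` of the second factor, `μ₁ = 1-√2` for `b = 1`. -/
def muB (b : Fin 2) : ℂ := if b = 0 then ((1 + Real.sqrt 2 : ℝ) : ℂ) else ((1 - Real.sqrt 2 : ℝ) : ℂ)

/-- homogeneous coordinates of the point `x` of the chart `a` of the first factor. -/
def hx0 (a : Fin 2) (x : ℂ) : ℂ := if a = 0 then 1 else x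
def hx1 (a : Fin 2) (x : ℂ) : ℂ := if a = 0 then x else 1

/-- transition matrices of the base bundle `E`. -/
def gBase : Transition 2 := fun α β p =>
  !![(if α.1 = β.1 then 1 else (p 0) ^ 2) * (if α.2 = β.2 then 1 else ((p 1) ^ 4)⁻¹),
     (if α.2 = β.2 then 0 else ((p 1) ^ 3)⁻¹ * PP (muB α.2) (hx0 α.1 (p 0)) (hx1 α.1 (p 0)) (p 1));
     0, (if α.2 = β.2 then 1 else (p 1) ^ 8)]

end Crest.Agent.R258
end
end

-- ▼ part R258/Bundle
section
/-! Polynomial identities, the cocycle property, and the two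
functionals `s₁ = (0,1)`, `s₂ = (TT, nu)`. (proofs: helper375) -/
set_option autoImplicit false
noncomputable section
namespace Crest.Agent.R258
open Crest.AlgGeometry.QuadricBundle
open scoped ComplexConjugate

theorem muB_sq (b : Fin 2) : (muB b) ^ 2 = 2 * muB b + 1 := by
  have h : ((Real.sqrt 2 : ℝ) : ℂ) ^ 2 = 2 := by
    rw [← Complex.ofReal_pow, Real.sq_sqrt (by norm_num)]; norm_num
  unfold muB
  split_ifs
  · push_cast
    linear_combination h
  · push_cast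
    linear_combination h

theorem muB_add : muB 0 + muB 1 = 2 := by
  simp only [muB, one_ne_zero, if_true, if_false]
  push_cast
  ring

theorem muB_neg {b c : Fin 2} (h : b ≠ c) : muB c = 2 - muB b := by
  have := muB_add
  fin_cases b <;> fin_cases c <;> simp at h ⊢
  · linear_combination this
  · linear_combination this

section ident
variable {R : Type*} [CommRing R] [Algebra ℚ R]

theorem q32 : (32 : R) * algebraMap ℚ R (1 / 32) = 1 := by
  have : (32 : R) = algebraMap ℚ R 32 := by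
    rw [map_ofNat]
  rw [this, ← map_mul]
  norm_num

set_option maxHeartbeats 1000000 in
/-- `T P = y³ ν'(1/y) - y¹¹ ν`. -/
theorem TT_mul_PP (m x0 x1 y z : R) (hm : m ^ 2 = 2 * m + 1) (hy : y * z = 1) :
    TT m x0 x1 y * PP m x0 x1 y = y ^ 3 * nu (2 - m) x0 x1 z - y ^ 11 * nu m x0 x1 y := by
  have hq := q32 (R := R)
  have h1 : y ^ 3 * z = y ^ 2 := by linear_combination y ^ 2 * hy
  have h2 : y ^ 3 * z ^ 2 = y := by linear_combination y * (y * z + 1) * hy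
  have h3 : y ^ 3 * z ^ 3 = 1 := by linear_combination ((y * z) ^ 2 + y * z + 1) * hy
  unfold TT nu PP t1 t2 del
  set q : R := algebraMap ℚ R (1 / 32)
  linear_combination (q * ((26) * x1 ^ 4 * y + (-16) * x1 ^ 4 * y ^ 3 + (-8) * x1 ^ 4 * y ^ 5
    + (8) * x1 ^ 4 * y ^ 9 + (16) * x1 ^ 4 * y ^ 11 + (-26) * x1 ^ 4 * y ^ 13
    + (-13) * x0 * x1 ^ 3 + (-83) * x0 * x1 ^ 3 * y ^ 2 + (88) * x0 * x1 ^ 3 * y ^ 4
    + (8) * x0 * x1 ^ 3 * y ^ 6 + (-8) * x0 * x1 ^ 3 * y ^ 8 + (-88) * x0 * x1 ^ 3 * y ^ 10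
    + (83) * x0 * x1 ^ 3 * y ^ 12 + (13) * x0 * x1 ^ 3 * y ^ 14
    + (423) * x0 ^ 2 * x1 ^ 2 * y + (-383) * x0 ^ 2 * x1 ^ 2 * y ^ 3
    + (-40) * x0 ^ 2 * x1 ^ 2 * y ^ 5 + (40) * x0 ^ 2 * x1 ^ 2 * y ^ 9
    + (383) * x0 ^ 2 * x1 ^ 2 * y ^ 11 + (-423) * x0 ^ 2 * x1 ^ 2 * y ^ 13
    + (-192) * x0 ^ 3 * x1 + (192) * x0 ^ 3 * x1 * y ^ 4 + (-192) * x0 ^ 3 * x1 * y ^ 10
    + (192) * x0 ^ 3 * x1 * y ^ 14)) * hm
    + ((1) * x1 ^ 4 * y ^ 3 + (-1) * x1 ^ 4 * y ^ 11 + (5) * x0 ^ 4 * y ^ 3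
    + (-29) * x0 ^ 4 * y ^ 11 + (12) * m * x0 ^ 4 * y ^ 3 + (12) * m * x0 ^ 4 * y ^ 11) * hq
    - (q * (-2962 + 1231 * (2 - m)) * x0 ^ 3 * x1 + q * (-699 + 272 * (2 - m)) * x0 * x1 ^ 3) * h1
    - (q * (926 - 384 * (2 - m)) * x0 ^ 4 + q * (2533 - 1043 * (2 - m)) * x0 ^ 2 * x1 ^ 2
      + q * (178 - 76 * (2 - m)) * x1 ^ 4) * h2
    - (q * (-1118 + 463 * (2 - m)) * x0 ^ 3 * x1 + q * (-89 + 38 * (2 - m)) * x0 * x1 ^ 3) * h3

/-- `T'(1/y) = y⁻⁴ T(y)`. -/
theorem TT_inv (m x0 x1 y z : R) (_hm : m ^ 2 = 2 * m + 1) (hy : y * z = 1) :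
    TT (2 - m) x0 x1 z = z ^ 4 * TT m x0 x1 y := by
  have e1 : t1 x0 x1 z = z ^ 2 * t1 x0 x1 y := by
    unfold t1
    linear_combination (-2 * z * x1 + (y * z + 1) * x0) * hy
  have e2 : t2 (2 - m) x0 x1 z = z ^ 2 * t2 m x0 x1 y := by
    unfold t2 del
    linear_combination (2 * z * x0 + (m - 2) * (y * z + 1) * x1) * hy
  unfold TT
  rw [e1, e2]; ring

/-- `y¹⁰ P'(1/y) = - P(y)`. -/
theorem PP_inv (m x0 x1 y z : R) (_hm : m ^ 2 = 2 * m + 1) (hy : y * z = 1) :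
    PP (2 - m) x0 x1 z = -(z ^ 10 * PP m x0 x1 y) := by
  have hk : ∀ i j : ℕ, z ^ (i + j) * y ^ i = z ^ j := by
    intro i j
    rw [pow_add, mul_comm (z ^ i), mul_assoc, ← mul_pow, mul_comm z y, hy, one_pow, mul_one]
  have h1 := hk 1 9
  have h2 := hk 2 8
  have h3 := hk 3 7
  have h4 := hk 4 6
  have h5 := hk 5 5
  have h6 := hk 6 4
  have h7 := hk 7 3
  have h8 := hk 8 2
  have h9 := hk 9 1
  have h10 := hk 10 0
  norm_num at h1 h2 h3 h4 h5 h6 h7 h8 h9 h10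
  unfold PP
  linear_combination (-13 - 39 * m) * x0 * x1 * h1 + (x0 ^ 2 + (2 + 5 * m) * x1 ^ 2) * h2
    + (-1 - m) * x0 * x1 * h3 + (-x0 ^ 2 + m * x1 ^ 2) * h4 + (-1 + m) * x0 * x1 * h5
    + (x0 ^ 2 + (-2 + m) * x1 ^ 2) * h6 + (3 - m) * x0 * x1 * h7
    + (-x0 ^ 2 + (-12 + 5 * m) * x1 ^ 2) * h8 + (91 - 39 * m) * x0 * x1 * h9
    + ((-463 + 192 * m) * x0 ^ 2 + (-38 + 13 * m) * x1 ^ 2) * h10

/-- `ν(U) = 1`. -/
theorem nu_U (m y : R) (_hm : m ^ 2 = 2 * m + 1) : nu m (2 * y) (1 + y ^ 2) y = 1 := by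
  have hq := q32 (R := R)
  unfold nu
  set q : R := algebraMap ℚ R (1 / 32)
  linear_combination (-(((29 - 12 * m) * (2 * y) ^ 4 + (1 + y ^ 2) ^ 4) - 1)) * hq

set_option maxHeartbeats 1000000 in
/-- `ν(V) = 1`. -/
theorem nu_V (m y : R) (hm : m ^ 2 = 2 * m + 1) : nu m (del m y) (2 * y) y = 1 := by
  have hq := q32 (R := R)
  unfold nu del
  set q : R := algebraMap ℚ R (1 / 32)
  linear_combination (-(((29 - 12 * m) * (m - (m - 2) * y ^ 2) ^ 4 + (2 * y) ^ 4) - 1)) * hq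
    + q * ((32) + (-512) * y ^ 4 + (3968) * y ^ 6 + (-6560) * y ^ 8 + (3072) * y ^ 10 + (-64) * m
    + (2248) * m * y ^ 4 + (-8848) * m * y ^ 6 + (11272) * m * y ^ 8 + (-4608) * m * y ^ 10
    + (160) * m ^ 2 + (-1092) * m ^ 2 * y ^ 2 + (12) * m ^ 2 * y ^ 4
    + (4916) * m ^ 2 * y ^ 6 + (-6300) * m ^ 2 * y ^ 8 + (2304) * m ^ 2 * y ^ 10
    + (-384) * m ^ 3 + (1152) * m ^ 3 * y ^ 2 + (-768) * m ^ 3 * y ^ 4
    + (-768) * m ^ 3 * y ^ 6 + (1152) * m ^ 3 * y ^ 8 + (-384) * m ^ 3 * y ^ 10) * hm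

/-- homogeneity in `x`. -/
theorem TT_smul (m t x0 x1 y : R) : TT m (t * x0) (t * x1) y = t ^ 2 * TT m x0 x1 y := by
  unfold TT t1 t2; ring

theorem nu_smul (m t x0 x1 y : R) : nu m (t * x0) (t * x1) y = t ^ 4 * nu m x0 x1 y := by
  unfold nu; ring

theorem PP_smul (m t x0 x1 y : R) : PP m (t * x0) (t * x1) y = t ^ 2 * PP m x0 x1 y := by
  unfold PP; ring

end ident

theorem hx0_flip {a b : Fin 2} (h : a ≠ b) {x : ℂ} (hx : x ≠ 0) : hx0 a x = x * hx0 b x⁻¹ := by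
  fin_cases a <;> fin_cases b <;> simp [hx0, hx] at h ⊢

theorem hx1_flip {a b : Fin 2} (h : a ≠ b) {x : ℂ} (hx : x ≠ 0) : hx1 a x = x * hx1 b x⁻¹ := by
  fin_cases a <;> fin_cases b <;> simp [hx1, hx] at h ⊢

theorem tau_zero (α β : Chart) (p : Fin 2 → ℂ) :
    tau α β p 0 = if α.1 = β.1 then p 0 else (p 0)⁻¹ := rfl

theorem tau_one (α β : Chart) (p : Fin 2 → ℂ) :
    tau α β p 1 = if α.2 = β.2 then p 1 else (p 1)⁻¹ := rfl

/-- off diagonal entry. -/
def offB (α : Chart) (p : Fin 2 → ℂ) : ℂ :=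
  ((p 1) ^ 3)⁻¹ * PP (muB α.2) (hx0 α.1 (p 0)) (hx1 α.1 (p 0)) (p 1)

theorem lineTrans_two_neg_four (α β : Chart) (p : Fin 2 → ℂ) : lineTrans 2 (-4) α β p =
    (if α.1 = β.1 then 1 else (p 0) ^ 2) * (if α.2 = β.2 then 1 else ((p 1) ^ 4)⁻¹) := by
  unfold lineTrans
  have e1 : (p 0 : ℂ) ^ (2 : ℤ) = p 0 ^ 2 := by norm_cast
  have e2 : (p 1 : ℂ) ^ (-4 : ℤ) = (p 1 ^ 4)⁻¹ := by rw [zpow_neg]; norm_cast
  rw [e1, e2]

theorem lineTrans_zero_eight' (α β : Chart) (p : Fin 2 → ℂ) : lineTrans 0 8 α β p =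
    (if α.2 = β.2 then 1 else (p 1) ^ 8) := by
  unfold lineTrans
  have e2 : (p 1 : ℂ) ^ (8 : ℤ) = p 1 ^ 8 := by norm_cast
  rw [e2, zpow_zero, ite_self, one_mul]

theorem lineTrans_four_zero (α β : Chart) (p : Fin 2 → ℂ) : lineTrans 4 0 α β p =
    (if α.1 = β.1 then 1 else (p 0) ^ 4) := by
  unfold lineTrans
  have e2 : (p 0 : ℂ) ^ (4 : ℤ) = p 0 ^ 4 := by norm_cast
  rw [e2, zpow_zero, ite_self, mul_one]

theorem gBase_eq (α β : Chart) (p : Fin 2 → ℂ) : gBase α β p =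
    !![lineTrans 2 (-4) α β p, if α.2 = β.2 then 0 else offB α p; 0, lineTrans 0 8 α β p] := by
  rw [lineTrans_two_neg_four, lineTrans_zero_eight']
  rfl

/-- same `y`-chart: the off diagonal entry only picks up the `x`-twist. -/
theorem offB_same {α β : Chart} (h : α.2 = β.2) {p : Fin 2 → ℂ} (hp : p ∈ overlap α β) :
    offB α p = lineTrans 2 (-4) α β p * offB β (tau α β p) := by
  rw [lineTrans_two_neg_four]
  unfold offB
  rw [tau_zero, tau_one, if_pos h, if_pos h, ← h]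
  by_cases h1 : α.1 = β.1
  · rw [if_pos h1, if_pos h1, ← h1]; ring
  · rw [if_neg h1, if_neg h1, hx0_flip h1 (hp.1 h1), hx1_flip h1 (hp.1 h1), PP_smul]
    ring

/-- opposite `y`-chart. -/
theorem offB_flip {α β : Chart} (h : α.2 ≠ β.2) {p : Fin 2 → ℂ} (hp : p ∈ overlap α β) :
    lineTrans 2 (-4) α β p * offB β (tau α β p) + offB α p * lineTrans 0 8 β α (tau α β p) = 0 := by
  have hy := hp.2 h
  have h' : β.2 ≠ α.2 := fun e => h e.symm
  rw [lineTrans_two_neg_four, lineTrans_zero_eight']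
  unfold offB
  rw [tau_zero, tau_one, if_neg h, if_neg h, if_neg h', muB_neg h,
    PP_inv (muB α.2) _ _ (p 1) (p 1)⁻¹ (muB_sq _) (mul_inv_cancel₀ hy)]
  by_cases h1 : α.1 = β.1
  · rw [if_pos h1, if_pos h1, ← h1]
    field_simp
    ring
  · rw [if_neg h1, if_neg h1, hx0_flip h1 (hp.1 h1), hx1_flip h1 (hp.1 h1), PP_smul]
    field_simp
    ring

theorem differentiable_hx0 (a : Fin 2) : Differentiable ℂ (fun p : Fin 2 → ℂ => hx0 a (p 0)) := by
  unfold hx0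
  split_ifs
  · exact differentiable_const _
  · exact differentiable_apply 0

theorem differentiable_hx1 (a : Fin 2) : Differentiable ℂ (fun p : Fin 2 → ℂ => hx1 a (p 0)) := by
  unfold hx1
  split_ifs
  · exact differentiable_apply 0
  · exact differentiable_const _

theorem differentiableOn_offB {α β : Chart} (h : α.2 ≠ β.2) :
    DifferentiableOn ℂ (offB α) (overlap α β) := by
  have h0 := differentiable_hx0 α.1
  have h1 := differentiable_hx1 α.1
  have hy : Differentiable ℂ (fun p : Fin 2 → ℂ => p 1) := differentiable_apply 1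
  have hPP : Differentiable ℂ (fun p : Fin 2 → ℂ =>
      PP (muB α.2) (hx0 α.1 (p 0)) (hx1 α.1 (p 0)) (p 1)) := by
    unfold PP
    fun_prop
  intro p hp
  have hne : p 1 ≠ 0 := hp.2 h
  unfold offB
  refine DifferentiableAt.differentiableWithinAt ?_
  refine DifferentiableAt.mul ?_ (hPP p)
  exact ((hy p).pow 3).inv (pow_ne_zero _ hne)

theorem gBase_cocycle : IsHoloCocycle gBase where
  refl α p := by
    rw [gBase_eq, lineTrans_self, lineTrans_self, if_pos rfl]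
    exact Matrix.one_fin_two.symm
  holo α β i j := by
    simp only [gBase_eq]
    fin_cases i <;> fin_cases j
    · exact differentiableOn_lineTrans 2 (-4) α β
    · change DifferentiableOn ℂ (fun p => if α.2 = β.2 then 0 else offB α p) (overlap α β)
      split_ifs with h
      · exact differentiableOn_const _
      · exact differentiableOn_offB h
    · exact differentiableOn_const _
    · exact differentiableOn_lineTrans 0 8 α β
  cocycle α β γ p hp := by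
    have k1 := lineTrans_cocycle' 2 (-4) γ hp.1
    have k2 := lineTrans_cocycle' 0 8 γ hp.1
    have e08 : ∀ δ : Chart, γ.2 = δ.2 →
        lineTrans 0 8 β γ (tau α β p) = lineTrans 0 8 β δ (tau α β p) := by
      intro δ hδ
      rw [lineTrans_zero_eight', lineTrans_zero_eight', hδ]
    rw [gBase_eq, gBase_eq, gBase_eq]
    ext i j
    fin_cases i <;> fin_cases j
    · simpa [Matrix.mul_apply, Fin.sum_univ_two] using k1
    · have key : lineTrans 2 (-4) α β p * (if β.2 = γ.2 then 0 else offB β (tau α β p)) +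
          (if α.2 = β.2 then 0 else offB α p) * lineTrans 0 8 β γ (tau α β p) =
          (if α.2 = γ.2 then 0 else offB α p) := by
        by_cases h1 : α.2 = β.2
        · by_cases h2 : β.2 = γ.2
          · rw [if_pos h2, if_pos h1, if_pos (h1.trans h2)]; ring
          · rw [if_neg h2, if_pos h1, if_neg (h1 ▸ h2), offB_same h1 hp.1]; ring
        · by_cases h2 : β.2 = γ.2
          · rw [if_pos h2, if_neg h1, if_neg (h2 ▸ h1), e08 β h2.symm,
              lineTrans_self]; ring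
          · have h3 : α.2 = γ.2 := by omega
            rw [if_neg h2, if_neg h1, if_pos h3, e08 α h3.symm]
            exact offB_flip h1 hp.1
      simpa [Matrix.mul_apply, Fin.sum_univ_two] using key
    · simp [Matrix.mul_apply, Fin.sum_univ_two]
    · simpa [Matrix.mul_apply, Fin.sum_univ_two] using k2

/-- the functional `s₂` on the chart `α`. -/
def sTwo (α : Chart) (p : Fin 2 → ℂ) : Fin 2 → ℂ :=
  ![TT (muB α.2) (hx0 α.1 (p 0)) (hx1 α.1 (p 0)) (p 1),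
    nu (muB α.2) (hx0 α.1 (p 0)) (hx1 α.1 (p 0)) (p 1)]

theorem sOne_trans {α β : Chart} {p : Fin 2 → ℂ} (hp : p ∈ overlap α β) :
    (gBase α β p).transpose.mulVec ![0, 1] = lineTrans 0 8 α β p • (![0, 1] : Fin 2 → ℂ) := by
  rw [gBase_eq]
  ext i
  fin_cases i
  · simp [Matrix.mulVec, dotProduct, Fin.sum_univ_two, Matrix.transpose_apply]
  · simp [Matrix.mulVec, dotProduct, Fin.sum_univ_two, Matrix.transpose_apply]

/-- `TT` is a section of `O(2,4)`. -/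
theorem TT_trans {α β : Chart} {p : Fin 2 → ℂ} (hp : p ∈ overlap α β) :
    TT (muB α.2) (hx0 α.1 (p 0)) (hx1 α.1 (p 0)) (p 1) * lineTrans 2 (-4) α β p =
    lineTrans 4 0 α β p * TT (muB β.2) (hx0 β.1 (tau α β p 0)) (hx1 β.1 (tau α β p 0))
      (tau α β p 1) := by
  rw [lineTrans_two_neg_four, lineTrans_four_zero, tau_zero, tau_one]
  by_cases h2 : α.2 = β.2
  · by_cases h1 : α.1 = β.1
    · simp only [h1, h2, if_true]; ring
    · rw [if_neg h1, if_neg h1, if_neg h1, if_pos h2, if_pos h2, h2, hx0_flip h1 (hp.1 h1),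
        hx1_flip h1 (hp.1 h1), TT_smul]; ring
  · have hy := hp.2 h2
    rw [if_neg h2, if_neg h2, muB_neg h2,
      TT_inv (muB α.2) _ _ (p 1) (p 1)⁻¹ (muB_sq _) (mul_inv_cancel₀ hy)]
    by_cases h1 : α.1 = β.1
    · rw [if_pos h1, if_pos h1, if_pos h1, h1]
      field_simp
    · rw [if_neg h1, if_neg h1, if_neg h1, hx0_flip h1 (hp.1 h1), hx1_flip h1 (hp.1 h1), TT_smul]
      field_simp

theorem nu_trans {α β : Chart} {p : Fin 2 → ℂ} (hp : p ∈ overlap α β) :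
    TT (muB α.2) (hx0 α.1 (p 0)) (hx1 α.1 (p 0)) (p 1) * (if α.2 = β.2 then 0 else offB α p) +
    nu (muB α.2) (hx0 α.1 (p 0)) (hx1 α.1 (p 0)) (p 1) * lineTrans 0 8 α β p =
    lineTrans 4 0 α β p * nu (muB β.2) (hx0 β.1 (tau α β p 0)) (hx1 β.1 (tau α β p 0))
      (tau α β p 1) := by
  rw [lineTrans_zero_eight', lineTrans_four_zero, tau_zero, tau_one]
  unfold offB
  by_cases h2 : α.2 = β.2
  · by_cases h1 : α.1 = β.1
    · simp only [h1, h2, if_true]; ring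
    · rw [if_neg h1, if_neg h1, if_pos h2, if_pos h2, if_pos h2, h2, hx0_flip h1 (hp.1 h1),
        hx1_flip h1 (hp.1 h1), nu_smul]; ring
  · have hy := hp.2 h2
    have key := fun a b => TT_mul_PP (muB α.2) a b (p 1) (p 1)⁻¹ (muB_sq _) (mul_inv_cancel₀ hy)
    rw [if_neg h2, if_neg h2, if_neg h2, muB_neg h2]
    have h4 : ∀ a b : ℂ, TT (muB α.2) a b (p 1) * (((p 1) ^ 3)⁻¹ * PP (muB α.2) a b (p 1)) +
        nu (muB α.2) a b (p 1) * p 1 ^ 8 = nu (2 - muB α.2) a b (p 1)⁻¹ := by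
      intro a b
      have hy3 : p 1 ^ 3 ≠ 0 := pow_ne_zero _ hy
      apply mul_left_cancel₀ hy3
      have : p 1 ^ 3 * (TT (muB α.2) a b (p 1) * (((p 1) ^ 3)⁻¹ * PP (muB α.2) a b (p 1)) +
        nu (muB α.2) a b (p 1) * p 1 ^ 8) = TT (muB α.2) a b (p 1) * PP (muB α.2) a b (p 1) +
        p 1 ^ 11 * nu (muB α.2) a b (p 1) := by
        field_simp
      rw [this, key]; ring
    rw [h4]
    by_cases h1 : α.1 = β.1
    · rw [if_pos h1, if_pos h1, h1]; ring
    · rw [if_neg h1, if_neg h1, hx0_flip h1 (hp.1 h1), hx1_flip h1 (hp.1 h1), nu_smul]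

theorem sTwo_trans {α β : Chart} {p : Fin 2 → ℂ} (hp : p ∈ overlap α β) :
    (gBase α β p).transpose.mulVec (sTwo α p) = lineTrans 4 0 α β p • sTwo β (tau α β p) := by
  rw [gBase_eq]
  ext i
  fin_cases i
  · have := TT_trans hp
    simp [Matrix.mulVec, dotProduct, Fin.sum_univ_two, Matrix.transpose_apply, sTwo]
    linear_combination this
  · have := nu_trans hp
    simp only [Matrix.mulVec, dotProduct, Fin.sum_univ_two, Matrix.transpose_apply, sTwo]
    simp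
    by_cases h2 : α.2 = β.2
    · rw [if_pos h2] at this ⊢
      linear_combination this
    · rw [if_neg h2] at this ⊢
      linear_combination this

theorem sTwo_differentiable (α : Chart) (i : Fin 2) : Differentiable ℂ (fun p => sTwo α p i) := by
  have h0 := differentiable_hx0 α.1
  have h1 := differentiable_hx1 α.1
  have hy : Differentiable ℂ (fun p : Fin 2 → ℂ => p 1) := differentiable_apply 1
  fin_cases i
  · change Differentiable ℂ (fun p : Fin 2 → ℂ =>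
      TT (muB α.2) (hx0 α.1 (p 0)) (hx1 α.1 (p 0)) (p 1))
    unfold TT t1 t2 del
    fun_prop
  · change Differentiable ℂ (fun p : Fin 2 → ℂ =>
      nu (muB α.2) (hx0 α.1 (p 0)) (hx1 α.1 (p 0)) (p 1))
    unfold nu
    fun_prop

end Crest.Agent.R258
end
end

-- ▼ part R258/NoRel
section

/-!
The concrete data `f = TT`, `v = nu` in the chart `(0,0)` admit no `RelData`.
-/

set_option autoImplicit false

noncomputable section

namespace Crest.Agent.R258

/-- `f`, the first component of `sTwo (0,0)`. -/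
def fZero (X Y : ℂ) : ℂ := TT (muB 0) 1 X Y

/-- `v`, the second component of `sTwo (0,0)`. -/
def vZero (X Y : ℂ) : ℂ := nu (muB 0) 1 X Y

theorem continuous_fZero : Continuous fun p : ℂ × ℂ => fZero p.1 p.2 := by
  unfold fZero TT t1 t2 del
  fun_prop

theorem continuous_vZero : Continuous fun p : ℂ × ℂ => vZero p.1 p.2 := by
  unfold vZero nu
  fun_prop

theorem muB_zero : muB 0 = ((1 + Real.sqrt 2 : ℝ) : ℂ) := by simp [muB]

theorem one_lt_mu : 1 < 1 + Real.sqrt 2 := by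
  have : 0 < Real.sqrt 2 := Real.sqrt_pos.2 (by norm_num)
  linarith

theorem del_eq (Y : ℂ) : del (muB 0) Y =
    ((1 + Real.sqrt 2 : ℝ) : ℂ) - Y ^ 2 / ((1 + Real.sqrt 2 : ℝ) : ℂ) := by
  have h := muB_sq 0
  rw [muB_zero] at h
  have h0 : ((1 + Real.sqrt 2 : ℝ) : ℂ) ≠ 0 := by
    have := one_lt_mu
    exact_mod_cast (by linarith : (0 : ℝ) < 1 + Real.sqrt 2).ne'
  unfold del
  rw [muB_zero]
  field_simp
  linear_combination (-Y ^ 2) * h

theorem fZero_circle (Y : ℂ) (ρ : ℝ) : ∃ R, ρ ≤ R ∧ ∀ X : ℂ, ‖X‖ = R → fZero X Y ≠ 0 := by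
  refine ⟨max ρ (max (‖(1 + Y ^ 2) / (2 * Y)‖ + 1) (‖2 * Y / del (muB 0) Y‖ + 1)),
    le_max_left _ _, fun X hX h0 => ?_⟩
  have hX1 : ‖(1 + Y ^ 2) / (2 * Y)‖ < ‖X‖ := by
    rw [hX]
    exact lt_of_lt_of_le (lt_add_one _) ((le_max_left _ _).trans (le_max_right _ _))
  have hX2 : ‖2 * Y / del (muB 0) Y‖ < ‖X‖ := by
    rw [hX]
    exact lt_of_lt_of_le (lt_add_one _) ((le_max_right _ _).trans (le_max_right _ _))
  have hμ0 : muB 0 ≠ 0 := by
    rw [muB_zero]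
    have := one_lt_mu
    exact_mod_cast (by linarith : (0 : ℝ) < 1 + Real.sqrt 2).ne'
  unfold fZero TT at h0
  rcases mul_eq_zero.1 h0 with h0 | h0
  · simp at h0
  rcases mul_eq_zero.1 h0 with h0 | h0
  · unfold t1 at h0
    have hY : Y ≠ 0 := by
      rintro rfl
      norm_num at h0
    have : (1 + Y ^ 2) / (2 * Y) = X := by
      rw [div_eq_iff (mul_ne_zero two_ne_zero hY)]
      linear_combination (-1 : ℂ) * h0
    rw [this] at hX1
    exact lt_irrefl _ hX1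
  · unfold t2 at h0
    have hd : del (muB 0) Y ≠ 0 := by
      intro hd
      rw [hd] at h0
      have hY : Y = 0 := by linear_combination (-1 / 2 : ℂ) * h0
      rw [hY] at hd
      unfold del at hd
      apply hμ0
      linear_combination hd
    have : 2 * Y / del (muB 0) Y = X := by
      rw [div_eq_iff hd]
      linear_combination (-1 : ℂ) * h0
    rw [this] at hX2
    exact lt_irrefl _ hX2

theorem nrel_nu_smul (m c x0 x1 y : ℂ) : nu m (c * x0) (c * x1) y = c ^ 4 * nu m x0 x1 y := by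
  unfold nu
  ring

theorem no_relData {P Q E : ℕ → ℂ → ℂ → ℝ} (h : RelData fZero vZero P Q E) : False := by
  refine h.contra continuous_fZero continuous_vZero fZero_circle (1 + Real.sqrt 2) one_lt_mu
    ?_ ?_ ?_ ?_
  · intro X Y h0
    have : t1 1 X Y = 0 := by unfold t1; linear_combination h0
    unfold fZero TT
    rw [this, zero_mul, mul_zero]
  · intro X Y h0
    rw [← del_eq] at h0
    have : t2 (muB 0) 1 X Y = 0 := by unfold t2; linear_combination h0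
    unfold fZero TT
    rw [this, mul_zero, mul_zero]
  · intro X Y h0
    have h1 := nu_U (muB 0) Y (muB_sq 0)
    have h2 : nu (muB 0) (2 * Y) (1 + Y ^ 2) Y = nu (muB 0) ((2 * Y) * 1) ((2 * Y) * X) Y := by
      congr 1
      · ring
      · linear_combination (-1 : ℂ) * h0
    rw [h2, nrel_nu_smul] at h1
    unfold vZero
    linear_combination h1
  · intro X Y h0
    rw [← del_eq] at h0 ⊢
    have h1 := nu_V (muB 0) Y (muB_sq 0)
    have h2 : nu (muB 0) (del (muB 0) Y) (2 * Y) Y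
        = nu (muB 0) ((del (muB 0) Y) * 1) ((del (muB 0) Y) * X) Y := by
      congr 1
      · ring
      · linear_combination (-1 : ℂ) * h0
    rw [h2, nrel_nu_smul] at h1
    unfold vZero
    linear_combination h1

end Crest.Agent.R258
end
end

-- ▼ part R258/Final
section

/-!
Row 258 (S0396): the bundles `ψ_N^* E (1,1)` are not all Griffiths positive, and the final
statement from global generation of all `Symⁿ E (0,4)`.
-/

set_option autoImplicit false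

noncomputable section

open Crest Crest.AlgGeometry Crest.AlgGeometry.QuadricBundle

namespace Crest.Agent.R258

/-- For some `N`, the bundle `ψ_{N+1}^* E (1,1)` carries no Griffiths positive metric. -/
theorem exists_not_griffithsPositive :
    ∃ N : ℕ, ∀ H : MetricData 2, IsHermitianMetric (pullTwist (N + 1) gBase) H →
      ¬ IsGriffithsPositive H := by
  by_contra hcon
  push Not at hcon
  obtain ⟨P, Q, E, hrel⟩ := exists_relData_of_metrics (g := gBase) (s2 := sTwo)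
    (fun α => differentiable_pi.mpr (sTwo_differentiable α))
    (fun α β p hp => sOne_trans hp) (fun α β p hp => sTwo_trans hp) gBase_cocycle hcon
  refine no_relData (P := P) (Q := Q) (E := E) ?_
  have h1 : (fun X Y : ℂ => sTwo (0, 0) ![X, Y] 0) = fZero := by
    funext X Y
    simp [sTwo, fZero, hx0, hx1]
  have h2 : (fun X Y : ℂ => sTwo (0, 0) ![X, Y] 1) = vZero := by
    funext X Y
    simp [sTwo, vZero, hx0, hx1]
  rw [h1, h2] at hrel
  exact hrel

/-- The statement of S0396 from global generation of `Symⁿ E (0,4)`. -/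
theorem main_of_GG (hGG : ∀ n, GG gBase n 0 4) :
    ∃ g : Transition 2, IsHoloCocycle g ∧ IsAmple g ∧
      ∀ H : MetricData 2, IsHermitianMetric g H → ¬ IsGriffithsPositive H := by
  obtain ⟨N, hN⟩ := exists_not_griffithsPositive
  exact ⟨pullTwist (N + 1) gBase, isHoloCocycle_pullTwist (N + 1) gBase_cocycle,
    isAmple_pullTwist (N := N + 1) (b := 4) hGG, hN⟩

end Crest.Agent.R258
end
end

-- ▼ part R258/AlgDefs
section
/-! rid 258: algebraic definitions for the ampleness proof (see `WW.lean`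
for the basic lemmas). -/
set_option autoImplicit false
noncomputable section
namespace Crest.Agent.R258
open MvPolynomial

/-- polynomials in `x0, x1`. -/
abbrev SX (R : Type*) [CommRing R] := MvPolynomial (Fin 2) R
/-- polynomials in the frame symbols `X0, X1` over `R[x0,x1]`. -/
abbrev MX (R : Type*) [CommRing R] := MvPolynomial (Fin 2) (MvPolynomial (Fin 2) R)

/-- `W_n^a(R)`: homogeneous of degree `n` in `X0, X1`, the coefficient of `X0^j X1^(n-j)` is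
homogeneous of degree `2j + a` in `x0, x1`. -/
def WW (R : Type*) [CommRing R] (n a : ℕ) : Submodule R (MX R) where
  carrier := {Q | Q.IsHomogeneous n ∧ ∀ m, (Q.coeff m).IsHomogeneous (2 * m 0 + a)}
  add_mem' := by
    rintro P Q ⟨h1, h2⟩ ⟨h3, h4⟩
    refine ⟨h1.add h3, fun m => ?_⟩
    rw [coeff_add]
    exact (h2 m).add (h4 m)
  zero_mem' := ⟨isHomogeneous_zero _ _ _, fun m => by
    rw [coeff_zero]; exact isHomogeneous_zero _ _ _⟩
  smul_mem' := by
    rintro c Q ⟨h1, h2⟩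
    refine ⟨?_, fun m => ?_⟩
    · have : c • Q = C (C c) * Q := by
        rw [← MvPolynomial.algebraMap_eq, ← MvPolynomial.algebraMap_eq, Algebra.smul_def]; rfl
      rw [this]
      simpa using (isHomogeneous_C (Fin 2) (C c : SX R)).mul h1
    · rw [coeff_smul]
      have : c • coeff m Q = C c * coeff m Q := by rw [MvPolynomial.smul_eq_C_mul]
      rw [this]
      simpa using (isHomogeneous_C (Fin 2) c).mul (h2 m)

section
variable {R : Type*} [CommRing R]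

theorem mem_WW {n a : ℕ} {Q : MX R} :
    Q ∈ WW R n a ↔ Q.IsHomogeneous n ∧ ∀ m, (Q.coeff m).IsHomogeneous (2 * m 0 + a) := Iff.rfl

variable [Algebra ℚ R]

/-- `TT` as a polynomial in `x0,x1` over `R`. -/
def Tp (m y : R) : SX R := TT (C m) (X 0) (X 1) (C y)
/-- `nu` as a polynomial in `x0,x1` over `R`. -/
def Np (m y : R) : SX R := nu (C m) (X 0) (X 1) (C y)
/-- `PP` as a polynomial in `x0,x1` over `R`. -/
def Pp (m y : R) : SX R := PP (C m) (X 0) (X 1) (C y)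

/-- evaluation at `(X0, X1) = (TT, nu)`. -/
def ev (m y : R) : MX R →ₐ[SX R] SX R := aeval ![Tp m y, Np m y]

/-- `κ = nu X0 - TT X1`, generator of the kernel of `ev`. -/
def kap (m y : R) : MX R := C (Np m y) * X 0 - C (Tp m y) * X 1

/-- `Ω = U ∧ V = 4 y² - (1+y²) δ`. -/
def Om (m y : R) : R := 4 * y ^ 2 - (1 + y ^ 2) * del m y

end

/-! ## The two charts in the `y` direction -/

/-- `ℂ[y]`. -/
abbrev AA := Polynomial ℂ
/-- `ℂ[y, 1/y]`. -/
abbrev LL := LaurentPolynomial ℂ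

/-- `y ↦ y`. -/
def io0 : AA →+* LL := Polynomial.toLaurent
/-- `y ↦ 1/y`. -/
def io1 : AA →+* LL := (LaurentPolynomial.invert (R := ℂ)).toRingHom.comp Polynomial.toLaurent

/-- coefficient maps on `W_n^a`. -/
def jo0 : MX AA →+* MX LL := MvPolynomial.map (MvPolynomial.map io0)
def jo1 : MX AA →+* MX LL := MvPolynomial.map (MvPolynomial.map io1)

/-- `y` in `LL`. -/
def yL : LL := LaurentPolynomial.T 1
/-- `1/y` in `LL`. -/
def zL : LL := LaurentPolynomial.T (-1)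

/-- `μ_b` in `AA`. -/
def mA (b : Fin 2) : AA := Polynomial.C (muB b)
/-- `μ_b` in `LL`. -/
def mL (b : Fin 2) : LL := LaurentPolynomial.C (muB b)

/-- frame substitution `X0 ↦ y⁻⁴ X0`, `X1 ↦ y⁻³ PP X0 + y⁸ X1`. -/
def gS : MX LL →ₐ[SX LL] MX LL :=
  aeval ![C (C (zL ^ 4)) * X 0, C (C (zL ^ 3) * Pp (mL 0) yL) * X 0 + C (C (yL ^ 8)) * X 1]

/-- `H¹(Symⁿ E(0,3)) = 0`. -/
def VA (n : ℕ) : Prop := ∀ Q ∈ WW LL n 0, ∃ A0 ∈ WW AA n 0, ∃ A1 ∈ WW AA n 0,
  Q = jo0 A0 + C (C (yL ^ 3)) * gS (jo1 A1)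

/-- `H¹(Symⁿ E(2,-1)) = 0`. -/
def VB (n : ℕ) : Prop := ∀ Q ∈ WW LL n 2, ∃ A0 ∈ WW AA n 2, ∃ A1 ∈ WW AA n 2,
  Q = jo0 A0 + C (C zL) * gS (jo1 A1)

end Crest.Agent.R258
end
end

-- ▼ part R258/WW
section
/-! rid 258, task WW (helper242): basic lemmas on `WW`. -/
set_option autoImplicit false
noncomputable section
namespace Crest.Agent.R258
open MvPolynomial

section
variable {R : Type*} [CommRing R]

theorem C_mem_WW {a : ℕ} {c : SX R} (hc : c.IsHomogeneous a) : (C c : MX R) ∈ WW R 0 a := by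
  classical
  refine ⟨isHomogeneous_C _ _, fun m => ?_⟩
  rw [coeff_C]
  split_ifs with h
  · subst h; simpa using hc
  · exact isHomogeneous_zero _ _ _

theorem mem_WW_zero {a : ℕ} {Q : MX R} (hQ : Q ∈ WW R 0 a) :
    ∃ c : SX R, c.IsHomogeneous a ∧ Q = C c := by
  refine ⟨Q.coeff 0, by simpa using hQ.2 0, ?_⟩
  have h := (totalDegree_eq_zero_iff_eq_C (p := Q)).1
    (Nat.le_zero.1 hQ.1.totalDegree_le)
  exact h

theorem C_mul_mem_WW {n a d : ℕ} {c : SX R} {Q : MX R} (hc : c.IsHomogeneous d)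
    (hQ : Q ∈ WW R n a) : C c * Q ∈ WW R n (a + d) := by
  refine ⟨?_, fun m => ?_⟩
  · simpa using (isHomogeneous_C (Fin 2) c).mul hQ.1
  · rw [coeff_C_mul]
    have := hc.mul (hQ.2 m)
    convert this using 1
    ring

theorem CC_mul_mem_WW {n a : ℕ} (c : R) {Q : MX R}
    (hQ : Q ∈ WW R n a) : C (C c) * Q ∈ WW R n a :=
  C_mul_mem_WW (d := 0) (isHomogeneous_C _ _) hQ

theorem X0_mul_mem_WW {n a : ℕ} {Q : MX R} (hQ : Q ∈ WW R n (a + 2)) :
    X 0 * Q ∈ WW R (n + 1) a := by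
  classical
  refine ⟨?_, fun m => ?_⟩
  · have := (isHomogeneous_X (SX R) (0 : Fin 2)).mul hQ.1
    rwa [add_comm] at this
  · rw [coeff_X_mul']
    split_ifs with h
    · have h1 := hQ.2 (m - Finsupp.single 0 1)
      have h0 : m 0 ≠ 0 := Finsupp.mem_support_iff.1 h
      convert h1 using 1
      simp only [Finsupp.coe_tsub, Pi.sub_apply, Finsupp.single_eq_same]
      omega
    · exact isHomogeneous_zero _ _ _

theorem X1_mul_mem_WW {n a : ℕ} {Q : MX R} (hQ : Q ∈ WW R n a) :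
    X 1 * Q ∈ WW R (n + 1) a := by
  classical
  refine ⟨?_, fun m => ?_⟩
  · have := (isHomogeneous_X (SX R) (1 : Fin 2)).mul hQ.1
    rwa [add_comm] at this
  · rw [coeff_X_mul']
    split_ifs with h
    · have h1 := hQ.2 (m - Finsupp.single 1 1)
      convert h1 using 1
      simp
    · exact isHomogeneous_zero _ _ _

theorem X1_pow_mem_WW {n a : ℕ} {c : SX R} (hc : c.IsHomogeneous a) :
    C c * X 1 ^ n ∈ WW R n a := by
  induction n with
  | zero => simpa using C_mem_WW hc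
  | succ n ih =>
    have := X1_mul_mem_WW ih
    convert this using 1
    ring

/-- every element of `WW (n+1) a` is `c X1^(n+1) + X0 Q`. -/
theorem mem_WW_succ {n a : ℕ} {Q : MX R} (hQ : Q ∈ WW R (n + 1) a) :
    ∃ c : SX R, c.IsHomogeneous a ∧ ∃ Q' ∈ WW R n (a + 2), Q = C c * X 1 ^ (n + 1) + X 0 * Q' := by
  classical
  refine ⟨Q.coeff (Finsupp.single 1 (n + 1)), by simpa using hQ.2 (Finsupp.single 1 (n + 1)),
    Q.divMonomial (Finsupp.single 0 1), ⟨?_, fun m => ?_⟩, ?_⟩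
  · intro m hm
    rw [coeff_divMonomial] at hm
    have := hQ.1 hm
    rw [map_add, Finsupp.weight_single] at this
    simp only [Pi.one_apply, smul_eq_mul, mul_one] at this
    omega
  · rw [coeff_divMonomial]
    have := hQ.2 (Finsupp.single 0 1 + m)
    convert this using 1
    simp
    ring
  · have h := divMonomial_add_modMonomial_single Q (0 : Fin 2)
    have h2 : Q.modMonomial (Finsupp.single 0 1) =
        C (Q.coeff (Finsupp.single 1 (n + 1))) * X 1 ^ (n + 1) := by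
      ext1 m
      rw [coeff_C_mul, coeff_X_pow]
      by_cases hm : Finsupp.single 0 1 ≤ m
      · rw [coeff_modMonomial_of_le _ hm]
        have : Finsupp.single (1 : Fin 2) (n + 1) ≠ m := by
          rintro rfl
          have := hm 0
          simp at this
        rw [if_neg this, mul_zero]
      · rw [coeff_modMonomial_of_not_le _ hm]
        have hm0 : m 0 = 0 := by
          by_contra h0
          apply hm
          intro i
          fin_cases i
          · simp; omega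
          · simp
        by_cases hm1 : m 1 = n + 1
        · have : Finsupp.single (1 : Fin 2) (n + 1) = m := by
            ext i
            fin_cases i
            · simp [hm0]
            · simp [hm1]
          simp [this]
        · have : Finsupp.single (1 : Fin 2) (n + 1) ≠ m := by
            rintro rfl
            simp at hm1
          rw [if_neg this, mul_zero]
          by_contra hc
          have := hQ.1 hc
          rw [Finsupp.weight_apply, Finsupp.sum_fintype _ _ (by simp)] at this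
          simp [Fin.sum_univ_two, hm0] at this
          exact hm1 this
    rw [← h2, add_comm]
    exact h.symm

theorem map_mem_WW {R' : Type*} [CommRing R'] (φ : R →+* R') {n a : ℕ} {Q : MX R}
    (hQ : Q ∈ WW R n a) : MvPolynomial.map (MvPolynomial.map φ) Q ∈ WW R' n a := by
  refine ⟨hQ.1.map _, fun m => ?_⟩
  rw [coeff_map]
  exact (hQ.2 m).map _

theorem lin_mul_mem_WW {n a : ℕ} (v : R) {p : SX R} (hp : p.IsHomogeneous 2) {Q : MX R}
    (hQ : Q ∈ WW R n a) : (C p * X 0 + C (C v) * X 1) * Q ∈ WW R (n + 1) a := by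
  have h1 := X0_mul_mem_WW (C_mul_mem_WW hp hQ)
  have h2 := X1_mul_mem_WW (CC_mul_mem_WW v hQ)
  have := (WW R (n + 1) a).add_mem h1 h2
  convert this using 1
  ring

theorem lin_pow_mem_WW {a : ℕ} (v : R) {p : SX R} (hp : p.IsHomogeneous 2) {c : SX R}
    (hc : c.IsHomogeneous a) (n : ℕ) : C c * (C p * X 0 + C (C v) * X 1) ^ n ∈ WW R n a := by
  induction n with
  | zero => simpa using C_mem_WW hc
  | succ n ih =>
    have := lin_mul_mem_WW v hp ih
    convert this using 1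
    ring

/-- an upper triangular frame substitution preserves `WW`. -/
theorem subst_mem_WW {n a : ℕ} (u v : R) {p : SX R} (hp : p.IsHomogeneous 2) {Q : MX R}
    (hQ : Q ∈ WW R n a) :
    (aeval ![C (C u) * X 0, C p * X 0 + C (C v) * X 1] : MX R →ₐ[SX R] MX R) Q ∈ WW R n a := by
  induction n generalizing a Q with
  | zero =>
    obtain ⟨c, hc, rfl⟩ := mem_WW_zero hQ
    rw [aeval_C]
    exact C_mem_WW hc
  | succ n ih =>
    obtain ⟨c, hc, Q', hQ', rfl⟩ := mem_WW_succ hQ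
    simp only [map_add, map_mul, map_pow, aeval_C, aeval_X, Matrix.cons_val_zero,
      Matrix.cons_val_one]
    refine (WW R (n + 1) a).add_mem ?_ ?_
    · exact lin_pow_mem_WW v hp hc (n + 1)
    · have := X0_mul_mem_WW (CC_mul_mem_WW u (ih hQ'))
      convert this using 1
      ring

theorem lin_pow_eq {a : ℕ} (v : R) {p : SX R} (hp : p.IsHomogeneous 2) {c : SX R}
    (hc : c.IsHomogeneous a) (n : ℕ) : ∃ Q' ∈ WW R n (a + 2),
      C c * (C p * X 0 + C (C v) * X 1) ^ (n + 1) = C (C (v ^ (n + 1)) * c) * X 1 ^ (n + 1) + X 0 * Q' := by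
  induction n with
  | zero =>
    refine ⟨C (c * p), C_mem_WW (hc.mul hp), ?_⟩
    simp only [zero_add, pow_one, map_mul]
    ring
  | succ n ih =>
    obtain ⟨Q', hQ', h⟩ := ih
    refine ⟨C p * (C (C (v ^ (n + 1)) * c) * X 1 ^ (n + 1)) + (C p * X 0 + C (C v) * X 1) * Q',
      (WW R _ _).add_mem ?_ ?_, ?_⟩
    · refine C_mul_mem_WW hp (X1_pow_mem_WW ?_)
      simpa using (isHomogeneous_C (Fin 2) (v ^ (n + 1))).mul hc
    · exact lin_mul_mem_WW v hp hQ'
    · rw [pow_succ, ← mul_assoc, h]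
      simp only [map_mul, map_pow]
      ring

/-- the value of an upper triangular frame substitution: its `X1^(n)` part. -/
theorem subst_X1_pow {n : ℕ} (u v : R) {p : SX R} (hp : p.IsHomogeneous 2) (c : SX R)
    {a : ℕ} (hc : c.IsHomogeneous a) :
    ∃ Q' ∈ WW R n (a + 2), (aeval ![C (C u) * X 0, C p * X 0 + C (C v) * X 1] :
      MX R →ₐ[SX R] MX R) (C c * X 1 ^ (n + 1)) = C (C (v ^ (n + 1)) * c) * X 1 ^ (n + 1) + X 0 * Q' := by
  obtain ⟨Q', hQ', h⟩ := lin_pow_eq v hp hc n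
  refine ⟨Q', hQ', ?_⟩
  rw [← h]
  simp only [map_mul, map_pow, aeval_C, aeval_X, Matrix.cons_val_one]
  rfl

variable [Algebra ℚ R]

theorem algebraMap_rat_SX (q : ℚ) : algebraMap ℚ (SX R) q = C (algebraMap ℚ R q) := by
  rw [IsScalarTower.algebraMap_apply ℚ R (SX R), algebraMap_eq]

theorem hom_mono (a : R) (i j d : ℕ) (h : i + j = d) :
    (C a * (X 0 ^ i * X 1 ^ j) : SX R).IsHomogeneous d := by
  have := (isHomogeneous_C (Fin 2) a).mul
    ((isHomogeneous_X_pow (R := R) (0 : Fin 2) i).mul (isHomogeneous_X_pow (R := R) (1 : Fin 2) j))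
  simpa [h] using this

theorem Tp_homogeneous (m y : R) : (Tp m y).IsHomogeneous 2 := by
  have : Tp m y = C (algebraMap ℚ R (1 / 32) * (-((1 + y ^ 2) * (-(2 * y))))) * (X 0 ^ 2 * X 1 ^ 0)
      + C (algebraMap ℚ R (1 / 32) * (2 * y * (-(2 * y)) - (1 + y ^ 2) * del m y)) * (X 0 ^ 1 * X 1 ^ 1)
      + C (algebraMap ℚ R (1 / 32) * (2 * y * del m y)) * (X 0 ^ 0 * X 1 ^ 2) := by
    unfold Tp TT t1 t2 del
    simp only [algebraMap_rat_SX, map_mul, map_add, map_sub, map_neg, map_pow, map_one, map_ofNat]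
    ring
  rw [this]
  exact ((hom_mono _ _ _ _ (by norm_num)).add (hom_mono _ _ _ _ (by norm_num))).add
    (hom_mono _ _ _ _ (by norm_num))

theorem Np_homogeneous (m y : R) : (Np m y).IsHomogeneous 4 := by
  have : Np m y = C ((29 - 12 * m) + (algebraMap ℚ R (1 / 32) * (926 - 384 * m)) * y ^ 2) * (X 0 ^ 4 * X 1 ^ 0)
      + C ((algebraMap ℚ R (1 / 32) * (-2962 + 1231 * m)) * y + (algebraMap ℚ R (1 / 32) * (-1118 + 463 * m)) * y ^ 3) * (X 0 ^ 3 * X 1 ^ 1)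
      + C ((algebraMap ℚ R (1 / 32) * (273 - 117 * m)) + (algebraMap ℚ R (1 / 32) * (2533 - 1043 * m)) * y ^ 2) * (X 0 ^ 2 * X 1 ^ 2)
      + C ((algebraMap ℚ R (1 / 32) * (-699 + 272 * m)) * y + (algebraMap ℚ R (1 / 32) * (-89 + 38 * m)) * y ^ 3) * (X 0 ^ 1 * X 1 ^ 3)
      + C (1 + (algebraMap ℚ R (1 / 32) * (178 - 76 * m)) * y ^ 2) * (X 0 ^ 0 * X 1 ^ 4) := by
    unfold Np nu
    simp only [algebraMap_rat_SX, map_mul, map_add, map_sub, map_neg, map_pow, map_one, map_ofNat]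
    ring
  rw [this]
  exact ((((hom_mono _ _ _ _ (by norm_num)).add (hom_mono _ _ _ _ (by norm_num))).add
    (hom_mono _ _ _ _ (by norm_num))).add (hom_mono _ _ _ _ (by norm_num))).add
    (hom_mono _ _ _ _ (by norm_num))

theorem Pp_homogeneous (m y : R) : (Pp m y).IsHomogeneous 2 := by
  have : Pp m y = C ((79 + 192 * m) + y ^ 2 - y ^ 4 + y ^ 6 - y ^ 8 + (-463 + 192 * m) * y ^ 10) * (X 0 ^ 2 * X 1 ^ 0)
      + C ((-13 - 39 * m) * y + (-1 - m) * y ^ 3 + (-1 + m) * y ^ 5 + (3 - m) * y ^ 7 + (91 - 39 * m) * y ^ 9) * (X 0 ^ 1 * X 1 ^ 1)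
      + C ((12 + 13 * m) + (2 + 5 * m) * y ^ 2 + m * y ^ 4 + (-2 + m) * y ^ 6 + (-12 + 5 * m) * y ^ 8 + (-38 + 13 * m) * y ^ 10) * (X 0 ^ 0 * X 1 ^ 2) := by
    unfold Pp PP
    simp only [map_mul, map_add, map_sub, map_neg, map_pow, map_one, map_ofNat]
    ring
  rw [this]
  exact ((hom_mono _ _ _ _ (by norm_num)).add (hom_mono _ _ _ _ (by norm_num))).add
    (hom_mono _ _ _ _ (by norm_num))

theorem ev_C (m y : R) (c : SX R) : ev m y (C c) = c := by
  unfold ev; rw [aeval_C]; rfl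

theorem ev_X0 (m y : R) : ev m y (X 0) = Tp m y := by
  unfold ev; rw [aeval_X]; rfl

theorem ev_X1 (m y : R) : ev m y (X 1) = Np m y := by
  unfold ev; rw [aeval_X]; rfl

theorem ev_homogeneous (m y : R) {n a : ℕ} {Q : MX R} (hQ : Q ∈ WW R n a) :
    (ev m y Q).IsHomogeneous (4 * n + a) := by
  induction n generalizing a Q with
  | zero =>
    obtain ⟨c, hc, rfl⟩ := mem_WW_zero hQ
    rw [ev_C]; simpa using hc
  | succ n ih =>
    obtain ⟨c, hc, Q', hQ', rfl⟩ := mem_WW_succ hQ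
    rw [map_add, map_mul, map_mul, map_pow, ev_C, ev_X0, ev_X1]
    refine IsHomogeneous.add ?_ ?_
    · have := hc.mul ((Np_homogeneous m y).pow (n + 1))
      convert this using 1
      ring
    · have := (Tp_homogeneous m y).mul (ih hQ')
      convert this using 1
      ring

theorem kap_mul_mem_WW (m y : R) {n a : ℕ} {Q : MX R} (hQ : Q ∈ WW R n a) :
    kap m y * Q ∈ WW R (n + 1) (a + 2) := by
  have h1 : X 0 * (C (Np m y) * Q) ∈ WW R (n + 1) (a + 2) :=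
    X0_mul_mem_WW (a := a + 2) (C_mul_mem_WW (d := 4) (Np_homogeneous m y) hQ)
  have h2 : X 1 * (C (Tp m y) * Q) ∈ WW R (n + 1) (a + 2) :=
    X1_mul_mem_WW (C_mul_mem_WW (d := 2) (Tp_homogeneous m y) hQ)
  have := (WW R (n + 1) (a + 2)).sub_mem h1 h2
  convert this using 1
  unfold kap
  ring

theorem ev_kap (m y : R) : ev m y (kap m y) = 0 := by
  unfold kap
  rw [map_sub, map_mul, map_mul, ev_C, ev_C, ev_X0, ev_X1]
  ring

section map
variable {R' : Type*} [CommRing R'] [Algebra ℚ R'] (φ : R →+* R')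

theorem map_Tp (m y : R) : MvPolynomial.map φ (Tp m y) = Tp (φ m) (φ y) := by
  unfold Tp TT t1 t2 del
  simp only [map_mul, map_add, map_sub, map_neg, map_pow, map_one, map_ofNat,
    map_C, map_X, RingHom.map_rat_algebraMap]

theorem map_Np (m y : R) : MvPolynomial.map φ (Np m y) = Np (φ m) (φ y) := by
  unfold Np nu
  simp only [map_mul, map_add, map_sub, map_neg, map_pow, map_one, map_ofNat,
    map_C, map_X, RingHom.map_rat_algebraMap]

theorem map_Pp (m y : R) : MvPolynomial.map φ (Pp m y) = Pp (φ m) (φ y) := by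
  unfold Pp PP
  simp only [map_mul, map_add, map_sub, map_neg, map_pow, map_one, map_ofNat,
    map_C, map_X]

/-- compatibility of `ev` with maps of coefficient rings. -/
theorem map_ev (m y : R) (Q : MX R) :
    MvPolynomial.map φ (ev m y Q) = ev (φ m) (φ y) (MvPolynomial.map (MvPolynomial.map φ) Q) := by
  induction Q using MvPolynomial.induction_on with
  | C c => rw [ev_C, map_C, ev_C]
  | add p q hp hq => rw [map_add, map_add, hp, hq, map_add, map_add]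
  | mul_X p i hp =>
    rw [map_mul, map_mul, hp, map_mul, map_mul, map_X]
    congr 1
    fin_cases i
    · simp only [Fin.zero_eta, ev_X0, map_Tp]
    · simp only [Fin.mk_one, ev_X1, map_Np]

theorem map_kap (m y : R) :
    MvPolynomial.map (MvPolynomial.map φ) (kap m y) = kap (φ m) (φ y) := by
  unfold kap
  simp only [map_sub, map_mul, map_C, map_X, map_Tp, map_Np]

end map

end

theorem gS_mem_WW {n a : ℕ} {Q : MX LL} (hQ : Q ∈ WW LL n a) : gS Q ∈ WW LL n a := by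
  have h : (C (zL ^ 3) * Pp (mL 0) yL : SX LL).IsHomogeneous 2 := by
    have := (isHomogeneous_C (Fin 2) (zL ^ 3)).mul (Pp_homogeneous (mL 0) yL)
    rwa [zero_add] at this
  exact subst_mem_WW (zL ^ 4) (yL ^ 8) h hQ

theorem jo0_mem_WW {n a : ℕ} {Q : MX AA} (hQ : Q ∈ WW AA n a) : jo0 Q ∈ WW LL n a :=
  map_mem_WW _ hQ

theorem jo1_mem_WW {n a : ℕ} {Q : MX AA} (hQ : Q ∈ WW AA n a) : jo1 Q ∈ WW LL n a :=
  map_mem_WW _ hQ

end Crest.Agent.R258
end
end

-- ▼ part R258/Surj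
section
/-! rid 258, task SURJ: `DIV`, `DEC`, `SURJ`. -/
set_option autoImplicit false
noncomputable section
namespace Crest.Agent.R258
open MvPolynomial

section
variable {R : Type*} [CommRing R]

theorem hom_eval₂_smul {S : Type*} [CommRing S] (f : R →+* S) (g g' : Fin 2 → S) (c : S)
    (hg : ∀ i, g' i = c * g i) {d : ℕ} {F : SX R} (hF : F.IsHomogeneous d) :
    eval₂ f g' F = c ^ d * eval₂ f g F := by
  rw [eval₂_eq', eval₂_eq', Finset.mul_sum]
  refine Finset.sum_congr rfl fun m hm => ?_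
  have h := hF (mem_support_iff.1 hm)
  rw [Finsupp.weight_apply, Finsupp.sum_fintype _ _ (by simp)] at h
  simp only [Fin.sum_univ_two, Pi.one_apply, smul_eq_mul, mul_one] at h
  simp only [Fin.prod_univ_two, hg]
  rw [← h]
  ring

/-- a form vanishing at `U` (`l(U) = 1`) is divisible by `U ∧ x`. -/
theorem dvd_of_vanish {d : ℕ} {F : SX R} (hF : F.IsHomogeneous d) (U0 U1 l0 l1 : R)
    (hl : l0 * U0 + l1 * U1 = 1) (h : eval ![U0, U1] F = 0) :
    (C U0 * X 1 - C U1 * X 0 : SX R) ∣ F := by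
  rw [← Ideal.mem_span_singleton, ← Ideal.Quotient.eq_zero_iff_mem]
  set t : SX R := C U0 * X 1 - C U1 * X 0 with ht
  set q := Ideal.Quotient.mk (Ideal.span {t}) with hq
  have hqt : q t = 0 := Ideal.Quotient.eq_zero_iff_mem.2 (Ideal.mem_span_singleton_self t)
  have h1 : q F = eval₂ (q.comp C) (fun i => q (X i)) F := by
    conv_lhs => rw [← eval₂_eta F]
    rw [hom_eval₂]
  have hx : ∀ i, q (X i) = q (C l0 * X 0 + C l1 * X 1) * q (C (![U0, U1] i)) := by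
    have hlC : (C l0 * C U0 + C l1 * C U1 : SX R) = 1 := by
      rw [← map_mul, ← map_mul, ← map_add, hl, map_one]
    intro i
    fin_cases i
    · have : (X 0 : SX R) = (C l0 * X 0 + C l1 * X 1) * C U0 - C l1 * t := by
        rw [ht]; linear_combination (-X 0 : SX R) * hlC
      simp only [Fin.zero_eta, Matrix.cons_val_zero]
      conv_lhs => rw [this]
      rw [map_sub, map_mul q (C l1) t, hqt, mul_zero, sub_zero, map_mul]
    · have : (X 1 : SX R) = (C l0 * X 0 + C l1 * X 1) * C U1 + C l0 * t := by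
        rw [ht]; linear_combination (-X 1 : SX R) * hlC
      simp only [Fin.mk_one, Matrix.cons_val_one]
      conv_lhs => rw [this]
      rw [map_add, map_mul q (C l0) t, hqt, mul_zero, add_zero, map_mul]
      rfl
  have h2 : eval₂ (q.comp C) (fun i => q (C (![U0, U1] i))) F = 0 := by
    have : (fun i => q (C (![U0, U1] i))) = fun i => (q.comp C) (![U0, U1] i) := rfl
    rw [this]
    have h3 := (hom_eval₂ F (RingHom.id R) (q.comp C) ![U0, U1]).symm
    simp only [RingHom.comp_id] at h3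
    rw [show (fun i => (q.comp C) (![U0, U1] i)) = ((q.comp C) ∘ ![U0, U1]) from rfl] at *
    rw [h3]
    have h4 : eval₂ (RingHom.id R) ![U0, U1] F = 0 := h
    rw [h4, map_zero]
  rw [h1, hom_eval₂_smul (q.comp C) (fun i => q (C (![U0, U1] i))) _ _ hx hF, h2, mul_zero]

/-- homogeneous quotients. -/
theorem homogeneous_quot {d k : ℕ} {F t : SX R} (hF : F.IsHomogeneous (d + k))
    (ht : t.IsHomogeneous k) (h : t ∣ F) : ∃ G : SX R, G.IsHomogeneous d ∧ F = t * G := by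
  obtain ⟨G, rfl⟩ := h
  refine ⟨homogeneousComponent d G, homogeneousComponent_isHomogeneous _ _, ?_⟩
  have h1 : homogeneousComponent (k + d) (t * G) = t * homogeneousComponent d G := by
    conv_lhs => rw [← sum_homogeneousComponent G]
    rw [Finset.mul_sum, map_sum]
    have : ∀ i ∈ Finset.range (G.totalDegree + 1),
        homogeneousComponent (k + d) (t * homogeneousComponent i G) =
          if i = d then t * homogeneousComponent d G else 0 := by
      intro i _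
      have hi := ht.mul (homogeneousComponent_isHomogeneous i G)
      rw [homogeneousComponent_of_mem hi]
      by_cases hid : i = d
      · subst hid; simp
      · rw [if_neg hid, if_neg]
        omega
    rw [Finset.sum_congr rfl this, Finset.sum_ite_eq']
    split_ifs with hd
    · rfl
    · rw [homogeneousComponent_eq_zero d G, mul_zero]
      simpa [Nat.lt_succ_iff] using hd
  rw [← h1]
  symm
  apply homogeneousComponent_eq_self
  rwa [add_comm]

end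

section
variable {R : Type*} [CommRing R] [Algebra ℚ R]

theorem eval_Tp (m y a b : R) : eval ![a, b] (Tp m y) = TT m a b y := by
  unfold Tp TT t1 t2 del
  simp only [map_mul, map_add, map_sub, map_pow, map_one, map_ofNat, eval_C, eval_X,
    RingHom.map_rat_algebraMap, Matrix.cons_val_zero, Matrix.cons_val_one]

theorem eval_Np (m y a b : R) : eval ![a, b] (Np m y) = nu m a b y := by
  unfold Np nu
  simp only [map_mul, map_add, map_sub, map_pow, map_neg, map_one, map_ofNat, eval_C, eval_X,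
    RingHom.map_rat_algebraMap, Matrix.cons_val_zero, Matrix.cons_val_one]

theorem half_two : (algebraMap ℚ R (1 / 2)) * 2 = 1 := by
  rw [show (2 : R) = algebraMap ℚ R 2 by rw [map_ofNat], ← map_mul]; norm_num

theorem lU_U (y : R) : (-(algebraMap ℚ R (1 / 2) * y)) * (2 * y) + 1 * (1 + y ^ 2) = 1 := by
  linear_combination (-y ^ 2) * (half_two (R := R))

theorem lV_V (m y : R) (hm : m ^ 2 = 2 * m + 1) :
    (m - 2) * del m y + (algebraMap ℚ R (1 / 2) * ((m - 2) ^ 2 * y)) * (2 * y) = 1 := by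
  unfold del
  linear_combination hm + ((m - 2) ^ 2 * y ^ 2) * (half_two (R := R))

variable [IsDomain R]

/-- a form vanishing at `U` and `V` is divisible by `TT`. -/
theorem Tp_dvd {d : ℕ} (m y : R) (hm : m ^ 2 = 2 * m + 1) (hΩ : Om m y ≠ 0) {F : SX R}
    (hF : F.IsHomogeneous (d + 2)) (hU : eval ![2 * y, 1 + y ^ 2] F = 0)
    (hV : eval ![del m y, 2 * y] F = 0) :
    ∃ G : SX R, G.IsHomogeneous d ∧ F = Tp m y * G := by
  have hh1 : ∀ a b : R, (C a * X 1 - C b * X 0 : SX R).IsHomogeneous 1 := fun a b =>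
    (isHomogeneous_C_mul_X a 1).sub (isHomogeneous_C_mul_X b 0)
  obtain ⟨F1, hF1, rfl⟩ := homogeneous_quot (d := d + 1) (k := 1) hF (hh1 (2 * y) (1 + y ^ 2))
    (dvd_of_vanish hF _ _ _ _ (lU_U y) hU)
  have hV1 : eval ![del m y, 2 * y] F1 = 0 := by
    rw [map_mul] at hV
    rcases mul_eq_zero.1 hV with h | h
    · exfalso
      apply hΩ
      rw [← h]
      unfold Om
      simp only [map_sub, map_mul, eval_C, eval_X, Matrix.cons_val_zero, Matrix.cons_val_one]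
      ring
    · exact h
  obtain ⟨F2, hF2, rfl⟩ := homogeneous_quot (d := d) (k := 1) hF1 (hh1 (del m y) (2 * y))
    (dvd_of_vanish hF1 _ _ _ _ (lV_V m y hm) hV1)
  refine ⟨C 32 * F2, hF2.C_mul 32, ?_⟩
  have h32 : (algebraMap ℚ (SX R) (1 / 32)) * C 32 = 1 := by
    rw [algebraMap_rat_SX, ← map_mul, show (32 : R) = algebraMap ℚ R 32 by rw [map_ofNat], ← map_mul]
    norm_num
  have h4 : Tp m y = algebraMap ℚ (SX R) (1 / 32) * ((C (2 * y) * X 1 - C (1 + y ^ 2) * X 0) *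
      (C (del m y) * X 1 - C (2 * y) * X 0)) := by
    unfold Tp TT t1 t2 del
    simp only [map_mul, map_add, map_sub, map_pow, map_one, map_ofNat]
  rw [h4]
  linear_combination (-((C (2 * y) * X 1 - C (1 + y ^ 2) * X 0) *
    ((C (del m y) * X 1 - C (2 * y) * X 0) * F2))) * h32

/-- `DEC`. -/
theorem dec (m y : R) (hm : m ^ 2 = 2 * m + 1) (hΩ : Om m y ≠ 0) {d : ℕ} (hd : 1 ≤ d)
    {α : SX R} (hα : α.IsHomogeneous (d + 4)) :
    ∃ h0 h1 : SX R, h0.IsHomogeneous (d + 2) ∧ h1.IsHomogeneous d ∧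
      α = h0 * Tp m y + h1 * Np m y := by
  obtain ⟨e, rfl⟩ : ∃ e, d = e + 1 := ⟨d - 1, by omega⟩
  set κ : R := (-(algebraMap ℚ R (1 / 2) * y)) * del m y + 2 * y with hκ
  set q := Ideal.Quotient.mk (Ideal.span {Om m y}) with hq
  have hqO : q (Om m y) = 0 := Ideal.Quotient.eq_zero_iff_mem.2 (Ideal.mem_span_singleton_self _)
  have hV0 : q (del m y) = q κ * q (2 * y) := by
    have : del m y = κ * (2 * y) - Om m y := by
      rw [hκ]; unfold Om
      linear_combination (y ^ 2 * del m y) * (half_two (R := R))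
    conv_lhs => rw [this]
    rw [map_sub, hqO, sub_zero, map_mul]
  have hV1 : q (2 * y) = q κ * q (1 + y ^ 2) := by
    have : 2 * y = κ * (1 + y ^ 2) - (algebraMap ℚ R (1 / 2) * y) * Om m y := by
      rw [hκ]; unfold Om
      linear_combination (2 * y ^ 3) * (half_two (R := R))
    conv_lhs => rw [this]
    rw [map_sub, map_mul _ _ (Om m y), hqO, mul_zero, sub_zero, map_mul]
  have key : ∀ {k : ℕ} {F : SX R}, F.IsHomogeneous k →
      q (eval ![del m y, 2 * y] F) = q κ ^ k * q (eval ![2 * y, 1 + y ^ 2] F) := by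
    intro k F hF
    have e1 : ∀ (a b : R), q (eval ![a, b] F) = eval₂ q ![q a, q b] F := by
      intro a b
      have := hom_eval₂ F (RingHom.id R) q ![a, b]
      rw [RingHom.comp_id] at this
      rw [show eval ![a, b] F = eval₂ (RingHom.id R) ![a, b] F from rfl, this]
      congr 1
      ext i; fin_cases i <;> rfl
    rw [e1, e1]
    apply hom_eval₂_smul _ _ _ _ _ hF
    intro i
    fin_cases i
    · exact hV0
    · exact hV1
  have hκ4 : q κ ^ 4 = 1 := by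
    have := key (Np_homogeneous m y)
    rw [eval_Np, eval_Np, nu_V m y hm, nu_U m y hm, map_one, mul_one] at this
    exact this.symm
  have hs : Om m y ∣ eval ![del m y, 2 * y] α - κ ^ (e + 1) * eval ![2 * y, 1 + y ^ 2] α := by
    rw [← Ideal.mem_span_singleton, ← Ideal.Quotient.eq_zero_iff_mem, ← hq]
    rw [map_sub, key hα, pow_add, hκ4, mul_one, map_mul, map_pow, sub_self]
  obtain ⟨s, hs⟩ := hs
  set LU : SX R := C (-(algebraMap ℚ R (1 / 2) * y)) * X 0 + C 1 * X 1 with hLU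
  set LV : SX R := C (m - 2) * X 0 + C (algebraMap ℚ R (1 / 2) * ((m - 2) ^ 2 * y)) * X 1 with hLV
  have hLUh : LU.IsHomogeneous 1 := (isHomogeneous_C_mul_X _ 0).add (isHomogeneous_C_mul_X _ 1)
  have hLVh : LV.IsHomogeneous 1 := (isHomogeneous_C_mul_X _ 0).add (isHomogeneous_C_mul_X _ 1)
  have hth : (C (2 * y) * X 1 - C (1 + y ^ 2) * X 0 : SX R).IsHomogeneous 1 :=
    (isHomogeneous_C_mul_X _ 1).sub (isHomogeneous_C_mul_X _ 0)
  set h1 : SX R := C (eval ![2 * y, 1 + y ^ 2] α) * LU ^ (e + 1) +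
    C s * ((C (2 * y) * X 1 - C (1 + y ^ 2) * X 0) * LV ^ e) with hh1
  have hh1h : h1.IsHomogeneous (e + 1) := by
    refine IsHomogeneous.add ?_ ?_
    · have := (hLUh.pow (e + 1)).C_mul (eval ![2 * y, 1 + y ^ 2] α)
      simpa using this
    · have := (hth.mul (hLVh.pow e)).C_mul s
      rw [one_mul, add_comm 1 e] at this
      exact this
  have eU : eval ![2 * y, 1 + y ^ 2] h1 = eval ![2 * y, 1 + y ^ 2] α := by
    rw [hh1, hLU]
    simp only [map_mul, map_add, map_sub, map_pow, eval_C, eval_X, Matrix.cons_val_zero,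
      Matrix.cons_val_one]
    rw [lU_U y]
    ring
  have eV : eval ![del m y, 2 * y] h1 = eval ![del m y, 2 * y] α := by
    rw [hh1, hLU, hLV]
    simp only [map_mul, map_add, map_sub, map_pow, eval_C, eval_X, Matrix.cons_val_zero,
      Matrix.cons_val_one]
    rw [lV_V m y hm]
    have hκ' : -(algebraMap ℚ R (1 / 2) * y) * del m y + 1 * (2 * y) = κ := by rw [hκ]; ring
    rw [hκ']
    have hO : 2 * y * (2 * y) - (1 + y ^ 2) * del m y = Om m y := by unfold Om; ring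
    rw [hO]
    linear_combination -hs
  obtain ⟨G, hG, hG2⟩ := Tp_dvd (d := e + 1 + 2) m y hm hΩ (F := α - h1 * Np m y)
    (hα.sub (hh1h.mul (Np_homogeneous m y)))
    (by rw [map_sub, map_mul, eU, eval_Np, nu_U m y hm, mul_one, sub_self])
    (by rw [map_sub, map_mul, eV, eval_Np, nu_V m y hm, mul_one, sub_self])
  exact ⟨G, h1, hG, hh1h, by linear_combination hG2⟩

/-- `SURJ`. -/
theorem surj (m y : R) (hm : m ^ 2 = 2 * m + 1) (hΩ : Om m y ≠ 0) (n : ℕ) :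
    ∀ (a : ℕ), 2 ≤ a → ∀ {α : SX R}, α.IsHomogeneous (4 * n + a) →
      ∃ Q ∈ WW R n a, ev m y Q = α := by
  induction n with
  | zero =>
    intro a _ α hα
    exact ⟨C α, C_mem_WW (by simpa using hα), ev_C m y α⟩
  | succ n ih =>
    intro a ha α hα
    obtain ⟨h0, h1, hh0, hh1, h⟩ := dec m y hm hΩ (d := 4 * n + a) (by omega) (α := α)
      (by convert hα using 1; ring)
    obtain ⟨Q1, hQ1, e1⟩ := ih a ha hh1
    obtain ⟨Q0, hQ0, e0⟩ := ih (a + 2) (by omega) (α := h0) (by convert hh0 using 1; ring)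
    refine ⟨X 0 * Q0 + X 1 * Q1, (WW R _ _).add_mem (X0_mul_mem_WW hQ0) (X1_mul_mem_WW hQ1), ?_⟩
    rw [map_add, map_mul, map_mul, ev_X0, ev_X1, e0, e1, h]
    ring

end
end Crest.Agent.R258
end
end

-- ▼ part R258/Ker
section
/-! rid 258, task KER (uses `Tp_dvd` of `Surj.lean`). -/
set_option autoImplicit false
noncomputable section
namespace Crest.Agent.R258
open MvPolynomial

section
variable {R : Type*} [CommRing R] [IsDomain R] [Algebra ℚ R]

theorem TT_U (m y : R) : TT m (2 * y) (1 + y ^ 2) y = 0 := by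
  unfold TT t1; ring

theorem TT_V (m y : R) : TT m (del m y) (2 * y) y = 0 := by
  unfold TT t2; ring

theorem Tp_ne_zero (m y : R) (hΩ : Om m y ≠ 0) : Tp m y ≠ 0 := by
  intro h
  have hq : algebraMap ℚ (SX R) (1 / 32) ≠ 0 := by
    rw [Ne, map_eq_zero_iff _ (FaithfulSMul.algebraMap_injective ℚ (SX R))]; norm_num
  rcases mul_eq_zero.1 h with h | h
  · exact hq h
  rcases mul_eq_zero.1 h with h | h
  · have h1 := congrArg (eval ![0, 1]) h
    have h2 := congrArg (eval ![1, 0]) h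
    simp only [t1, map_sub, map_mul, map_add, map_pow, map_one, map_ofNat, eval_C, eval_X,
      Matrix.cons_val_zero, Matrix.cons_val_one, map_zero, mul_one, mul_zero, sub_zero,
      zero_sub, neg_eq_zero] at h1 h2
    apply hΩ
    unfold Om
    linear_combination (2 * y) * h1 - (del m y) * h2
  · have h1 := congrArg (eval ![0, 1]) h
    have h2 := congrArg (eval ![1, 0]) h
    simp only [t2, del, map_sub, map_mul, map_add, map_pow, map_one, map_ofNat, eval_C, eval_X,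
      Matrix.cons_val_zero, Matrix.cons_val_one, map_zero, mul_one, mul_zero, sub_zero,
      zero_sub, neg_eq_zero] at h1 h2
    apply hΩ
    unfold Om del
    linear_combination (2 * y) * h2 - (1 + y ^ 2) * h1

/-- `KER`: the kernel of `ev` on `WW (n+1) (a+2)` is `κ · WW n a`. -/
theorem ker (m y : R) (hm : m ^ 2 = 2 * m + 1) (hΩ : Om m y ≠ 0) (n : ℕ) :
    ∀ (a : ℕ) {Q : MX R}, Q ∈ WW R (n + 1) (a + 2) → ev m y Q = 0 →
      ∃ Q' ∈ WW R n a, Q = kap m y * Q' := by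
  have hT : Tp m y ≠ 0 := Tp_ne_zero m y hΩ
  -- first step
  have step : ∀ (n a : ℕ) {Q : MX R}, Q ∈ WW R (n + 1) (a + 2) → ev m y Q = 0 →
      ∃ r : SX R, r.IsHomogeneous a ∧ ∃ Q' ∈ WW R n (a + 4), ev m y Q' = 0 ∧
        Q = X 0 * Q' - kap m y * (C r * X 1 ^ n) := by
    intro n a Q hQ h
    obtain ⟨c, hc, Q', hQ', rfl⟩ := mem_WW_succ hQ
    have h0 : c * Np m y ^ (n + 1) + Tp m y * ev m y Q' = 0 := by
      rw [← h]
      simp only [map_add, map_mul, map_pow, ev_C, ev_X0, ev_X1]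
    have hU : eval ![2 * y, 1 + y ^ 2] c = 0 := by
      have := congrArg (eval ![2 * y, 1 + y ^ 2]) h0
      simp only [map_add, map_mul, map_pow, eval_Tp, eval_Np, nu_U m y hm, TT_U, map_zero] at this
      simpa using this
    have hV : eval ![del m y, 2 * y] c = 0 := by
      have := congrArg (eval ![del m y, 2 * y]) h0
      simp only [map_add, map_mul, map_pow, eval_Tp, eval_Np, nu_V m y hm, TT_V, map_zero] at this
      simpa using this
    obtain ⟨r, hr, rfl⟩ := Tp_dvd m y hm hΩ hc hU hV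
    have hrX : C (Np m y) * (C r * X 1 ^ n) ∈ WW R n (a + 4) :=
      C_mul_mem_WW (d := 4) (Np_homogeneous m y) (X1_pow_mem_WW hr)
    have e : C (Tp m y * r) * X 1 ^ (n + 1) + X 0 * Q' =
        X 0 * (Q' + C (Np m y) * (C r * X 1 ^ n)) - kap m y * (C r * X 1 ^ n) := by
      unfold kap
      rw [map_mul]
      ring
    refine ⟨r, hr, Q' + C (Np m y) * (C r * X 1 ^ n), (WW R _ _).add_mem hQ' hrX, ?_, e⟩
    have h5 := h
    rw [e, map_sub, map_mul, map_mul, ev_kap, zero_mul, sub_zero, ev_X0] at h5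
    exact (mul_eq_zero.1 h5).resolve_left hT
  induction n with
  | zero =>
    intro a Q hQ h
    obtain ⟨r, hr, Q', hQ', h', rfl⟩ := step 0 a hQ h
    obtain ⟨c, hc, rfl⟩ := mem_WW_zero hQ'
    rw [ev_C] at h'
    refine ⟨-(C r), (WW R _ _).neg_mem (C_mem_WW hr), ?_⟩
    rw [h', map_zero]
    ring
  | succ n ih =>
    intro a Q hQ h
    obtain ⟨r, hr, Q', hQ', h', rfl⟩ := step (n + 1) a hQ h
    obtain ⟨Q2, hQ2, rfl⟩ := ih (a + 2) hQ' h'
    refine ⟨X 0 * Q2 - C r * X 1 ^ (n + 1), (WW R _ _).sub_mem (X0_mul_mem_WW hQ2)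
      (X1_pow_mem_WW hr), ?_⟩
    ring

end
end Crest.Agent.R258
end
end

-- ▼ part R258/H1
section
/-! rid 258, task H1: `VA n` and `VB n` for all `n`. -/
set_option autoImplicit false
noncomputable section
namespace Crest.Agent.R258
open MvPolynomial

/-! ### elementary facts on `yL`, `zL`, `mA`, `mL` -/

theorem h1_muB_ne_zero (b : Fin 2) : muB b ≠ 0 := by
  intro h
  have := muB_sq b
  rw [h] at this
  norm_num at this

theorem h1_mA_sq (b : Fin 2) : (mA b) ^ 2 = 2 * mA b + 1 := by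
  have h := congrArg (Polynomial.C : ℂ → AA) (muB_sq b)
  rw [map_pow, map_add, map_mul, map_one, map_ofNat] at h
  exact h

theorem h1_mL_sq (b : Fin 2) : (mL b) ^ 2 = 2 * mL b + 1 := by
  have h := congrArg (LaurentPolynomial.C : ℂ → LL) (muB_sq b)
  rw [map_pow, map_add, map_mul, map_one, map_ofNat] at h
  exact h

theorem h1_mL_one : mL 1 = 2 - mL 0 := by
  have h := congrArg (LaurentPolynomial.C : ℂ → LL) muB_add
  rw [map_add, map_ofNat] at h
  have h2 : mL 0 + mL 1 = 2 := h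
  rw [← h2]; ring

theorem h1_yL_mul_zL : yL * zL = 1 := by
  unfold yL zL
  rw [← LaurentPolynomial.T_add]
  simp


theorem h1_io0_X : io0 Polynomial.X = yL := Polynomial.toLaurent_X

theorem h1_io0_mA (b : Fin 2) : io0 (mA b) = mL b := Polynomial.toLaurent_C _

theorem h1_io1_X : io1 Polynomial.X = zL := by
  simp [io1, zL]

theorem h1_io1_mA (b : Fin 2) : io1 (mA b) = mL b := by
  simp [io1, mA, mL]

theorem h1_map_Om {R S : Type*} [CommRing R] [CommRing S] (φ : R →+* S) (m y : R) :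
    φ (Om m y) = Om (φ m) (φ y) := by
  simp [Om, del, map_ofNat]

theorem Om_ne_zero_A (b : Fin 2) : Om (mA b) (Polynomial.X : AA) ≠ 0 := by
  intro h
  have h2 := congrArg (Polynomial.eval (0 : ℂ)) h
  simp [Om, del, mA] at h2
  exact h1_muB_ne_zero b h2

theorem Om_ne_zero_L : Om (mL 0) yL ≠ 0 := by
  rw [← h1_io0_X, ← h1_io0_mA, ← h1_map_Om]
  intro h
  exact Om_ne_zero_A 0 (Polynomial.toLaurent_injective (by simpa [io0] using h))

/-- Laurent splitting: `r = α(y) + y^e β(1/y)` for `e ≥ -1`, here `e = k - 1`. -/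
theorem laurent_split (k : ℕ) (r : LL) :
    ∃ α β : AA, r = io0 α + LaurentPolynomial.T ((k : ℤ) - 1) * io1 β := by
  induction r using LaurentPolynomial.induction_on' with
  | add p q hp hq =>
    obtain ⟨a, b, h⟩ := hp
    obtain ⟨a', b', h'⟩ := hq
    refine ⟨a + a', b + b', ?_⟩
    rw [map_add, map_add, h, h']
    ring
  | C_mul_T n c =>
    rcases le_or_gt 0 n with hn | hn
    · obtain ⟨j, rfl⟩ := Int.eq_ofNat_of_zero_le hn
      refine ⟨Polynomial.C c * Polynomial.X ^ j, 0, ?_⟩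
      rw [map_zero, mul_zero, add_zero]
      simp only [io0, map_mul, map_pow, Polynomial.toLaurent_C, Polynomial.toLaurent_X,
        LaurentPolynomial.T_pow]
      simp
    · obtain ⟨j, hj⟩ := Int.eq_ofNat_of_zero_le (show 0 ≤ (k : ℤ) - 1 - n by omega)
      refine ⟨0, Polynomial.C c * Polynomial.X ^ j, ?_⟩
      have h1 : io1 (Polynomial.C c * Polynomial.X ^ j)
          = LaurentPolynomial.C c * LaurentPolynomial.T (-(j : ℤ)) := by
        rw [map_mul, map_pow, h1_io1_X]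
        simp [io1, zL, LaurentPolynomial.T_pow]
      have h2 : n = ((k : ℤ) - 1) + -(j : ℤ) := by omega
      rw [h1, map_zero, zero_add, mul_left_comm, ← LaurentPolynomial.T_add, ← h2]

theorem laurent_split_S (k : ℕ) {d : ℕ} {r : SX LL} (hr : r.IsHomogeneous d) :
    ∃ α β : SX AA, α.IsHomogeneous d ∧ β.IsHomogeneous d ∧
      r = MvPolynomial.map io0 α + C (LaurentPolynomial.T ((k : ℤ) - 1)) * MvPolynomial.map io1 β := by
  choose a b hab using laurent_split k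
  have key : ∀ m ∈ r.support, m.degree = d := by
    intro m hm
    rw [Finsupp.degree_eq_weight_one]
    exact hr (mem_support_iff.mp hm)
  refine ⟨∑ m ∈ r.support, monomial m (a (coeff m r)), ∑ m ∈ r.support, monomial m (b (coeff m r)),
    ?_, ?_, ?_⟩
  · exact IsHomogeneous.sum _ _ _ fun m hm => isHomogeneous_monomial _ (key m hm)
  · exact IsHomogeneous.sum _ _ _ fun m hm => isHomogeneous_monomial _ (key m hm)
  · rw [map_sum, map_sum, Finset.mul_sum, ← Finset.sum_add_distrib]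
    conv_lhs => rw [r.as_sum]
    refine Finset.sum_congr rfl fun m _ => ?_
    rw [map_monomial, map_monomial, C_mul_monomial, ← (monomial m).map_add, ← hab]

/-! ### images of the frame elements -/

theorem h1_jo1_C (p : SX AA) : jo1 (C p) = C (MvPolynomial.map io1 p) := by
  simp [jo1]

theorem h1_jo0_C (p : SX AA) : jo0 (C p) = C (MvPolynomial.map io0 p) := by
  simp [jo0]

theorem h1_jo1_X (i : Fin 2) : jo1 (X i) = X i := by
  simp [jo1]

theorem h1_jo0_X (i : Fin 2) : jo0 (X i) = X i := by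
  simp [jo0]

theorem h1_gS_C (p : SX LL) : gS (C p) = C p := by
  exact (gS.commutes p)

theorem h1_gS_X0 : gS (X 0) = C (C (zL ^ 4)) * X 0 := by
  simp [gS]

theorem h1_gS_X1 : gS (X 1) = C (C (zL ^ 3) * Pp (mL 0) yL) * X 0 + C (C (yL ^ 8)) * X 1 := by
  simp [gS]

theorem h1_ev_C {R : Type*} [CommRing R] [Algebra ℚ R] (m y : R) (p : SX R) : ev m y (C p) = p :=
  (ev m y).commutes p

theorem h1_ev_X0 {R : Type*} [CommRing R] [Algebra ℚ R] (m y : R) : ev m y (X 0) = Tp m y := by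
  simp [ev]

theorem h1_ev_X1 {R : Type*} [CommRing R] [Algebra ℚ R] (m y : R) : ev m y (X 1) = Np m y := by
  simp [ev]

theorem h1_map_del {R S : Type*} [CommRing R] [CommRing S] (φ : R →+* S) (m y : R) :
    φ (del m y) = del (φ m) (φ y) := by
  simp [del, map_ofNat]


theorem h1_map_TT {R S : Type*} [CommRing R] [CommRing S] [Algebra ℚ R] [Algebra ℚ S]
    (φ : R →+* S) (m x0 x1 y : R) :
    φ (TT m x0 x1 y) = TT (φ m) (φ x0) (φ x1) (φ y) := by
  simp [TT, t1, t2, h1_map_del, map_ofNat]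

theorem h1_map_nu {R S : Type*} [CommRing R] [CommRing S] [Algebra ℚ R] [Algebra ℚ S]
    (φ : R →+* S) (m x0 x1 y : R) :
    φ (nu m x0 x1 y) = nu (φ m) (φ x0) (φ x1) (φ y) := by
  simp [nu, map_ofNat]

theorem h1_map_Tp {R S : Type*} [CommRing R] [CommRing S] [Algebra ℚ R] [Algebra ℚ S]
    (φ : R →+* S) (m y : R) : MvPolynomial.map φ (Tp m y) = Tp (φ m) (φ y) := by
  unfold Tp
  rw [h1_map_TT]
  simp

theorem h1_map_Np {R S : Type*} [CommRing R] [CommRing S] [Algebra ℚ R] [Algebra ℚ S]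
    (φ : R →+* S) (m y : R) : MvPolynomial.map φ (Np m y) = Np (φ m) (φ y) := by
  unfold Np
  rw [h1_map_nu]
  simp

/-- `T'(1/y) = y⁻⁴ T(y)` for the polynomials in `x0,x1` over `LL`. -/
theorem h1_Tp_inv : Tp (mL 1) zL = C (zL ^ 4) * Tp (mL 0) yL := by
  have h := TT_inv (R := SX LL) (C (mL 0)) (X 0) (X 1) (C yL) (C zL)
    (by rw [← C_pow, h1_mL_sq]; simp [map_ofNat]) (by rw [← C_mul, h1_yL_mul_zL, C_1])
  unfold Tp
  rw [h1_mL_one, C_pow, C_sub]
  simpa [map_ofNat] using h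

/-- `T P = y³ ν'(1/y) - y¹¹ ν` for the polynomials in `x0,x1` over `LL`. -/
theorem h1_Tp_mul_Pp : Tp (mL 0) yL * Pp (mL 0) yL
    = C (yL ^ 3) * Np (mL 1) zL - C (yL ^ 11) * Np (mL 0) yL := by
  have h := TT_mul_PP (R := SX LL) (C (mL 0)) (X 0) (X 1) (C yL) (C zL)
    (by rw [← C_pow, h1_mL_sq]; simp [map_ofNat]) (by rw [← C_mul, h1_yL_mul_zL, C_1])
  unfold Tp Pp Np
  rw [h1_mL_one, C_pow, C_pow, C_sub]
  simpa [map_ofNat] using h

/-! ### generic ring computations (abstract rings, to keep `ring` fast) -/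

theorem h1_comp_ev1 {R : Type*} [CommRing R] {y z P T N N' : R} (hyz : y * z = 1)
    (h : T * P = y ^ 3 * N' - y ^ 11 * N) : z ^ 3 * P * T + y ^ 8 * N = N' := by
  have e1 : z ^ 3 * P * T + y ^ 8 * N = z ^ 3 * (T * P) + y ^ 8 * N := by ring
  have e2 : z ^ 3 * (y ^ 3 * N' - y ^ 11 * N) + y ^ 8 * N
      = (y * z) ^ 3 * N' + (1 - (y * z) ^ 3) * (y ^ 8 * N) := by ring
  rw [e1, h, e2, hyz]
  ring

theorem h1_comp_kap0 {R : Type*} [CommRing R] {y z P T T' N N' : R} (hyz : y * z = 1)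
    (hT : T' = z ^ 4 * T)
    (h : T * P = y ^ 3 * N' - y ^ 11 * N) : N' * z ^ 4 - T' * (z ^ 3 * P) = y ^ 4 * N := by
  have e1 : N' * z ^ 4 - T' * (z ^ 3 * P) = N' * z ^ 4 - z ^ 7 * (T * P) := by rw [hT]; ring
  have e2 : N' * z ^ 4 - z ^ 7 * (y ^ 3 * N' - y ^ 11 * N)
      = (1 - (y * z) ^ 3) * (N' * z ^ 4) + (y * z) ^ 7 * (y ^ 4 * N) := by ring
  rw [e1, h, e2, hyz]
  ring

theorem h1_comp_kap1 {R : Type*} [CommRing R] {y z T T' : R} (hyz : y * z = 1)
    (hT : T' = z ^ 4 * T) : T' * y ^ 8 = y ^ 4 * T := by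
  have e1 : T' * y ^ 8 = (y * z) ^ 4 * (y ^ 4 * T) := by rw [hT]; ring
  rw [e1, hyz]
  ring

theorem h1_comp_kap2 {R : Type*} [CommRing R] {N1 T1 u v w K0 K1 N T X0 X1 : R}
    (h0 : N1 * u - T1 * v = K0 * N) (h1 : T1 * w = K1 * T) (hK : K0 = K1) :
    N1 * (u * X0) - T1 * (v * X0 + w * X1) = K0 * (N * X0 - T * X1) := by
  subst hK
  linear_combination X0 * h0 - X1 * h1

theorem h1_comp_VA {R : Type*} [CommRing R] {y z a b p q x0 Q' Q1 B0 B1 g g' c : R}
    (hyz : y * z = 1) (hB : Q' - y ^ 3 * Q1 = B0 + z * B1) (hg : g = p * b * q + x0 * Q1)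
    (hg' : g' = z ^ 4 * x0 * B1) (hc : c = a + y ^ 3 * p * b) :
    c * q + x0 * Q' = a * q + x0 * B0 + y ^ 3 * (g + g') := by
  have e : z = y ^ 3 * z ^ 4 := by
    have : y ^ 3 * z ^ 4 = (y * z) ^ 3 * z := by ring
    rw [this, hyz]; ring
  rw [hg, hg', hc]
  linear_combination (x0 * B1) * e + x0 * hB

theorem h1_comp_VB {R : Type*} [CommRing R] {y z Q Q' a b k B0 B1 : R} (hyz : y * z = 1)
    (hD : Q - a - z * b = k * Q') (hB : Q' = B0 + y ^ 3 * B1) :
    Q = a + k * B0 + z * (b + y ^ 4 * k * B1) := by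
  have e : y ^ 3 = z * y ^ 4 := by
    have : z * y ^ 4 = (y * z) * y ^ 3 := by ring
    rw [this, hyz]; ring
  linear_combination (k * B1) * e + hD + k * hB

theorem h1_hyz_S : (C yL : SX LL) * C zL = 1 := by rw [← C_mul, h1_yL_mul_zL, C_1]

theorem h1_hyz_M : (C (C yL) : MX LL) * C (C zL) = 1 := by rw [← C_mul, h1_hyz_S, C_1]

/-- `ev (G(ι₁ Q)) = ι₁ (ev' Q)`. -/
theorem ev_gS_jo1 (Q : MX AA) :
    ev (mL 0) yL (gS (jo1 Q)) = MvPolynomial.map io1 (ev (mA 1) Polynomial.X Q) := by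
  have h0 : ev (mL 0) yL (gS (jo1 (X 0)))
      = MvPolynomial.map io1 (ev (mA 1) Polynomial.X (X 0)) := by
    rw [h1_jo1_X, h1_gS_X0, map_mul, h1_ev_C, h1_ev_X0, h1_ev_X0, h1_map_Tp, h1_io1_X, h1_io1_mA, h1_Tp_inv]
  have h1 : ev (mL 0) yL (gS (jo1 (X 1)))
      = MvPolynomial.map io1 (ev (mA 1) Polynomial.X (X 1)) := by
    rw [h1_jo1_X, h1_gS_X1, map_add (ev _ _), map_mul (ev _ _), map_mul (ev _ _), h1_ev_C, h1_ev_C, h1_ev_X0,
      h1_ev_X1, h1_ev_X1, h1_map_Np, h1_io1_X, h1_io1_mA, C_pow, C_pow]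
    refine h1_comp_ev1 h1_hyz_S ?_
    have h := h1_Tp_mul_Pp
    rwa [C_pow, C_pow] at h
  induction Q using MvPolynomial.induction_on with
  | C p => rw [h1_jo1_C, h1_gS_C, h1_ev_C, h1_ev_C]
  | add p q hp hq =>
    rw [map_add jo1, map_add gS, map_add (ev (mL 0) yL), map_add (ev (mA 1) Polynomial.X),
      map_add (MvPolynomial.map io1), hp, hq]
  | mul_X p i hp =>
    rw [map_mul jo1, map_mul gS, map_mul (ev (mL 0) yL), map_mul (ev (mA 1) Polynomial.X),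
      map_mul (MvPolynomial.map io1), hp]
    match i with
    | 0 => rw [h0]
    | 1 => rw [h1]

/-- `y⁴ κ = G(ι₁ κ₁)`. -/
theorem gS_kap : gS (jo1 (kap (mA 1) Polynomial.X)) = C (C (yL ^ 4)) * kap (mL 0) yL := by
  unfold kap
  rw [map_sub jo1, map_mul jo1, map_mul jo1, h1_jo1_C, h1_jo1_C, h1_jo1_X, h1_jo1_X, map_sub gS, map_mul gS,
    map_mul gS, h1_gS_C, h1_gS_C, h1_gS_X0, h1_gS_X1, h1_map_Tp, h1_map_Np, h1_io1_X, h1_io1_mA]
  have h := h1_Tp_mul_Pp
  have hT := h1_Tp_inv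
  rw [C_pow, C_pow] at h
  rw [C_pow] at hT
  have h' := congrArg (C : SX LL → MX LL) h
  have hT' := congrArg (C : SX LL → MX LL) hT
  rw [C_mul, C_sub, C_mul, C_mul, C_pow, C_pow] at h'
  rw [C_mul, C_pow] at hT'
  rw [C_mul, C_pow, C_pow, C_pow, C_pow, C_pow, C_pow, C_pow, C_pow]
  exact h1_comp_kap2 (h1_comp_kap0 h1_hyz_M hT' h') (h1_comp_kap1 h1_hyz_M hT') rfl

theorem h1_yL_pow_three : (LaurentPolynomial.T (((4 : ℕ) : ℤ) - 1) : LL) = yL ^ 3 := by
  rw [yL, LaurentPolynomial.T_pow]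
  congr 1

theorem h1_zL_eq : (LaurentPolynomial.T (((0 : ℕ) : ℤ) - 1) : LL) = zL := by
  rw [zL]
  congr 1

theorem VA_zero : VA 0 := by
  intro Q hQ
  obtain ⟨c, hc, rfl⟩ := mem_WW_zero hQ
  obtain ⟨α, β, hα, hβ, h⟩ := laurent_split_S 4 hc
  refine ⟨C α, C_mem_WW hα, C β, C_mem_WW hβ, ?_⟩
  rw [h1_jo0_C, h1_jo1_C, h1_gS_C, ← C_mul, ← C_add, h, h1_yL_pow_three]

theorem VB_zero : VB 0 := by
  intro Q hQ
  obtain ⟨c, hc, rfl⟩ := mem_WW_zero hQ
  obtain ⟨α, β, hα, hβ, h⟩ := laurent_split_S 0 hc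
  refine ⟨C α, C_mem_WW hα, C β, C_mem_WW hβ, ?_⟩
  rw [h1_jo0_C, h1_jo1_C, h1_gS_C, ← C_mul, ← C_add, h, h1_zL_eq]

theorem h1_zPp_homogeneous : (C (zL ^ 3) * Pp (mL 0) yL : SX LL).IsHomogeneous 2 := by
  have h := (isHomogeneous_C (Fin 2) (zL ^ 3 : LL)).mul (Pp_homogeneous (mL 0) yL)
  rwa [zero_add] at h

theorem h1_gS_X1_pow {n : ℕ} {c : SX LL} (hc : c.IsHomogeneous 0) :
    ∃ Q' ∈ WW LL n 2, gS (C c * X 1 ^ (n + 1))
      = C (C ((yL ^ 8) ^ (n + 1)) * c) * X 1 ^ (n + 1) + X 0 * Q' :=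
  subst_X1_pow (R := LL) (n := n) (a := 0) (zL ^ 4) (yL ^ 8) h1_zPp_homogeneous c hc

theorem VA_succ {n : ℕ} (h : VB n) : VA (n + 1) := by
  intro Q hQ
  obtain ⟨c, hc, Q', hQ', rfl⟩ := mem_WW_succ hQ
  obtain ⟨α, β, hα, hβ, hc'⟩ := laurent_split_S (3 + 8 * (n + 1) + 1) hc
  obtain ⟨Q1, hQ1, hQ1'⟩ := h1_gS_X1_pow (n := n) (hβ.map io1)
  have hm : Q' - C (C (yL ^ 3)) * Q1 ∈ WW LL n 2 :=
    Submodule.sub_mem _ hQ' (CC_mul_mem_WW _ hQ1)
  obtain ⟨B0, hB0, B1, hB1, hB⟩ := h (Q' - C (C (yL ^ 3)) * Q1) hm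
  refine ⟨C α * X 1 ^ (n + 1) + X 0 * B0,
    Submodule.add_mem _ (X1_pow_mem_WW hα) (X0_mul_mem_WW hB0),
    C β * X 1 ^ (n + 1) + X 0 * B1,
    Submodule.add_mem _ (X1_pow_mem_WW hβ) (X0_mul_mem_WW hB1), ?_⟩
  have g1 : gS (jo1 (C β * X 1 ^ (n + 1)))
      = C (C ((yL ^ 8) ^ (n + 1)) * MvPolynomial.map io1 β) * X 1 ^ (n + 1) + X 0 * Q1 := by
    rw [← hQ1', map_mul jo1, map_pow jo1, h1_jo1_C, h1_jo1_X]
  have hT : (LaurentPolynomial.T (((3 + 8 * (n + 1) + 1 : ℕ) : ℤ) - 1) : LL)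
      = yL ^ 3 * (yL ^ 8) ^ (n + 1) := by
    rw [← pow_mul, ← pow_add, yL, LaurentPolynomial.T_pow]
    congr 1
    push_cast
    ring
  rw [hT] at hc'
  have hc2 := congrArg (C : SX LL → MX LL) hc'
  rw [C_add, C_mul, C_mul, C_mul, C_pow, C_pow] at hc2
  rw [C_mul] at g1
  have g2 : gS (jo1 (X 0 * B1)) = C (C zL) ^ 4 * X 0 * gS (jo1 B1) := by
    rw [map_mul jo1, map_mul gS, h1_jo1_X, h1_gS_X0, C_pow, C_pow]
  rw [C_pow, C_pow] at hB
  rw [map_add jo1, map_add gS, map_add jo0, map_mul jo0, map_mul jo0, map_pow jo0, h1_jo0_C, h1_jo0_X,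
    h1_jo0_X, C_pow, C_pow]
  exact h1_comp_VA h1_hyz_M hB g1 g2 hc2

theorem VB_succ {n : ℕ} (h : VA n) : VB (n + 1) := by
  intro Q hQ
  obtain ⟨α, β, hα, hβ, hc⟩ := laurent_split_S 0 (ev_homogeneous (mL 0) yL hQ)
  obtain ⟨Qa, hQa, hea⟩ := surj (mA 0) Polynomial.X (h1_mA_sq 0) (Om_ne_zero_A 0) (n + 1) 2 le_rfl hα
  obtain ⟨Qb, hQb, heb⟩ := surj (mA 1) Polynomial.X (h1_mA_sq 1) (Om_ne_zero_A 1) (n + 1) 2 le_rfl hβ
  have hT : (LaurentPolynomial.T (((0 : ℕ) : ℤ) - 1) : LL) = zL := by simp [zL]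
  rw [hT] at hc
  have hD : Q - jo0 Qa - C (C zL) * gS (jo1 Qb) ∈ WW LL (n + 1) (0 + 2) :=
    Submodule.sub_mem _ (Submodule.sub_mem _ hQ (jo0_mem_WW hQa))
      (CC_mul_mem_WW _ (gS_mem_WW (jo1_mem_WW hQb)))
  have he : ev (mL 0) yL (Q - jo0 Qa - C (C zL) * gS (jo1 Qb)) = 0 := by
    have h1 : ev (mL 0) yL (jo0 Qa) = MvPolynomial.map io0 α := by
      rw [← hea, map_ev, h1_io0_X, h1_io0_mA]
      rfl
    rw [map_sub, map_sub, map_mul, h1_ev_C, ev_gS_jo1, heb, h1, hc]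
    ring
  obtain ⟨Q', hQ', hD'⟩ := ker (mL 0) yL (h1_mL_sq 0) Om_ne_zero_L n 0 hD he
  obtain ⟨B0, hB0, B1, hB1, hB⟩ := h Q' hQ'
  refine ⟨Qa + kap (mA 0) Polynomial.X * B0, Submodule.add_mem _ hQa (kap_mul_mem_WW _ _ hB0),
    Qb + kap (mA 1) Polynomial.X * B1, Submodule.add_mem _ hQb (kap_mul_mem_WW _ _ hB1), ?_⟩
  have hk : jo0 (kap (mA 0) Polynomial.X) = kap (mL 0) yL := by
    have := map_kap io0 (mA 0) Polynomial.X
    rw [h1_io0_X, h1_io0_mA] at this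
    exact this
  rw [map_add jo0, map_mul jo0, hk, map_add jo1, map_mul jo1, map_add gS, map_mul gS, gS_kap]
  rw [C_pow, C_pow] at hB ⊢
  exact h1_comp_VB h1_hyz_M hD' hB

theorem VA_all (n : ℕ) : VA n ∧ VB n := by
  induction n with
  | zero => exact ⟨VA_zero, VB_zero⟩
  | succ n ih => exact ⟨VA_succ ih.2, VB_succ ih.1⟩

end Crest.Agent.R258
end
end

-- ▼ part R258/GenGen
/-! rid 258, task GG: from `VA n` to `GG gBase n 0 4`. -/
set_option autoImplicit false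
noncomputable section
namespace Crest.Agent.R258
open MvPolynomial Crest.AlgGeometry.QuadricBundle

/-- compatible pairs. -/
def IsPair (n : ℕ) (A : Fin 2 → MX AA) : Prop :=
  (∀ b, A b ∈ WW AA n 0) ∧ jo0 (A 0) = C (C (yL ^ 4)) * gS (jo1 (A 1))

/-- value of the coefficients at `y = y0`. -/
def atY (y0 : ℂ) : MX AA →+* MX ℂ := MvPolynomial.map (MvPolynomial.map (Polynomial.evalRingHom y0))

/-! ### evaluation at a nonzero point of the Laurent side -/

/-- evaluation of Laurent polynomials at a nonzero complex number. -/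
def evL (y : ℂˣ) : LL →+* ℂ := LaurentPolynomial.eval₂ (RingHom.id ℂ) y

theorem evL_T (y : ℂˣ) (n : ℤ) : evL y (LaurentPolynomial.T n) = (y : ℂ) ^ n := by
  rw [evL, LaurentPolynomial.eval₂_T]
  simp

theorem evL_C (y : ℂˣ) (c : ℂ) : evL y (LaurentPolynomial.C c) = c := by
  rw [evL, LaurentPolynomial.eval₂_C]; rfl

theorem evL_toLaurent (y : ℂˣ) (p : AA) : evL y (Polynomial.toLaurent p) = p.eval (y : ℂ) := by
  rw [evL, LaurentPolynomial.eval₂_toLaurent, Polynomial.eval₂_id]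

theorem evL_comp_io0 (y : ℂˣ) : (evL y).comp io0 = Polynomial.evalRingHom (y : ℂ) :=
  RingHom.ext fun p => evL_toLaurent y p

theorem evL_comp_io1 (y : ℂˣ) : (evL y).comp io1 = Polynomial.evalRingHom ((y⁻¹ : ℂˣ) : ℂ) := by
  apply Polynomial.ringHom_ext
  · intro a
    simp only [io1, RingHom.comp_apply, Polynomial.toLaurent_C, Polynomial.coe_evalRingHom,
      Polynomial.eval_C]
    have : (LaurentPolynomial.invert (R := ℂ)).toRingHom (LaurentPolynomial.C a)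
        = LaurentPolynomial.C a := LaurentPolynomial.invert_C a
    rw [this, evL_C]
  · simp only [io1, RingHom.comp_apply, Polynomial.toLaurent_X, Polynomial.coe_evalRingHom,
      Polynomial.eval_X]
    have : (LaurentPolynomial.invert (R := ℂ)).toRingHom (LaurentPolynomial.T 1)
        = LaurentPolynomial.T (-1) := LaurentPolynomial.invert_T 1
    rw [this, evL_T]
    simp

/-- value at `y` on the Laurent side. -/
def atL (y : ℂˣ) : MX LL →+* MX ℂ := MvPolynomial.map (MvPolynomial.map (evL y))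

theorem atL_jo0 (y : ℂˣ) (Q : MX AA) : atL y (jo0 Q) = atY (y : ℂ) Q := by
  unfold atL jo0 atY
  rw [MvPolynomial.map_map]
  congr 2
  rw [← evL_comp_io0]
  exact RingHom.ext fun x => MvPolynomial.map_map _ _ x

theorem atL_jo1 (y : ℂˣ) (Q : MX AA) : atL y (jo1 Q) = atY ((y⁻¹ : ℂˣ) : ℂ) Q := by
  unfold atL jo1 atY
  rw [MvPolynomial.map_map]
  congr 2
  rw [← evL_comp_io1]
  exact RingHom.ext fun x => MvPolynomial.map_map _ _ x

theorem atL_CC (y : ℂˣ) (c : LL) : atL y (C (C c)) = C (C (evL y c)) := by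
  simp [atL]

theorem atY_CC (y : ℂ) (c : AA) : atY y (C (C c)) = C (C (c.eval y)) := by
  simp [atY]

/-! ### the frame substitution -/

section gR
variable {R S : Type*} [CommRing R] [CommRing S]

/-- the substitution `X₀ ↦ u X₀`, `X₁ ↦ p X₀ + v X₁`. -/
def gR (u v : R) (p : SX R) : MX R →ₐ[SX R] MX R :=
  aeval ![C (C u) * X 0, C p * X 0 + C (C v) * X 1]

theorem gR_X0 (u v : R) (p : SX R) : gR u v p (X 0) = C (C u) * X 0 := by simp [gR]

theorem gR_X1 (u v : R) (p : SX R) : gR u v p (X 1) = C p * X 0 + C (C v) * X 1 := by simp [gR]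

theorem gR_C (u v : R) (p c : SX R) : gR u v p (C c) = C c := by
  simp [gR]

theorem map_gR (f : R →+* S) (u v : R) (p : SX R) (Q : MX R) :
    MvPolynomial.map (MvPolynomial.map f) (gR u v p Q) =
      gR (f u) (f v) (MvPolynomial.map f p) (MvPolynomial.map (MvPolynomial.map f) Q) := by
  have h : (MvPolynomial.map (MvPolynomial.map f) : MX R →+* MX S).comp (gR u v p).toRingHom =
      (gR (f u) (f v) (MvPolynomial.map f p)).toRingHom.comp
        (MvPolynomial.map (MvPolynomial.map f) : MX R →+* MX S) := by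
    apply MvPolynomial.ringHom_ext
    · intro r
      simp
    · intro i
      fin_cases i <;> simp [gR_X0, gR_X1]
  exact congrArg (fun F : MX R →+* MX S => F Q) h

theorem gR_gR_inv (u v u' v' : R) (p : SX R) (hu : u' * u = 1)
    (hv : v' * v = 1) (Q : MX R) :
    gR u v p (gR u' v' (-(C (u' * v') * p)) Q) = Q := by
  have h : (gR u v p).toRingHom.comp (gR u' v' (-(C (u' * v') * p))).toRingHom
      = RingHom.id _ := by
    apply MvPolynomial.ringHom_ext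
    · intro r
      simp
    · intro i
      have h1 : (C (C u') : MX R) * C (C u) = 1 := by
        rw [← C_mul, ← C_mul, hu]; simp
      have h2 : (C (C v') : MX R) * C (C v) = 1 := by
        rw [← C_mul, ← C_mul, hv]; simp
      fin_cases i
      · simp only [Fin.zero_eta, AlgHom.toRingHom_eq_coe, RingHom.comp_apply, RingHom.coe_coe,
          gR_X0, map_mul, gR_C, RingHom.id_apply]
        linear_combination (X 0 : MX R) * h1
      · simp only [Fin.mk_one, AlgHom.toRingHom_eq_coe, RingHom.comp_apply, RingHom.coe_coe,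
          gR_X1, map_add, map_mul, gR_C, gR_X0, RingHom.id_apply, map_neg]
        linear_combination (-(C (C v') * C p * X 0) : MX R) * h1 + (X 1 : MX R) * h2
  exact congrArg (fun F : MX R →+* MX R => F Q) h

theorem gR_inv_gR (u v u' v' : R) (p : SX R) (hu : u' * u = 1)
    (hv : v' * v = 1) (Q : MX R) :
    gR u' v' (-(C (u' * v') * p)) (gR u v p Q) = Q := by
  have h := gR_gR_inv u' v' u v (-(C (u' * v') * p)) (by rw [mul_comm]; exact hu)
    (by rw [mul_comm]; exact hv) Q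
  have e : (-(C (u * v) * -(C (u' * v') * p)) : SX R) = p := by
    have : (C (u * v) : SX R) * C (u' * v') = 1 := by
      rw [← C_mul]
      have : u * v * (u' * v') = (u' * u) * (v' * v) := by ring
      rw [this, hu, hv]; simp
    linear_combination p * this
  rw [e] at h
  exact h

end gR

/-- the off-diagonal entry of `gS`. -/
def offL : SX LL := C (zL ^ 3) * Pp (mL 0) yL

theorem offL_homogeneous : offL.IsHomogeneous 2 := by
  have := (isHomogeneous_C (Fin 2) (zL ^ 3)).mul (Pp_homogeneous (mL 0) yL)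
  simpa [offL] using this

theorem gS_eq_gR (Q : MX LL) : gS Q = gR (zL ^ 4) (yL ^ 8) offL Q := rfl

/-- `gS` at the point `y`. -/
def gAt (y : ℂˣ) : MX ℂ →ₐ[SX ℂ] MX ℂ :=
  gR (((y : ℂ)⁻¹) ^ 4) ((y : ℂ) ^ 8) (MvPolynomial.map (evL y) offL)

theorem atL_gS (y : ℂˣ) (Q : MX LL) : atL y (gS Q) = gAt y (atL y Q) := by
  rw [gS_eq_gR, atL, map_gR, gAt]
  congr 3
  · rw [map_pow, zL, evL_T]; simp
  · rw [map_pow, yL, evL_T]; simp

/-- inverse of `gAt`. -/
def gAtInv (y : ℂˣ) : MX ℂ →ₐ[SX ℂ] MX ℂ :=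
  gR ((y : ℂ) ^ 4) (((y : ℂ)⁻¹) ^ 8)
    (-(C ((y : ℂ) ^ 4 * ((y : ℂ)⁻¹) ^ 8) * MvPolynomial.map (evL y) offL))

theorem gAt_gAtInv (y : ℂˣ) (Q : MX ℂ) : gAt y (gAtInv y Q) = Q := by
  apply gR_gR_inv
  · rw [← mul_pow, mul_inv_cancel₀ y.ne_zero, one_pow]
  · rw [← mul_pow, inv_mul_cancel₀ y.ne_zero, one_pow]

theorem gAtInv_gAt (y : ℂˣ) (Q : MX ℂ) : gAtInv y (gAt y Q) = Q := by
  apply gR_inv_gR
  · rw [← mul_pow, mul_inv_cancel₀ y.ne_zero, one_pow]
  · rw [← mul_pow, inv_mul_cancel₀ y.ne_zero, one_pow]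

theorem gAt_mem {n a : ℕ} (y : ℂˣ) {Q : MX ℂ} (hQ : Q ∈ WW ℂ n a) : gAt y Q ∈ WW ℂ n a :=
  subst_mem_WW _ _ (offL_homogeneous.map _) hQ

theorem gAtInv_mem {n a : ℕ} (y : ℂˣ) {Q : MX ℂ} (hQ : Q ∈ WW ℂ n a) :
    gAtInv y Q ∈ WW ℂ n a := by
  apply subst_mem_WW _ _ _ hQ
  apply IsHomogeneous.neg
  have := (isHomogeneous_C (Fin 2) ((y : ℂ) ^ 4 * ((y : ℂ)⁻¹) ^ 8)).mul
    (offL_homogeneous.map (evL y))
  simpa using this

/-! ### divisibility by `T - y` -/

theorem ker_evL (y : ℂˣ) :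
    RingHom.ker (evL y) = Ideal.span {(LaurentPolynomial.T 1 - LaurentPolynomial.C (y : ℂ))} := by
  ext f
  rw [RingHom.mem_ker, Ideal.mem_span_singleton]
  constructor
  · intro hf
    obtain ⟨k, g, hg⟩ := LaurentPolynomial.exists_T_pow f
    have hg0 : Polynomial.eval (y : ℂ) g = 0 := by
      rw [← evL_toLaurent, hg, map_mul, hf, zero_mul]
    obtain ⟨q, hq⟩ := Polynomial.dvd_iff_isRoot.2 hg0
    refine ⟨Polynomial.toLaurent q * LaurentPolynomial.T (-k), ?_⟩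
    have h2 : f = f * LaurentPolynomial.T k * LaurentPolynomial.T (-k) := by
      rw [mul_assoc, ← LaurentPolynomial.T_add]; simp
    rw [h2, ← hg, hq, map_mul, map_sub, Polynomial.toLaurent_X, Polynomial.toLaurent_C]
    ring
  · rintro ⟨g, rfl⟩
    rw [map_mul, map_sub, evL_T, evL_C]
    simp

theorem T_sub_C_ne_zero (y : ℂ) :
    (LaurentPolynomial.T 1 - LaurentPolynomial.C y : LL) ≠ 0 := by
  intro h0
  have h1 : (LaurentPolynomial.T 1 : LL) = LaurentPolynomial.C y := sub_eq_zero.1 h0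
  have h2 : evL 1 (LaurentPolynomial.T 1) = evL (-1) (LaurentPolynomial.T 1) := by
    rw [h1, evL_C, evL_C]
  rw [evL_T, evL_T] at h2
  norm_num at h2

theorem exists_div {n a : ℕ} {Q : MX LL} (hQ : Q ∈ WW LL n a) (y : ℂˣ)
    (h : atL y Q = 0) : ∃ P ∈ WW LL n a,
      Q = C (C (LaurentPolynomial.T 1 - LaurentPolynomial.C (y : ℂ))) * P := by
  have h1 : Q ∈ RingHom.ker (MvPolynomial.map (MvPolynomial.map (evL y) :
      SX LL →+* SX ℂ) : MX LL →+* MX ℂ) := h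
  rw [MvPolynomial.ker_map, MvPolynomial.ker_map, ker_evL, Ideal.map_span, Ideal.map_span,
    Set.image_singleton, Set.image_singleton, Ideal.mem_span_singleton] at h1
  obtain ⟨P, hP⟩ := h1
  refine ⟨P, ?_, hP⟩
  have hc0 := T_sub_C_ne_zero (y : ℂ)
  set c : LL := LaurentPolynomial.T 1 - LaurentPolynomial.C (y : ℂ) with hc
  have key : ∀ d e, coeff e (coeff d Q) = c * coeff e (coeff d P) := by
    intro d e
    rw [hP, coeff_C_mul, coeff_C_mul]
  rw [mem_WW] at hQ ⊢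
  constructor
  · intro d hd
    apply hQ.1
    intro h0
    apply hd
    ext1 e
    have := key d e
    rw [h0, coeff_zero] at this
    rw [coeff_zero]
    rcases mul_eq_zero.1 this.symm with h | h
    · exact absurd h hc0
    · exact h
  · intro d e he
    apply hQ.2 d
    rw [key d e]
    exact mul_ne_zero hc0 he

/-! ### pairs with prescribed value -/

/-- constants. -/
def cst : MX ℂ →+* MX AA := MvPolynomial.map (MvPolynomial.map Polynomial.C)

theorem cst_mem {n a : ℕ} {w : MX ℂ} (hw : w ∈ WW ℂ n a) : cst w ∈ WW AA n a := map_mem_WW _ hw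

theorem atY_cst (y : ℂ) (w : MX ℂ) : atY y (cst w) = w := by
  unfold atY cst
  rw [MvPolynomial.map_map]
  have h1 : (Polynomial.evalRingHom y).comp (Polynomial.C : ℂ →+* AA) = RingHom.id ℂ :=
    RingHom.ext fun x => by simp
  have h2 : (MvPolynomial.map (Polynomial.evalRingHom y) : SX AA →+* SX ℂ).comp
      (MvPolynomial.map (Polynomial.C : ℂ →+* AA)) = RingHom.id (SX ℂ) := by
    refine RingHom.ext fun x => ?_
    rw [RingHom.comp_apply, MvPolynomial.map_map, h1, MvPolynomial.map_id]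
    rfl
  rw [h2, MvPolynomial.map_id]

theorem jo0_CC (c : AA) : jo0 (C (C c)) = C (C (io0 c)) := by simp [jo0]
theorem jo1_CC (c : AA) : jo1 (C (C c)) = C (C (io1 c)) := by simp [jo1]

theorem io0_X : io0 Polynomial.X = yL := by simp [io0, yL]
theorem io0_C (c : ℂ) : io0 (Polynomial.C c) = LaurentPolynomial.C c := by simp [io0]
theorem io1_X : io1 Polynomial.X = zL := by
  simp only [io1, RingHom.comp_apply, Polynomial.toLaurent_X]
  exact LaurentPolynomial.invert_T 1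
theorem io1_C (c : ℂ) : io1 (Polynomial.C c) = LaurentPolynomial.C c := by
  simp only [io1, RingHom.comp_apply, Polynomial.toLaurent_C]
  exact LaurentPolynomial.invert_C c

theorem jo1_cst (w : MX ℂ) : jo1 (cst w) = jo0 (cst w) := by
  unfold jo1 jo0 cst
  rw [MvPolynomial.map_map, MvPolynomial.map_map]
  congr 2
  refine RingHom.ext fun x => ?_
  rw [RingHom.comp_apply, RingHom.comp_apply, MvPolynomial.map_map, MvPolynomial.map_map]
  congr 2
  exact RingHom.ext fun x => by rw [RingHom.comp_apply, RingHom.comp_apply, io0_C, io1_C]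

theorem yL_mul_zL : yL * zL = 1 := by
  rw [yL, zL, ← LaurentPolynomial.T_add]; simp

theorem gS_CC_mul (c : LL) (Q : MX LL) : gS (C (C c) * Q) = C (C c) * gS Q := by
  rw [map_mul]
  congr 1
  rw [gS_eq_gR, gR_C]

theorem WW_sub {R : Type*} [CommRing R] {n a : ℕ} {P Q : MX R} (hP : P ∈ WW R n a)
    (hQ : Q ∈ WW R n a) : P - Q ∈ WW R n a := (WW R n a).sub_mem hP hQ

/-- chart `0`, `y ≠ 0`. -/
theorem exists_pair_zero_unit {n : ℕ} (h : VA n) (y : ℂˣ) {w : MX ℂ} (hw : w ∈ WW ℂ n 0) :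
    ∃ A0 ∈ WW AA n 0, ∃ A1 ∈ WW AA n 0, jo0 A0 = C (C (yL ^ 4)) * gS (jo1 A1) ∧
      atY (y : ℂ) A0 = w := by
  obtain ⟨B, hB⟩ : ∃ B : MX ℂ, B = C (C (((y : ℂ)⁻¹) ^ 4)) * gAtInv y w := ⟨_, rfl⟩
  have hBm : B ∈ WW ℂ n 0 := by rw [hB]; exact CC_mul_mem_WW _ (gAtInv_mem y hw)
  set D : MX LL := jo0 (cst w) - C (C (yL ^ 4)) * gS (jo0 (cst B)) with hD
  have hDm : D ∈ WW LL n 0 :=
    WW_sub (jo0_mem_WW (cst_mem hw)) (CC_mul_mem_WW _ (gS_mem_WW (jo0_mem_WW (cst_mem hBm))))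
  have hD0 : atL y D = 0 := by
    rw [hD, map_sub, map_mul, atL_CC, atL_gS, atL_jo0, atL_jo0, atY_cst, atY_cst, hB]
    have h1 : evL y (yL ^ 4) = (y : ℂ) ^ 4 := by rw [map_pow, yL, evL_T]; simp
    have h2 : gAt y (C (C (((y : ℂ)⁻¹) ^ 4)) * gAtInv y w) = C (C (((y : ℂ)⁻¹) ^ 4)) * w := by
      rw [map_mul, gAt_gAtInv]
      congr 1
      exact gR_C _ _ _ _
    rw [h1, h2, ← mul_assoc, ← C_mul, ← C_mul, ← mul_pow, mul_inv_cancel₀ y.ne_zero]
    simp
  obtain ⟨P, hP, hDP⟩ := exists_div hDm y hD0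
  obtain ⟨P0, hP0, P1, hP1, hPe⟩ := h P hP
  refine ⟨cst w - C (C (Polynomial.X - Polynomial.C (y : ℂ))) * P0,
    WW_sub (cst_mem hw) (CC_mul_mem_WW _ hP0),
    cst B + C (C (1 - Polynomial.C (y : ℂ) * Polynomial.X)) * P1,
    (WW AA n 0).add_mem (cst_mem hBm) (CC_mul_mem_WW _ hP1), ?_, ?_⟩
  · have e1 : io0 (Polynomial.X - Polynomial.C (y : ℂ)) = yL - LaurentPolynomial.C (y : ℂ) := by
      rw [map_sub, io0_X, io0_C]
    have e2 : io1 (1 - Polynomial.C (y : ℂ) * Polynomial.X)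
        = 1 - LaurentPolynomial.C (y : ℂ) * zL := by
      rw [map_sub, map_one, map_mul, io1_C, io1_X]
    rw [map_sub, map_mul, jo0_CC, map_add, map_mul, jo1_CC, map_add, gS_CC_mul, e1, e2, jo1_cst]
    have h3 : (C (C yL) : MX LL) * C (C zL) = 1 := by
      rw [← C_mul, ← C_mul, yL_mul_zL]; simp
    rw [hPe] at hDP
    rw [hD] at hDP
    have h4 : (C (C (LaurentPolynomial.T 1 - LaurentPolynomial.C (y : ℂ))) : MX LL)
        = C (C yL) - C (C (LaurentPolynomial.C (y : ℂ))) := by rw [yL]; simp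
    rw [h4] at hDP
    simp only [map_sub, map_pow, map_mul, map_one] at hDP ⊢
    linear_combination hDP + (C (C yL) ^ 3 * C (C (LaurentPolynomial.C (y : ℂ)))
      * gS (jo1 P1) : MX LL) * h3
  · rw [map_sub, atY_cst, map_mul, atY_CC]
    simp

/-- chart `0`, `y = 0`. -/
theorem exists_pair_zero_zero {n : ℕ} (h : VA n) {w : MX ℂ} (hw : w ∈ WW ℂ n 0) :
    ∃ A0 ∈ WW AA n 0, ∃ A1 ∈ WW AA n 0, jo0 A0 = C (C (yL ^ 4)) * gS (jo1 A1) ∧
      atY 0 A0 = w := by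
  obtain ⟨P0, hP0, P1, hP1, hPe⟩ := h (C (C zL) * jo0 (cst w))
    (CC_mul_mem_WW _ (jo0_mem_WW (cst_mem hw)))
  refine ⟨cst w - C (C Polynomial.X) * P0,
    WW_sub (cst_mem hw) (CC_mul_mem_WW _ hP0), P1, hP1, ?_, ?_⟩
  · have h3 : (C (C yL) : MX LL) * C (C zL) = 1 := by
      rw [← C_mul, ← C_mul, yL_mul_zL]; simp
    rw [map_sub, map_mul, jo0_CC, io0_X]
    simp only [map_pow] at hPe ⊢
    linear_combination (C (C yL) : MX LL) * hPe - jo0 (cst w) * h3
  · rw [map_sub, atY_cst, map_mul, atY_CC]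
    simp

/-- chart `1`, `z = 0`. -/
theorem exists_pair_one_zero {n : ℕ} (h : VA n) {w : MX ℂ} (hw : w ∈ WW ℂ n 0) :
    ∃ A0 ∈ WW AA n 0, ∃ A1 ∈ WW AA n 0, jo0 A0 = C (C (yL ^ 4)) * gS (jo1 A1) ∧
      atY 0 A1 = w := by
  obtain ⟨P0, hP0, P1, hP1, hPe⟩ := h (C (C (yL ^ 4)) * gS (jo0 (cst w)))
    (CC_mul_mem_WW _ (gS_mem_WW (jo0_mem_WW (cst_mem hw))))
  refine ⟨P0, hP0, cst w - C (C Polynomial.X) * P1,
    WW_sub (cst_mem hw) (CC_mul_mem_WW _ hP1), ?_, ?_⟩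
  · have h3 : (C (C yL) : MX LL) * C (C zL) = 1 := by
      rw [← C_mul, ← C_mul, yL_mul_zL]; simp
    rw [map_sub, map_mul, jo1_CC, io1_X, map_sub, gS_CC_mul, jo1_cst]
    simp only [map_pow] at hPe ⊢
    linear_combination -hPe + (C (C yL) ^ 3 * gS (jo1 P1) : MX LL) * h3
  · rw [map_sub, atY_cst, map_mul, atY_CC]
    simp

/-- every `w ∈ WW ℂ n 0` is the value of a pair at any point of any `y`-chart. -/
theorem exists_pair {n : ℕ} (h : VA n) (b : Fin 2) (y0 : ℂ) {w : MX ℂ} (hw : w ∈ WW ℂ n 0) :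
    ∃ A : Fin 2 → MX AA, IsPair n A ∧ atY y0 (A b) = w := by
  have mk : ∀ A0 ∈ WW AA n 0, ∀ A1 ∈ WW AA n 0, jo0 A0 = C (C (yL ^ 4)) * gS (jo1 A1) →
      IsPair n ![A0, A1] := by
    intro A0 h0 A1 h1 he
    refine ⟨?_, ?_⟩
    · intro b; fin_cases b
      · exact h0
      · exact h1
    · simpa using he
  fin_cases b
  · by_cases hy : y0 = 0
    · subst hy
      obtain ⟨A0, h0, A1, h1, he, hv⟩ := exists_pair_zero_zero h hw
      exact ⟨![A0, A1], mk A0 h0 A1 h1 he, by simpa using hv⟩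
    · obtain ⟨A0, h0, A1, h1, he, hv⟩ := exists_pair_zero_unit h (Units.mk0 y0 hy) hw
      exact ⟨![A0, A1], mk A0 h0 A1 h1 he, by simpa using hv⟩
  · by_cases hy : y0 = 0
    · subst hy
      obtain ⟨A0, h0, A1, h1, he, hv⟩ := exists_pair_one_zero h hw
      exact ⟨![A0, A1], mk A0 h0 A1 h1 he, by simpa using hv⟩
    · set y : ℂˣ := (Units.mk0 y0 hy)⁻¹ with hyd
      obtain ⟨A0, h0, A1, h1, he, hv⟩ := exists_pair_zero_unit h y
        (CC_mul_mem_WW ((y : ℂ) ^ 4) (gAt_mem y hw))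
      refine ⟨![A0, A1], mk A0 h0 A1 h1 he, ?_⟩
      have h5 := congrArg (atL y) he
      rw [atL_jo0, hv, map_mul, atL_CC, atL_gS, atL_jo1] at h5
      have h6 : evL y (yL ^ 4) = (y : ℂ) ^ 4 := by rw [map_pow, yL, evL_T]; simp
      rw [h6] at h5
      have h7 : (C (C (((y : ℂ)⁻¹) ^ 4)) : MX ℂ) * C (C ((y : ℂ) ^ 4)) = 1 := by
        rw [← C_mul, ← C_mul, ← mul_pow, inv_mul_cancel₀ y.ne_zero]; simp
      have h8 : gAt y w = gAt y (atY ((y⁻¹ : ℂˣ) : ℂ) A1) := by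
        linear_combination (C (C (((y : ℂ)⁻¹) ^ 4)) : MX ℂ) * h5
          - (gAt y w - gAt y (atY ((y⁻¹ : ℂˣ) : ℂ) A1)) * h7
      have h9 := congrArg (gAtInv y) h8
      rw [gAtInv_gAt, gAtInv_gAt] at h9
      have h10 : ((y⁻¹ : ℂˣ) : ℂ) = y0 := by rw [hyd, inv_inv]; rfl
      rw [h10] at h9
      simpa using h9.symm


/-! ### evaluation in `x` -/

/-- evaluation of the coefficients at `(x0, x1)`. -/
def evX (x0 x1 : ℂ) : MX ℂ →+* MvPolynomial (Fin 2) ℂ := MvPolynomial.map (MvPolynomial.eval ![x0, x1])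

/-- upper triangular substitution. -/
def sub2 (u c v : ℂ) : MvPolynomial (Fin 2) ℂ →ₐ[ℂ] MvPolynomial (Fin 2) ℂ :=
  aeval ![C u * X 0, C c * X 0 + C v * X 1]

theorem sub2_X0 (u c v : ℂ) : sub2 u c v (X 0) = C u * X 0 := by simp [sub2]

theorem sub2_X1 (u c v : ℂ) : sub2 u c v (X 1) = C c * X 0 + C v * X 1 := by simp [sub2]

theorem sub2_C (u c v r : ℂ) : sub2 u c v (C r) = C r := by simp [sub2]

theorem frameSubst_eq_sub2 (M : Matrix (Fin 2) (Fin 2) ℂ) (h : M 1 0 = 0)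
    (Q : MvPolynomial (Fin 2) ℂ) : frameSubst M Q = sub2 (M 0 0) (M 0 1) (M 1 1) Q := by
  unfold frameSubst sub2
  have : (fun j : Fin 2 => ∑ i, (C (M i j) : MvPolynomial (Fin 2) ℂ) * X i) =
      ![C (M 0 0) * X 0, C (M 0 1) * X 0 + C (M 1 1) * X 1] := by
    funext j
    fin_cases j
    · simp [Fin.sum_univ_two, h]
    · simp [Fin.sum_univ_two]
  rw [this]
  rfl

theorem sub2_sub2 (u c v u' c' v' : ℂ) (Q : MvPolynomial (Fin 2) ℂ) :
    sub2 u c v (sub2 u' c' v' Q) = sub2 (u * u') (u * c' + c * v') (v * v') Q := by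
  have h : (sub2 u c v).comp (sub2 u' c' v') = sub2 (u * u') (u * c' + c * v') (v * v') := by
    apply MvPolynomial.algHom_ext
    intro i
    fin_cases i
    · simp only [Fin.zero_eta, AlgHom.comp_apply, sub2_X0, map_mul, sub2_C]
      ring
    · simp only [Fin.mk_one, AlgHom.comp_apply, sub2_X1, sub2_X0, map_mul, map_add, sub2_C]
      ring
  exact congrArg (fun F : MvPolynomial (Fin 2) ℂ →ₐ[ℂ] MvPolynomial (Fin 2) ℂ => F Q) h

theorem sub2_one (Q : MvPolynomial (Fin 2) ℂ) : sub2 1 0 1 Q = Q := by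
  have h : sub2 1 0 1 = AlgHom.id ℂ (MvPolynomial (Fin 2) ℂ) := by
    apply MvPolynomial.algHom_ext
    intro i
    fin_cases i
    · simp [sub2_X0]
    · simp [sub2_X1]
  rw [h]; rfl

theorem evX_gR (x0 x1 u v : ℂ) (q : SX ℂ) (Q : MX ℂ) :
    evX x0 x1 (gR u v q Q) = sub2 u (MvPolynomial.eval ![x0, x1] q) v (evX x0 x1 Q) := by
  have h : (evX x0 x1).comp (gR u v q).toRingHom =
      (sub2 u (MvPolynomial.eval ![x0, x1] q) v).toRingHom.comp (evX x0 x1) := by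
    apply MvPolynomial.ringHom_ext
    · intro r
      simp [evX]
    · intro i
      fin_cases i <;> simp [gR_X0, gR_X1, evX, sub2_X0, sub2_X1]
  exact congrArg (fun F : MX ℂ →+* MvPolynomial (Fin 2) ℂ => F Q) h

theorem eval_smul_homogeneous {a : ℕ} {c : SX ℂ} (hc : c.IsHomogeneous a) (t x0 x1 : ℂ) :
    MvPolynomial.eval ![t * x0, t * x1] c = t ^ a * MvPolynomial.eval ![x0, x1] c := by
  rw [MvPolynomial.eval_eq', MvPolynomial.eval_eq', Finset.mul_sum]
  refine Finset.sum_congr rfl fun d hd => ?_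
  have h1 : d 0 + d 1 = a := by
    have := hc (mem_support_iff.1 hd)
    rw [Finsupp.weight_apply, Finsupp.sum_fintype] at this
    · simpa [Fin.sum_univ_two] using this
    · simp
  simp only [Fin.prod_univ_two, Matrix.cons_val_zero, Matrix.cons_val_one, mul_pow]
  rw [← h1, pow_add]
  ring

theorem evX_smul {n a : ℕ} {Q : MX ℂ} (hQ : Q ∈ WW ℂ n a) (t x0 x1 : ℂ) :
    evX (t * x0) (t * x1) Q = C (t ^ a) * sub2 (t ^ 2) 0 1 (evX x0 x1 Q) := by
  induction n generalizing a Q with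
  | zero =>
    obtain ⟨c, hc, rfl⟩ := mem_WW_zero hQ
    simp only [evX, map_C, sub2_C]
    rw [eval_smul_homogeneous hc, C_mul]
  | succ n ih =>
    obtain ⟨c, hc, Q', hQ', rfl⟩ := mem_WW_succ hQ
    have h1 := ih hQ'
    have h2 : ∀ y0 y1 : ℂ, evX y0 y1 (C c * X 1 ^ (n + 1) + X 0 * Q') =
        C (MvPolynomial.eval ![y0, y1] c) * X 1 ^ (n + 1) + X 0 * evX y0 y1 Q' := by
      intro y0 y1
      simp [evX]
    rw [h2, h2, h1, eval_smul_homogeneous hc]
    simp only [map_add, map_mul, map_pow, sub2_C, sub2_X0, sub2_X1]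
    simp only [map_zero, map_one]
    ring


/-- the section attached to a pair. -/
def secOf (A : Fin 2 → MX AA) : Chart → (Fin 2 → ℂ) → MvPolynomial (Fin 2) ℂ := fun α p =>
  MvPolynomial.map (MvPolynomial.eval ![hx0 α.1 (p 0), hx1 α.1 (p 0)]) (atY (p 1) (A α.2))

theorem secOf_eq (A : Fin 2 → MX AA) (α : Chart) (p : Fin 2 → ℂ) :
    secOf A α p = evX (hx0 α.1 (p 0)) (hx1 α.1 (p 0)) (atY (p 1) (A α.2)) := rfl

theorem gg_differentiable_hx0 (a : Fin 2) : Differentiable ℂ (fun p : Fin 2 → ℂ => hx0 a (p 0)) := by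
  unfold hx0
  split_ifs
  · exact differentiable_const _
  · exact differentiable_apply 0

theorem gg_differentiable_hx1 (a : Fin 2) : Differentiable ℂ (fun p : Fin 2 → ℂ => hx1 a (p 0)) := by
  unfold hx1
  split_ifs
  · exact differentiable_apply 0
  · exact differentiable_const _

theorem differentiable_coeff (a : Fin 2) (q : SX AA) :
    Differentiable ℂ (fun p : Fin 2 → ℂ => MvPolynomial.eval ![hx0 a (p 0), hx1 a (p 0)]
      (MvPolynomial.map (Polynomial.evalRingHom (p 1)) q)) := by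
  induction q using MvPolynomial.induction_on with
  | C c =>
    simp only [map_C, eval_C, Polynomial.coe_evalRingHom]
    have h1 : Differentiable ℂ (fun z : ℂ => Polynomial.eval z c) := c.differentiable
    exact h1.comp (differentiable_apply (1 : Fin 2))
  | add q1 q2 h1 h2 =>
    simp only [map_add]
    exact h1.add h2
  | mul_X q i h =>
    simp only [map_mul, map_X, eval_X]
    refine h.mul ?_
    fin_cases i
    · exact gg_differentiable_hx0 a
    · exact gg_differentiable_hx1 a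

theorem evL_Pp (y : ℂˣ) (x0 x1 : ℂ) :
    MvPolynomial.eval ![x0, x1] (MvPolynomial.map (evL y) offL) =
      ((y : ℂ) ^ 3)⁻¹ * PP (muB 0) x0 x1 (y : ℂ) := by
  have h1 : evL y (zL ^ 3) = ((y : ℂ) ^ 3)⁻¹ := by rw [map_pow, zL, evL_T]; simp
  have h2 : evL y (mL 0) = muB 0 := evL_C y _
  have h3 : evL y yL = (y : ℂ) := by rw [yL, evL_T]; simp
  unfold offL
  rw [map_mul, map_C, map_mul, eval_C, h1, map_Pp, h2, h3]
  congr 1
  unfold Pp PP
  simp only [map_mul, map_add, map_sub, map_neg, map_pow, map_one, map_ofNat, eval_C, eval_X,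
    Matrix.cons_val_zero, Matrix.cons_val_one]

theorem evX_gAt (y : ℂˣ) (x0 x1 : ℂ) (Q : MX ℂ) :
    evX x0 x1 (gAt y Q) =
      sub2 (((y : ℂ) ^ 4)⁻¹) (((y : ℂ) ^ 3)⁻¹ * PP (muB 0) x0 x1 (y : ℂ)) ((y : ℂ) ^ 8)
        (evX x0 x1 Q) := by
  unfold gAt
  rw [evX_gR, evL_Pp, inv_pow]

/-- value of the pair relation at `y ≠ 0`. -/
theorem pair_rel {n : ℕ} {A : Fin 2 → MX AA} (hA : IsPair n A) {y : ℂ} (hy : y ≠ 0) (x0 x1 : ℂ) :
    evX x0 x1 (atY y (A 0)) = C (y ^ 4) *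
      sub2 ((y ^ 4)⁻¹) ((y ^ 3)⁻¹ * PP (muB 0) x0 x1 y) (y ^ 8)
        (evX x0 x1 (atY y⁻¹ (A 1))) := by
  have h := congrArg (atL (Units.mk0 y hy)) hA.2
  rw [atL_jo0, map_mul, atL_CC, atL_gS, atL_jo1] at h
  have h6 : evL (Units.mk0 y hy) (yL ^ 4) = y ^ 4 := by rw [map_pow, yL, evL_T]; simp
  rw [h6] at h
  have h7 : (((Units.mk0 y hy)⁻¹ : ℂˣ) : ℂ) = y⁻¹ := by simp
  rw [h7] at h
  have h8 := congrArg (evX x0 x1) h
  rw [map_mul, evX_gAt] at h8
  simpa [evX] using h8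

theorem muB_one_eq : muB 0 = 2 - muB 1 := by
  rw [← muB_add]; ring

/-- the reversed relation. -/
theorem pair_rel' {n : ℕ} {A : Fin 2 → MX AA} (hA : IsPair n A) {y : ℂ} (hy : y ≠ 0) (x0 x1 : ℂ) :
    evX x0 x1 (atY y (A 1)) = C (y ^ 4) *
      sub2 ((y ^ 4)⁻¹) ((y ^ 3)⁻¹ * PP (muB 1) x0 x1 y) (y ^ 8)
        (evX x0 x1 (atY y⁻¹ (A 0))) := by
  have h := pair_rel hA (inv_ne_zero hy) x0 x1
  rw [inv_inv] at h
  have hP : PP (muB 0) x0 x1 y⁻¹ = -(y⁻¹ ^ 10 * PP (muB 1) x0 x1 y) := by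
    rw [muB_one_eq]
    exact PP_inv _ _ _ _ _ (muB_sq 1) (mul_inv_cancel₀ hy)
  rw [h, hP, map_mul, sub2_C, sub2_sub2]
  have e1 : (y ^ 4)⁻¹ * ((y⁻¹) ^ 4)⁻¹ = 1 := by field_simp
  have e2 : (y ^ 4)⁻¹ * (((y⁻¹) ^ 3)⁻¹ * -(y⁻¹ ^ 10 * PP (muB 1) x0 x1 y)) +
      (y ^ 3)⁻¹ * PP (muB 1) x0 x1 y * y⁻¹ ^ 8 = 0 := by
    field_simp
    ring
  have e3 : y ^ 8 * (y⁻¹) ^ 8 = 1 := by field_simp
  rw [e1, e2, e3, sub2_one, ← mul_assoc, ← C_mul]
  have e4 : y ^ 4 * y⁻¹ ^ 4 = 1 := by field_simp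
  rw [e4, C_1, one_mul]

theorem hx_tau (α β : Chart) {p : Fin 2 → ℂ} (hp : p ∈ overlap α β) :
    hx0 β.1 (tau α β p 0) = (if α.1 = β.1 then 1 else (p 0)⁻¹) * hx0 α.1 (p 0) ∧
    hx1 β.1 (tau α β p 0) = (if α.1 = β.1 then 1 else (p 0)⁻¹) * hx1 α.1 (p 0) := by
  obtain ⟨a, b⟩ := α
  obtain ⟨a', b'⟩ := β
  have hx := hp.1
  fin_cases a <;> fin_cases a' <;> simp [hx0, hx1, tau] at hx ⊢ <;> field_simp

theorem isSec_secOf {n : ℕ} {A : Fin 2 → MX AA} (hA : IsPair n A) :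
    IsSec gBase n 0 4 (secOf A) := by
  have hm : ∀ (b : Fin 2) (y : ℂ), atY y (A b) ∈ WW ℂ n 0 := fun b y => map_mem_WW _ (hA.1 b)
  refine ⟨fun α p => ?_, fun α m => ?_, fun α β p hp => ?_⟩
  · exact (hm α.2 (p 1)).1.map _
  · have : (fun p => MvPolynomial.coeff m (secOf A α p)) = fun p : Fin 2 → ℂ =>
        MvPolynomial.eval ![hx0 α.1 (p 0), hx1 α.1 (p 0)]
        (MvPolynomial.map (Polynomial.evalRingHom (p 1)) (coeff m (A α.2))) := by
      funext p
      unfold secOf atY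
      rw [coeff_map, coeff_map]
    rw [this]
    exact differentiable_coeff _ _
  · rw [secOf_eq, secOf_eq, (hx_tau α β hp).1, (hx_tau α β hp).2, evX_smul (hm β.2 _),
      frameSubst_eq_sub2 _ (by simp [gBase]), map_mul, sub2_C, sub2_sub2, pow_zero, C_1, one_mul,
      mul_zero, zero_add, mul_one]
    set x0 := hx0 α.1 (p 0) with hx0d
    set x1 := hx1 α.1 (p 0) with hx1d
    have e0 : gBase α β p 0 0 * (if α.1 = β.1 then 1 else (p 0)⁻¹) ^ 2 =
        if α.2 = β.2 then 1 else ((p 1) ^ 4)⁻¹ := by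
      by_cases h1 : α.1 = β.1
      · simp [gBase, h1]
      · have := hp.1 h1
        simp only [gBase, h1, if_false, Matrix.of_apply, Matrix.cons_val_zero]
        field_simp
    have e1 : gBase α β p 0 1 = if α.2 = β.2 then 0 else
        ((p 1) ^ 3)⁻¹ * PP (muB α.2) x0 x1 (p 1) := by
      simp [gBase, hx0d, hx1d]
    have e2 : gBase α β p 1 1 = if α.2 = β.2 then 1 else (p 1) ^ 8 := by simp [gBase]
    rw [e0, e1, e2]
    have hl : lineTrans 0 4 α β p = if α.2 = β.2 then 1 else (p 1) ^ 4 := by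
      simp [lineTrans]
    rw [hl]
    by_cases h2 : α.2 = β.2
    · have ht : tau α β p 1 = p 1 := by simp [tau, h2]
      simp only [h2, if_true, mul_one, sub2_one, one_smul, ht]
    · have hy := hp.2 h2
      have ht : tau α β p 1 = (p 1)⁻¹ := by simp [tau, h2]
      simp only [h2, if_false, ht]
      rw [MvPolynomial.smul_eq_C_mul]
      have h3 : (α.2 = 0 ∧ β.2 = 1) ∨ (α.2 = 1 ∧ β.2 = 0) := by
        generalize α.2 = b at h2 ⊢
        generalize β.2 = b' at h2 ⊢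
        fin_cases b <;> fin_cases b' <;> simp at h2 ⊢
      rcases h3 with ⟨h4, h5⟩ | ⟨h4, h5⟩
      · rw [h4, h5, mul_one]
        exact pair_rel hA hy x0 x1
      · rw [h4, h5, mul_one]
        exact pair_rel' hA hy x0 x1

/-- every homogeneous polynomial is the value at `(hx0, hx1)` of some `w ∈ WW ℂ n 0`. -/
theorem exists_WW_eval {n : ℕ} (a : Fin 2) (x : ℂ) {P : MvPolynomial (Fin 2) ℂ}
    (hP : P.IsHomogeneous n) :
    ∃ w ∈ WW ℂ n 0, MvPolynomial.map (MvPolynomial.eval ![hx0 a x, hx1 a x]) w = P := by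
  classical
  refine ⟨∑ m ∈ P.support, monomial m (C (coeff m P) * X a ^ (2 * m 0)), ?_, ?_⟩
  · refine (WW ℂ n 0).sum_mem fun m hm => ?_
    rw [mem_WW]
    constructor
    · apply isHomogeneous_monomial
      rw [Finsupp.degree_eq_weight_one]
      exact hP (mem_support_iff.1 hm)
    · intro m'
      rw [coeff_monomial]
      split_ifs with h
      · subst h
        have := (isHomogeneous_C (Fin 2) (coeff m P)).mul
          (isHomogeneous_X_pow (R := ℂ) a (2 * m 0))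
        simpa using this
      · exact isHomogeneous_zero _ _ _
  · have hv : (![hx0 a x, hx1 a x] : Fin 2 → ℂ) a = 1 := by
      fin_cases a <;> simp [hx0, hx1]
    rw [map_sum]
    conv_rhs => rw [P.as_sum]
    refine Finset.sum_congr rfl fun m _ => ?_
    rw [map_monomial, map_mul, map_pow, eval_C, eval_X, hv]
    simp

theorem GG_gBase {n : ℕ} (h : VA n) : GG gBase n 0 4 := by
  intro α p P hP
  obtain ⟨w, hw, hwP⟩ := exists_WW_eval α.1 (p 0) hP
  obtain ⟨A, hA, hAw⟩ := exists_pair h α.2 (p 1) hw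
  refine ⟨secOf A, isSec_secOf hA, ?_⟩
  simp only [secOf, hAw, hwP]

end Crest.Agent.R258
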